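import Mathlib

/-! P103: pointwise derivative bounds. -/

namespace Vale.Agent.P103S

variable {E F G : Type*} [NormedAddCommGroup E] [NormedSpace ℝ E]
  [NormedAddCommGroup F] [NormedSpace ℝ F] [NormedAddCommGroup G] [NormedSpace ℝ G]

/-- `f` is differentiable at `x` with derivative of norm at most `K`. -/
def DB (f : E → F) (x : E) (K : ℝ) : Prop := DifferentiableAt ℝ f x ∧ ‖fderiv ℝ f x‖ ≤ K

lemma DB.comp {f : E → F} {g : F → G} {x : E} {K L : ℝ} (hg : DB g (f x) L) (hf : DB f x K) :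
    DB (g ∘ f) x (L * K) := by
  refine ⟨hg.1.comp x hf.1, ?_⟩
  rw [fderiv_comp x hg.1 hf.1]
  exact (ContinuousLinearMap.opNorm_comp_le _ _).trans
    (mul_le_mul hg.2 hf.2 (norm_nonneg _) ((norm_nonneg _).trans hg.2))

lemma DB.mono {f : E → F} {x : E} {K L : ℝ} (hf : DB f x K) (h : K ≤ L) : DB f x L :=
  ⟨hf.1, hf.2.trans h⟩

lemma DB.congr {f g : E → F} {x : E} {K : ℝ} (hf : DB f x K) (h : g =ᶠ[nhds x] f) :
    DB g x K := ⟨hf.1.congr_of_eventuallyEq h, by rw [h.fderiv_eq]; exact hf.2⟩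

lemma DB.const (c : F) (x : E) {K : ℝ} (hK : 0 ≤ K) : DB (fun _ : E => c) x K := by
  refine ⟨differentiableAt_const c, ?_⟩
  simpa using hK

lemma DB.of_lipschitz {f : E → F} {x : E} {K : NNReal} (hd : DifferentiableAt ℝ f x)
    {s : Set E} (hs : s ∈ nhds x) (hl : LipschitzOnWith K f s) : DB f x K :=
  ⟨hd, norm_fderiv_le_of_lipschitzOn ℝ hs hl⟩

lemma DB.add {f g : E → F} {x : E} {K L : ℝ} (hf : DB f x K) (hg : DB g x L) :
    DB (fun y => f y + g y) x (K + L) := by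
  refine ⟨hf.1.add hg.1, ?_⟩
  rw [fderiv_fun_add hf.1 hg.1]
  exact (norm_add_le _ _).trans (add_le_add hf.2 hg.2)

lemma DB.sub {f g : E → F} {x : E} {K L : ℝ} (hf : DB f x K) (hg : DB g x L) :
    DB (fun y => f y - g y) x (K + L) := by
  refine ⟨hf.1.sub hg.1, ?_⟩
  rw [fderiv_fun_sub hf.1 hg.1]
  exact (norm_sub_le _ _).trans (add_le_add hf.2 hg.2)

lemma DB.smul {f : E → ℝ} {g : E → F} {x : E} {K L a b : ℝ} (hf : DB f x K) (hg : DB g x L)
    (ha : |f x| ≤ a) (hb : ‖g x‖ ≤ b) :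
    DB (fun y => f y • g y) x (a * L + K * b) := by
  refine ⟨hf.1.smul hg.1, ?_⟩
  rw [fderiv_fun_smul hf.1 hg.1]
  refine (norm_add_le _ _).trans (add_le_add ?_ ?_)
  · rw [norm_smul, Real.norm_eq_abs]
    exact mul_le_mul ha hg.2 (norm_nonneg _) ((abs_nonneg _).trans ha)
  · rw [ContinuousLinearMap.norm_smulRight_apply]
    exact mul_le_mul hf.2 hb (norm_nonneg _) ((norm_nonneg _).trans hf.2)

lemma DB.mul {f g : E → ℂ} {x : E} {K L a b : ℝ} (hf : DB f x K) (hg : DB g x L)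
    (ha : ‖f x‖ ≤ a) (hb : ‖g x‖ ≤ b) :
    DB (fun y => f y * g y) x (a * L + K * b) := by
  refine ⟨hf.1.mul hg.1, ?_⟩
  rw [fderiv_fun_mul hf.1 hg.1]
  refine (norm_add_le _ _).trans (add_le_add ?_ ?_)
  · rw [norm_smul]
    exact mul_le_mul ha hg.2 (norm_nonneg _) ((norm_nonneg _).trans ha)
  · rw [norm_smul, mul_comm K b]
    exact mul_le_mul hb hf.2 (norm_nonneg _) ((norm_nonneg _).trans hb)

lemma DB.prodMk {f : E → F} {g : E → G} {x : E} {K L M : ℝ} (hf : DB f x K) (hg : DB g x L)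
    (hK : K ≤ M) (hL : L ≤ M) : DB (fun y => (f y, g y)) x M := by
  refine ⟨hf.1.prodMk hg.1, ?_⟩
  rw [hf.1.fderiv_prodMk hg.1, ContinuousLinearMap.opNorm_prod]
  exact max_le (hf.2.trans hK) (hg.2.trans hL)

end Vale.Agent.P103S
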