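import Vale.Agent.P103S.Num
import Vale.Agent.P103S.DB

/-! P103: the degree two circle maps and periodic functions of the argument. -/

namespace Vale.Agent.P103S

noncomputable section

open Real Function

/-- Lift of the degree two circle map with slope `l` at the fixed point `0`. -/
def ph (l th : ℝ) : ℝ := 2 * th + (l - 2) * tau th

/-- Iterate. -/
def phN (l : ℝ) (m : ℕ) : ℝ → ℝ := (ph l)^[m]

/-- Unit vector with angle `phN`. -/
def En (l : ℝ) (m : ℕ) (th : ℝ) : ℂ := Complex.exp (((phN l m th : ℝ) : ℂ) * Complex.I)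

/-- `arcsin ∘ sin`. -/
def saw (th : ℝ) : ℝ := Real.arcsin (Real.sin th)

/-- The derivative of `tau`. -/
def dtau (th : ℝ) : ℝ :=
  stp ((Real.cos th - 2 / 100) / (94 / 100))
    + saw th * (dstp ((Real.cos th - 2 / 100) / (94 / 100)) * (-Real.sin th / (94 / 100)))

lemma abs_saw_le (th : ℝ) : |saw th| ≤ π / 2 :=
  abs_le.2 ⟨Real.neg_pi_div_two_le_arcsin _, Real.arcsin_le_pi_div_two _⟩

lemma saw_mul_sin_nonneg (th : ℝ) : 0 ≤ saw th * Real.sin th := by
  rcases le_total 0 (Real.sin th) with h | h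
  · exact mul_nonneg (Real.arcsin_nonneg.2 h) h
  · exact mul_nonneg_of_nonpos_of_nonpos (Real.arcsin_nonpos.2 h) h

lemma hasDerivAt_tau (th : ℝ) : HasDerivAt tau (dtau th) th := by
  rcases lt_or_ge (Real.cos th) (1 / 100) with h | h
  · have e : ∀ᶠ y in nhds th, tau y = 0 := by
      filter_upwards [Real.continuous_cos.continuousAt.eventually_lt continuousAt_const h] with y hy
      have : (Real.cos y - 2 / 100) / (94 / 100) ≤ 0 :=
        div_nonpos_of_nonpos_of_nonneg (by linarith) (by norm_num)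
      simp [tau, stp_of_le this]
    have hc : (Real.cos th - 2 / 100) / (94 / 100) ≤ 0 :=
      div_nonpos_of_nonpos_of_nonneg (by linarith) (by norm_num)
    have : dtau th = 0 := by simp [dtau, stp_of_le hc, dstp_of_le hc]
    rw [this]
    exact (hasDerivAt_const th (0:ℝ)).congr_of_eventuallyEq e
  · have hcos : 0 < Real.cos th := by linarith
    have hlt : Real.sin th ^ 2 < 1 := by nlinarith [Real.sin_sq_add_cos_sq th]
    have hsaw : HasDerivAt saw 1 th := by
      have h1 : Real.sin th ≠ -1 := fun e => by rw [e] at hlt; norm_num at hlt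
      have h2 : Real.sin th ≠ 1 := fun e => by rw [e] at hlt; norm_num at hlt
      refine ((Real.hasDerivAt_arcsin h1 h2).comp th (Real.hasDerivAt_sin th)).congr_deriv ?_
      rw [← Real.cos_sq', Real.sqrt_sq hcos.le]
      field_simp
    have harg : HasDerivAt (fun y => (Real.cos y - 2 / 100) / (94 / 100))
        (-Real.sin th / (94 / 100)) th :=
      ((Real.hasDerivAt_cos th).sub_const _).div_const _
    refine (hsaw.mul ((hasDerivAt_stp _).comp th harg)).congr_deriv ?_
    simp [dtau]

lemma deriv_tau : deriv tau = dtau := funext fun x => (hasDerivAt_tau x).deriv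

lemma hasDerivAt_ph (l th : ℝ) : HasDerivAt (ph l) (2 + (l - 2) * dtau th) th := by
  refine (((hasDerivAt_id th).const_mul 2).add ((hasDerivAt_tau th).const_mul (l - 2))).congr_deriv
    ?_
  simp

lemma contDiff_tau : ContDiff ℝ 1 tau := by
  refine contDiff_one_iff_deriv.2 ⟨fun x => (hasDerivAt_tau x).differentiableAt, ?_⟩
  rw [deriv_tau]
  have := contDiff_stp.continuous
  have := continuous_dstp
  have : Continuous saw := Real.continuous_arcsin.comp Real.continuous_sin
  unfold dtau
  fun_prop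

lemma tau_of_abs_le {th : ℝ} (h : |th| ≤ cz) : tau th = th := by
  unfold cz at h
  have hc := Real.one_sub_sq_div_two_le_cos (x := th)
  have h2 : th ^ 2 ≤ 1 / 16 := by nlinarith [abs_le.1 h]
  have hge : 1 ≤ (Real.cos th - 2 / 100) / (94 / 100) := by
    rw [le_div_iff₀ (by norm_num)]
    linarith
  have hpi := Real.pi_gt_three
  rw [tau, stp_of_ge hge, mul_one,
    Real.arcsin_sin (by linarith [(abs_le.1 h).1]) (by linarith [(abs_le.1 h).2])]

lemma tau_periodic : Periodic tau (2 * π) := by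
  intro x
  simp [tau, Real.sin_add_two_pi, Real.cos_add_two_pi]

lemma abs_tau_le (th : ℝ) : |tau th| ≤ 2 := by
  have h1 := abs_saw_le th
  have h2 := stp_mem ((Real.cos th - 2 / 100) / (94 / 100))
  have hpi := Real.pi_lt_d2
  rw [show tau th = saw th * stp ((Real.cos th - 2 / 100) / (94 / 100)) from rfl, abs_mul,
    abs_of_nonneg h2.1]
  nlinarith [h2.2, abs_nonneg (saw th)]

lemma deriv_tau_mem (th : ℝ) : deriv tau th ∈ Set.Icc (-3 : ℝ) 1 := by
  rw [deriv_tau, dtau]
  set c := (Real.cos th - 2 / 100) / (94 / 100)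
  have h1 := stp_mem c
  have h2 := dstp_mem c
  have h3 := saw_mul_sin_nonneg th
  have h4 : saw th * Real.sin th ≤ π / 2 := by
    calc saw th * Real.sin th ≤ |saw th * Real.sin th| := le_abs_self _
      _ = |saw th| * |Real.sin th| := abs_mul _ _
      _ ≤ π / 2 * 1 := mul_le_mul (abs_saw_le th) (Real.abs_sin_le_one th) (abs_nonneg _)
          (by positivity)
      _ = π / 2 := mul_one _
  have hpi := Real.pi_lt_d2
  have h5 : dstp c * (saw th * Real.sin th) ≤ 3 / 2 * (315 / 200) :=
    mul_le_mul h2.2 (by linarith) h3 (by norm_num)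
  have h6 : 0 ≤ dstp c * (saw th * Real.sin th) := mul_nonneg h2.1 h3
  have e : saw th * (dstp c * (-Real.sin th / (94 / 100)))
      = -(dstp c * (saw th * Real.sin th)) * (100 / 94) := by ring
  rw [e]
  constructor <;> nlinarith [h1.1, h1.2]

lemma phN_add (l : ℝ) (a b : ℕ) (th : ℝ) : phN l (a + b) th = phN l a (phN l b th) := by
  simp [phN, Function.iterate_add_apply]

lemma phN_add_two_pi (l : ℝ) (m : ℕ) (th : ℝ) :
    phN l m (th + 2 * π) = phN l m th + 2 ^ m * (2 * π) := by
  induction m generalizing th with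
  | zero => simp [phN]
  | succ m ih =>
    simp only [phN, Function.iterate_succ_apply'] at ih ⊢
    rw [ih th]
    have hper : tau ((ph l)^[m] th + 2 ^ m * (2 * π)) = tau ((ph l)^[m] th) := by
      have := tau_periodic.nat_mul (2 ^ m) ((ph l)^[m] th)
      push_cast at this
      exact this
    simp only [ph, hper]
    ring

lemma phN_zero_angle (l : ℝ) (m : ℕ) : phN l m 0 = 0 := by
  refine Function.iterate_fixed ?_ m
  simp [ph, tau_of_abs_le (th := 0) (by norm_num [cz])]

lemma phN_exact {l : ℝ} (hl : 1 ≤ l) (m : ℕ) {th : ℝ} (h : l ^ m * |th| ≤ cz) :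
    phN l m th = l ^ m * th := by
  induction m generalizing th with
  | zero => simp [phN]
  | succ m ih =>
    have hm : (1:ℝ) ≤ l ^ m := one_le_pow₀ hl
    have h1 : |th| ≤ cz :=
      le_trans (le_mul_of_one_le_left (abs_nonneg _) (one_le_pow₀ hl)) h
    have h2 : ph l th = l * th := by rw [ph, tau_of_abs_le h1]; ring
    simp only [phN, Function.iterate_succ_apply] at ih ⊢
    rw [h2, ih (by rw [abs_mul, abs_of_nonneg (by linarith : 0 ≤ l), ← mul_assoc, ← pow_succ]; exact h)]
    ring

lemma contDiff_phN (l : ℝ) (m : ℕ) : ContDiff ℝ 1 (phN l m) := by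
  induction m with
  | zero => exact contDiff_id
  | succ m ih =>
    have : ContDiff ℝ 1 (ph l) :=
      (contDiff_const.mul contDiff_id).add (contDiff_const.mul contDiff_tau)
    rw [phN, Function.iterate_succ']
    exact this.comp ih

lemma abs_deriv_phN {l : ℝ} (hl : 3 ≤ l) (hl' : l ≤ 13 / 4) (m : ℕ) (th : ℝ) :
    |deriv (phN l m) th| ≤ l ^ m := by
  induction m with
  | zero => simp [phN]
  | succ m ih =>
    have h1 := hasDerivAt_ph l (phN l m th)
    have h2 := ((contDiff_phN l m).differentiable one_ne_zero th).hasDerivAt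
    have h3 : deriv (phN l (m + 1)) th
        = (2 + (l - 2) * dtau (phN l m th)) * deriv (phN l m) th := by
      rw [show phN l (m + 1) = ph l ∘ phN l m from Function.iterate_succ' _ _]
      exact (h1.comp th h2).deriv
    rw [h3, abs_mul, pow_succ, mul_comm (l ^ m)]
    refine mul_le_mul ?_ ih (abs_nonneg _) (by linarith)
    have hb := deriv_tau_mem (phN l m th)
    rw [deriv_tau] at hb
    rw [abs_le]
    constructor <;> nlinarith [hb.1, hb.2]

lemma abs_phN_sub {l : ℝ} (hl : 2 ≤ l) (hl' : l ≤ 13 / 4) (m : ℕ) (th : ℝ) :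
    |phN l m th - 2 ^ m * th| ≤ 3 * 2 ^ m := by
  suffices |phN l m th - 2 ^ m * th| ≤ 5 / 2 * (2 ^ m - 1) by
    have h2 : (0:ℝ) < 2 ^ m := by positivity
    linarith
  induction m with
  | zero => simp [phN]
  | succ m ih =>
    rw [show phN l (m + 1) th = ph l (phN l m th) from Function.iterate_succ_apply' _ _ _]
    have h1 := abs_le.1 ih
    have h2 := abs_le.1 (abs_tau_le (phN l m th))
    rw [abs_le, ph, pow_succ]
    constructor <;> nlinarith

lemma norm_En (l : ℝ) (m : ℕ) (th : ℝ) : ‖En l m th‖ = 1 :=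
  Complex.norm_exp_ofReal_mul_I _

lemma En_periodic (l : ℝ) (m : ℕ) : Periodic (En l m) (2 * π) := by
  intro th
  unfold En
  rw [phN_add_two_pi]
  push_cast
  rw [show ((phN l m th : ℂ) + 2 ^ m * (2 * (π : ℂ))) * Complex.I
      = (phN l m th : ℂ) * Complex.I + ((2 ^ m : ℕ) : ℤ) * (2 * (π : ℂ) * Complex.I) by
        push_cast; ring, Complex.exp_add, Complex.exp_int_mul_two_pi_mul_I, mul_one]

/-- Composition of `En` along the iterates only depends on the unit vector. -/
lemma En_arg_En (l : ℝ) (a b : ℕ) (th : ℝ) :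
    En l a (Complex.arg (En l b th)) = En l (a + b) th := by
  rw [show En l b th = Complex.exp (((phN l b th : ℝ) : ℂ) * Complex.I) from rfl,
    Complex.arg_exp_mul_I, toIocMod, (En_periodic l a).sub_zsmul_eq]
  simp [En, phN_add]

lemma comp_arg_eq {F : Type*} {P Q : ℝ → F} (hP : Periodic P (2 * π)) {x y : ℂ}
    (hQ : Q = fun t => P (t + Complex.arg x)) (hx : x ≠ 0) (hy : y ≠ 0) :
    P (Complex.arg y) = Q (Complex.log (y * x⁻¹)).im := by
  subst hQ
  have hne : y * x⁻¹ ≠ 0 := mul_ne_zero hy (inv_ne_zero hx)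
  have hyx : y * x⁻¹ * x = y := by field_simp
  have h := Complex.arg_mul_coe_angle hne hx
  rw [hyx, ← Real.Angle.coe_add, Real.Angle.angle_eq_iff_two_pi_dvd_sub] at h
  obtain ⟨k, hk⟩ := h
  rw [Complex.log_im]
  have e : Complex.arg y = Complex.arg (y * x⁻¹) + Complex.arg x + (k : ℝ) * (2 * π) := by
    linarith
  rw [e]
  exact (hP.int_mul k) _

/-- A periodic `C^1` function of the argument. -/
lemma db_comp_arg {F : Type*} [NormedAddCommGroup F] [NormedSpace ℝ F] {P : ℝ → F} {K : ℝ}
    (hP : Periodic P (2 * π)) (hd : Differentiable ℝ P) (hb : ∀ t, ‖deriv P t‖ ≤ K)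
    {x : ℂ} (hx : x ≠ 0) : DB (fun y : ℂ => P (Complex.arg y)) x (K / ‖x‖) := by
  have hK : 0 ≤ K := (norm_nonneg _).trans (hb 0)
  obtain ⟨Q, hQ⟩ : ∃ Q : ℝ → F, Q = fun t => P (t + Complex.arg x) := ⟨_, rfl⟩
  have hQd : ∀ t, DB Q t K := by
    intro t
    subst hQ
    refine ⟨(hd _).comp t (by fun_prop), ?_⟩
    rw [← norm_deriv_eq_norm_fderiv, deriv_comp_add_const]
    exact hb _
  have hlog : DB (fun y : ℂ => (Complex.log (y * x⁻¹)).im) x (1 / ‖x‖) := by
    have h1 : HasDerivAt (fun y : ℂ => Complex.log (y * x⁻¹)) (x⁻¹) x := by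
      have := (Complex.hasDerivAt_log (z := x * x⁻¹) (by simp [hx])).comp x
        ((hasDerivAt_id x).mul_const x⁻¹)
      simpa [hx, Function.comp_def] using this
    have h2 := (Complex.imCLM.hasFDerivAt.comp x (h1.hasFDerivAt.restrictScalars ℝ))
    change DB (⇑Complex.imCLM ∘ fun y : ℂ => Complex.log (y * x⁻¹)) x (1 / ‖x‖)
    refine ⟨h2.differentiableAt, ?_⟩
    rw [h2.fderiv]
    refine ContinuousLinearMap.opNorm_le_bound _ (by positivity) fun v => ?_
    refine (Complex.abs_im_le_norm _).trans (le_of_eq ?_)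
    simp [div_eq_inv_mul, mul_comm]
  have := DB.comp (hQd _) hlog
  rw [mul_one_div] at this
  refine this.congr ?_
  filter_upwards [isOpen_ne.mem_nhds hx] with y hy
  exact comp_arg_eq hP hQ hx hy

lemma contDiffAt_comp_arg {F : Type*} [NormedAddCommGroup F] [NormedSpace ℝ F] {P : ℝ → F}
    (hP : Periodic P (2 * π)) (hd : ContDiff ℝ 1 P) {x : ℂ} (hx : x ≠ 0) :
    ContDiffAt ℝ 1 (fun y : ℂ => P (Complex.arg y)) x := by
  have h1 : ContDiffAt ℝ 1 (fun y : ℂ => (Complex.log (y * x⁻¹)).im + Complex.arg x) x := by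
    refine ContDiffAt.add ?_ contDiffAt_const
    show ContDiffAt ℝ 1 (⇑Complex.imCLM ∘ fun y : ℂ => Complex.log (y * x⁻¹)) x
    refine Complex.imCLM.contDiff.contDiffAt.comp x ?_
    have h2 : ContDiffAt ℂ 1 Complex.log (x * x⁻¹) := Complex.contDiffAt_log (by simp [hx])
    exact (h2.restrict_scalars ℝ).comp x (f := fun y : ℂ => y * x⁻¹)
      (contDiffAt_id.mul contDiffAt_const)
  refine (hd.contDiffAt.comp x h1).congr_of_eventuallyEq ?_
  filter_upwards [isOpen_ne.mem_nhds hx] with y hy
  exact comp_arg_eq hP rfl hx hy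

end

end Vale.Agent.P103S
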