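import Mathlib

/-! P103: a monotone degree one circle map with a plateau and irrational rotation number. -/

namespace Vale.Agent.P103S

noncomputable section

open Function Filter Topology

/-- The base data: a lift `Ph` of a circle map, semi-conjugate to the rotation by `al`, with a dense
family of fibres which contain intervals. -/
structure Base where
  /-- Lift of the circle map. -/
  Ph : ℝ → ℝ
  /-- Rotation number. -/
  al : ℝ
  /-- Semi-conjugacy. -/
  h : ℝ → ℝ
  /-- Rotation values whose fibre contains an interval. -/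
  gaps : Set ℝ
  contDiff_Ph : ContDiff ℝ 1 Ph
  mono_Ph : Monotone Ph
  Ph_add_one : ∀ z, Ph (z + 1) = Ph z + 1
  irr : Irrational al
  mono_h : Monotone h
  cont_h : Continuous h
  h_add_one : ∀ z, h (z + 1) = h z + 1
  h_Ph : ∀ z, h (Ph z) = h z + al
  gap_interval : ∀ x ∈ gaps, ∃ p q : ℝ, p < q ∧ ∀ z ∈ Set.Icc p q, h z = x
  gaps_dense : Dense gaps
  gaps_countable : gaps.Countable

namespace Base

variable (B : Base)

lemma Ph_iter_add_one (k : ℕ) (z : ℝ) : B.Ph^[k] (z + 1) = B.Ph^[k] z + 1 := by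
  induction k generalizing z with
  | zero => simp
  | succ k ih => simp [Function.iterate_succ_apply, B.Ph_add_one, ih]

lemma h_iter (k : ℕ) (z : ℝ) : B.h (B.Ph^[k] z) = B.h z + k * B.al := by
  induction k generalizing z with
  | zero => simp
  | succ k ih => rw [Function.iterate_succ_apply, ih, B.h_Ph]; push_cast; ring

end Base

/-- The orbit of the rotation by an irrational number hits every interval in bounded time. -/
lemma exists_hit {al : ℝ} (hal : Irrational al) {a b : ℝ} (hab : a < b) :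
    ∃ N : ℕ, ∀ x : ℝ, ∃ k < N, ∃ n : ℤ, x + k * al + n ∈ Set.Ioo a b := by
  obtain ⟨N0, hN0⟩ := exists_nat_one_div_lt (sub_pos.2 hab)
  have hpos : 0 < N0 + 1 := Nat.succ_pos _
  obtain ⟨j, k, hk, -, hjk⟩ := Real.exists_int_int_abs_mul_sub_le al hpos
  have hd0 : (k : ℝ) * al - j ≠ 0 := by
    intro h
    have : al = ((j : ℚ) / (k : ℚ) : ℚ) := by
      have : (k : ℝ) ≠ 0 := by exact_mod_cast hk.ne'
      push_cast
      field_simp
      linarith
    exact hal ⟨_, this.symm⟩
  have hdε : |(k : ℝ) * al - j| < b - a := by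
    refine lt_of_le_of_lt (hjk.trans ?_) hN0
    push_cast
    gcongr
    linarith
  obtain ⟨K, rfl⟩ := Int.eq_ofNat_of_zero_le hk.le
  push_cast at hd0 hdε
  set d := (K : ℝ) * al - j with hd
  have hdp : 0 < |d| := abs_pos.2 hd0
  refine ⟨K * (⌈1 / |d|⌉₊ + 1) + 1, fun x => ?_⟩
  have key : ∀ y : ℝ, 0 ≤ y → y < 1 →
      ∃ i : ℕ, i ≤ ⌈1 / |d|⌉₊ + 1 ∧ y < i * |d| ∧ i * |d| ≤ y + |d| := by
    intro y hy hy1
    refine ⟨⌊y / |d|⌋₊ + 1, ?_, ?_, ?_⟩
    · have : y / |d| ≤ 1 / |d| := by gcongr
      have := (Nat.floor_le_floor this).trans (Nat.floor_le_ceil _)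
      omega
    · have := Nat.lt_floor_add_one (y / |d|)
      rw [div_lt_iff₀ hdp] at this
      push_cast
      linarith
    · have := Nat.floor_le (div_nonneg hy hdp.le)
      rw [le_div_iff₀ hdp] at this
      push_cast
      linarith
  rcases lt_or_gt_of_ne hd0 with hneg | hp
  · obtain ⟨i, hi, h1, h2⟩ := key (x + ⌈b - x⌉ - b)
      (by have := Int.le_ceil (b - x); linarith) (by have := Int.ceil_lt_add_one (b - x); linarith)
    refine ⟨i * K, Nat.lt_succ_of_le ((Nat.mul_le_mul_right K hi).trans (Nat.mul_comm _ _).le),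
      ⌈b - x⌉ - (i : ℤ) * j, ?_, ?_⟩
    all_goals
      rw [abs_of_neg hneg] at h1 h2 hdε
      push_cast
      nlinarith
  · obtain ⟨i, hi, h1, h2⟩ := key (a - x - ⌊a - x⌋)
      (by have := Int.floor_le (a - x); linarith) (by have := Int.lt_floor_add_one (a - x); linarith)
    refine ⟨i * K, Nat.lt_succ_of_le ((Nat.mul_le_mul_right K hi).trans (Nat.mul_comm _ _).le),
      ⌊a - x⌋ - (i : ℤ) * j, ?_, ?_⟩
    all_goals
      rw [abs_of_pos hp] at h1 h2 hdε
      push_cast
      nlinarith

/-- A smooth degree one monotone function with a flat interval in each period. -/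
def Phi0 (z : ℝ) : ℝ := ⌊z⌋ + Real.smoothTransition (2 * Int.fract z)

lemma Phi0_local (n : ℤ) {z : ℝ} (hz : z ∈ Set.Ioo ((n : ℝ) - 1 / 2) (n + 1)) :
    Phi0 z = n + Real.smoothTransition (2 * (z - n)) := by
  obtain ⟨h1, h2⟩ := hz
  by_cases h : (n : ℝ) ≤ z
  · have : ⌊z⌋ = n := Int.floor_eq_iff.2 ⟨h, h2⟩
    simp [Phi0, Int.fract, this]
  · push Not at h
    have : ⌊z⌋ = n - 1 := Int.floor_eq_iff.2 ⟨by push_cast; linarith, by push_cast; linarith⟩
    rw [Phi0, Int.fract, this, Real.smoothTransition.one_of_one_le (by push_cast; linarith),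
      Real.smoothTransition.zero_of_nonpos (by linarith)]
    push_cast
    ring

lemma contDiff_Phi0 : ContDiff ℝ 1 Phi0 := by
  rw [contDiff_iff_contDiffAt]
  intro z
  have hz : z ∈ Set.Ioo ((⌊z⌋ : ℝ) - 1 / 2) (⌊z⌋ + 1) :=
    ⟨by have := Int.floor_le z; linarith, Int.lt_floor_add_one z⟩
  have hs : ContDiff ℝ 1 fun y : ℝ => (⌊z⌋ : ℝ) + Real.smoothTransition (2 * (y - ⌊z⌋)) :=
    contDiff_const.add (Real.smoothTransition.contDiff.comp
      (contDiff_const.mul (contDiff_id.sub contDiff_const)))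
  refine hs.contDiffAt.congr_of_eventuallyEq ?_
  filter_upwards [Ioo_mem_nhds hz.1 hz.2] with y hy
  exact Phi0_local _ hy

lemma Phi0_add_one (z : ℝ) : Phi0 (z + 1) = Phi0 z + 1 := by
  simp [Phi0]
  ring

lemma Phi0_mono : Monotone Phi0 := by
  intro x y hxy
  rcases (Int.floor_mono hxy).eq_or_lt with h | h
  · unfold Phi0
    rw [h]
    gcongr
    refine Real.smoothTransition.monotone ?_
    simp only [Int.fract, h]
    linarith
  · have h' : (⌊x⌋ : ℝ) + 1 ≤ ⌊y⌋ := by exact_mod_cast h
    have := Real.smoothTransition.le_one (2 * Int.fract x)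
    have := Real.smoothTransition.nonneg (2 * Int.fract y)
    unfold Phi0
    linarith

lemma Phi0_zero : Phi0 0 = 0 := by simp [Phi0]

lemma Phi0_flat {z : ℝ} (hz : z ∈ Set.Icc (1 / 2 : ℝ) 1) : Phi0 z = 1 := by
  obtain ⟨h1, h2⟩ := hz
  rcases h2.eq_or_lt with rfl | h
  · simpa [Phi0_zero] using Phi0_add_one 0
  · rw [Phi0_local 0 ⟨by push_cast; linarith, by push_cast; linarith⟩,
      Real.smoothTransition.one_of_one_le (by push_cast; linarith)]
    simp

/-- The translates of `Phi0`. -/
def PhiLift (t : ℝ) : CircleDeg1Lift where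
  toFun z := Phi0 z + t
  monotone' := fun _ _ h => add_le_add_left (Phi0_mono h) t
  map_add_one' z := by simp [Phi0_add_one]; ring

lemma PhiLift_apply (t z : ℝ) : PhiLift t z = Phi0 z + t := rfl

/-- Some translate of `Phi0` has irrational translation number. -/
lemma exists_irrational_translate : ∃ t : ℝ, Irrational (PhiLift t).translationNumber := by
  have hit : ∀ n : ℕ, Continuous fun t => (⇑(PhiLift t))^[n] 0 := by
    intro n
    induction n with
    | zero => simpa using continuous_const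
    | succ n ih =>
      simp only [Function.iterate_succ_apply', PhiLift_apply]
      exact (contDiff_Phi0.continuous.comp ih).add continuous_id
  have hu : TendstoUniformly (fun (n : ℕ) t => (⇑(PhiLift t))^[n] 0 / n)
      (fun t => (PhiLift t).translationNumber) atTop := by
    rw [Metric.tendstoUniformly_iff]
    intro ε hε
    obtain ⟨N, hN⟩ := exists_nat_one_div_lt hε
    refine Filter.eventually_atTop.2 ⟨N + 1, fun n hn t => ?_⟩
    have h := (PhiLift t).dist_pow_map_zero_mul_translationNumber_le n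
    rw [CircleDeg1Lift.coe_pow, Real.dist_eq] at h
    have hn0 : (N : ℝ) + 1 ≤ n := by exact_mod_cast hn
    have hn' : (0 : ℝ) < n := lt_of_lt_of_le (by positivity) hn0
    refine lt_of_le_of_lt ?_ hN
    rw [Real.dist_eq, abs_sub_comm, div_sub' hn'.ne', abs_div, abs_of_pos hn']
    exact div_le_div₀ zero_le_one h (by positivity) hn0
  have hc : Continuous fun t => (PhiLift t).translationNumber :=
    hu.continuous (Filter.Eventually.frequently
      (Filter.Eventually.of_forall fun n => (hit n).div_const _))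
  have h0 : (PhiLift 0).translationNumber = 0 := by
    simpa using (PhiLift 0).translationNumber_of_eq_add_int (x := 0) (m := 0)
      (by simp [PhiLift_apply, Phi0_zero])
  have h1 : (PhiLift 1).translationNumber = 1 := by
    simpa using (PhiLift 1).translationNumber_of_eq_add_int (x := 0) (m := 1)
      (by simp [PhiLift_apply, Phi0_zero])
  have hsq : √2 - 1 ∈ Set.Icc (0 : ℝ) 1 := by
    constructor <;> nlinarith [Real.sq_sqrt (zero_le_two : (0 : ℝ) ≤ 2), Real.sqrt_nonneg 2]
  have := intermediate_value_Icc zero_le_one hc.continuousOn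
  rw [h0, h1] at this
  obtain ⟨t, -, ht⟩ := this hsq
  refine ⟨t, ?_⟩
  simp only at ht
  rw [ht]
  simpa using irrational_sqrt_two.sub_intCast 1

section Semiconj

variable (f : CircleDeg1Lift)

/-- Deviation of the orbit from the rotation. -/
def dev (z : ℝ) (n : ℕ) : ℝ := (⇑f)^[n] z - n * f.translationNumber

/-- Supremum of the deviations after time `N`. -/
def devSup (z : ℝ) (N : ℕ) : ℝ := ⨆ n, dev f z (n + N)

/-- The semi-conjugacy to the rotation. -/
def semi (z : ℝ) : ℝ := ⨅ N, devSup f z N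

lemma dev_mem (z : ℝ) (n : ℕ) :
    dev f z n ∈ Set.Icc ((⌊z⌋ : ℝ) - 1) (⌊z⌋ + 2) := by
  have h := f.dist_pow_map_zero_mul_translationNumber_le n
  rw [Real.dist_eq, abs_le] at h
  have hl := (f ^ n).mono (Int.floor_le z)
  have hu := (f ^ n).mono (Int.lt_floor_add_one z).le
  rw [CircleDeg1Lift.map_int_of_map_zero] at hl
  rw [CircleDeg1Lift.map_add_one, CircleDeg1Lift.map_int_of_map_zero] at hu
  rw [CircleDeg1Lift.coe_pow] at h hl hu
  unfold dev
  constructor <;> linarith [h.1, h.2]

lemma bddAbove_dev (z : ℝ) (N : ℕ) : BddAbove (Set.range fun n => dev f z (n + N)) :=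
  ⟨(⌊z⌋ : ℝ) + 2, by rintro _ ⟨n, rfl⟩; exact (dev_mem f z _).2⟩

lemma bddBelow_devSup (z : ℝ) : BddBelow (Set.range (devSup f z)) := by
  refine ⟨(⌊z⌋ : ℝ) - 1, ?_⟩
  rintro _ ⟨N, rfl⟩
  exact (dev_mem f z (0 + N)).1.trans (le_ciSup (bddAbove_dev f z N) 0)

lemma semi_mono : Monotone (semi f) := fun x y hxy =>
  ciInf_mono (bddBelow_devSup f x) fun N => ciSup_mono (bddAbove_dev f y N) fun _ =>
    sub_le_sub_right (f.monotone.iterate _ hxy) _

lemma semi_add_one (z : ℝ) : semi f (z + 1) = semi f z + 1 := by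
  unfold semi
  rw [ciInf_add (bddBelow_devSup f z)]
  refine iInf_congr fun N => ?_
  unfold devSup
  rw [ciSup_add (bddAbove_dev f z N)]
  refine iSup_congr fun n => ?_
  unfold dev
  rw [← CircleDeg1Lift.coe_pow, CircleDeg1Lift.map_add_one]
  ring

lemma semi_apply (z : ℝ) : semi f (f z) = semi f z + f.translationNumber := by
  have hb : BddBelow (Set.range fun N => devSup f z (N + 1)) :=
    (bddBelow_devSup f z).mono (Set.range_comp_subset_range (fun N : ℕ => N + 1) (devSup f z))
  have hs : ∀ N, devSup f (f z) N = devSup f z (N + 1) + f.translationNumber := by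
    intro N
    unfold devSup
    rw [ciSup_add (bddAbove_dev f z _)]
    refine iSup_congr fun n => ?_
    unfold dev
    rw [← Function.iterate_succ_apply, ← add_assoc]
    push_cast
    ring
  unfold semi
  simp only [hs]
  rw [← ciInf_add hb]
  congr 1
  refine le_antisymm (ciInf_mono hb fun N => ?_) (le_ciInf fun N => ciInf_le (bddBelow_devSup f z) _)
  refine ciSup_le fun n => ?_
  have := le_ciSup (bddAbove_dev f z N) (n + 1)
  rwa [show n + 1 + N = n + (N + 1) by omega] at this

lemma semi_iterate (k : ℕ) (z : ℝ) :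
    semi f ((⇑f)^[k] z) = semi f z + k * f.translationNumber := by
  induction k with
  | zero => simp
  | succ k ih => rw [Function.iterate_succ_apply', semi_apply, ih]; push_cast; ring

/-- The semi-conjugacy as a lift. -/
def semiLift : CircleDeg1Lift where
  toFun := semi f
  monotone' := semi_mono f
  map_add_one' := semi_add_one f

lemma semi_add_int (z : ℝ) (n : ℤ) : semi f (z + n) = semi f z + n :=
  (semiLift f).map_add_int z n

lemma semi_continuous (hf : Irrational f.translationNumber) : Continuous (semi f) := by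
  refine (semi_mono f).continuous_of_denseRange ?_
  refine dense_iff_inter_open.2 ?_
  intro U hU ⟨u, hu⟩
  obtain ⟨r, hr, hball⟩ := Metric.isOpen_iff.1 hU u hu
  obtain ⟨N, hN⟩ := exists_hit hf (show u - r < u + r by linarith)
  obtain ⟨k, -, n, hkn⟩ := hN (semi f 0)
  refine ⟨semi f 0 + k * f.translationNumber + n, hball ?_, (⇑f)^[k] 0 + n, ?_⟩
  · rwa [Real.ball_eq_Ioo]
  · rw [semi_add_int, semi_iterate]

end Semiconj

theorem exists_base : Nonempty Base := by
  obtain ⟨t, ht⟩ := exists_irrational_translate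
  set f := PhiLift t with hf
  have hcd : ContDiff ℝ 1 ⇑f := contDiff_Phi0.add contDiff_const
  refine ⟨⟨f, f.translationNumber, semi f,
    {x | ∃ k : ℕ, ∃ n : ℤ, x = semi f (1 / 2) - k * f.translationNumber + n},
    hcd, f.monotone, f.map_add_one, ht, semi_mono f, semi_continuous f ht, semi_add_one f,
    semi_apply f, ?_, ?_, ?_⟩⟩
  · rintro x ⟨k, n, rfl⟩
    have hflat : ∀ z ∈ Set.Icc (1 / 2 : ℝ) 1, semi f z = semi f (1 / 2) := by
      intro z hz
      have h1 := semi_apply f z
      have h2 := semi_apply f (1 / 2)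
      rw [hf, PhiLift_apply, Phi0_flat hz, ← hf] at h1
      rw [hf, PhiLift_apply, Phi0_flat ⟨le_rfl, by norm_num⟩, ← hf] at h2
      linarith
    have hopen : IsOpen ((⇑f)^[k] ⁻¹' Set.Ioo (1 / 2 : ℝ) 1) :=
      isOpen_Ioo.preimage (hcd.continuous.iterate k)
    have hsurj : Function.Surjective ((⇑f)^[k]) :=
      ((CircleDeg1Lift.continuous_iff_surjective f).1 hcd.continuous).iterate k
    obtain ⟨u, hu⟩ := hsurj (3 / 4)
    obtain ⟨r, hr, hball⟩ := Metric.isOpen_iff.1 hopen u (by simp [hu]; norm_num)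
    refine ⟨u - r / 2 + n, u + r / 2 + n, by linarith, fun z hz => ?_⟩
    have hz' : z - n ∈ Metric.ball u r := by
      rw [Real.ball_eq_Ioo]
      constructor <;> linarith [hz.1, hz.2]
    have h := hflat _ (Set.Ioo_subset_Icc_self (hball hz'))
    rw [semi_iterate] at h
    have h' := semi_add_int f (z - n) n
    rw [sub_add_cancel] at h'
    linarith
  · refine dense_iff_inter_open.2 ?_
    intro U hU ⟨u, hu⟩
    obtain ⟨r, hr, hball⟩ := Metric.isOpen_iff.1 hU u hu
    obtain ⟨N, hN⟩ := exists_hit ht (show -u - r < -u + r by linarith)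
    obtain ⟨k, -, n, hkn⟩ := hN (-semi f (1 / 2))
    refine ⟨semi f (1 / 2) - k * f.translationNumber + ((-n : ℤ) : ℝ), hball ?_, k, -n, rfl⟩
    rw [Real.ball_eq_Ioo]
    push_cast
    constructor <;> linarith [hkn.1, hkn.2]
  · refine (Set.countable_range fun q : ℕ × ℤ =>
      semi f (1 / 2) - q.1 * f.translationNumber + q.2).mono ?_
    rintro x ⟨k, n, rfl⟩
    exact ⟨(k, n), rfl⟩

end

end Vale.Agent.P103S
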