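import Vale.Agent.P103S.Tower

/-! P103: bounds for the corrections and the choice of all the parameters. -/

namespace Vale.Agent.P103S

noncomputable section

open Real Finset Function

variable {B : Base} {mmin : ℕ → ℕ} (Wd : Windows B mmin) {s : ℕ → ℝ}

lemma contDiff_f0u : ContDiff ℝ 1 f0u := by
  refine contDiff_iff_contDiffAt.2 fun u => ?_
  by_cases hu : u = 0
  · refine (contDiffAt_const (c := (0 : ℂ))).congr_of_eventuallyEq ?_
    filter_upwards [continuous_norm.continuousAt.eventually_lt continuousAt_const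
      (show ‖u‖ < 1 / 4 by simp [hu])] with y hy
    have hb : bBig ‖y‖ = 0 := stp_of_le (by linarith [norm_nonneg y])
    simp [f0u, hb, rad_eq_zero (norm_nonneg y) hy.le]
  · have hn : ContDiffAt ℝ 1 (fun y : ℂ => ‖y‖) u := contDiffAt_norm ℝ hu
    have hb : ContDiffAt ℝ 1 (fun y : ℂ => bBig ‖y‖) u :=
      contDiff_stp.contDiffAt.comp u ((hn.sub contDiffAt_const).div_const 100)
    have hr : ContDiffAt ℝ 1 (fun y : ℂ => rad (lam 0) 0 ‖y‖) u :=
      contDiff_rad.contDiffAt.comp u hn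
    have ht : ContDiffAt ℝ 1 (fun y : ℂ => tau (Complex.arg y)) u :=
      contDiffAt_comp_arg tau_periodic contDiff_tau hu
    have hA : ContDiffAt ℝ 1 (fun y : ℂ =>
        (1 - bBig ‖y‖) * rad (lam 0) 0 ‖y‖ + bBig ‖y‖ * ‖y‖ ^ 2) u :=
      ((contDiffAt_const.sub hb).mul hr).add (hb.mul (hn.pow 2))
    have hP : ContDiffAt ℝ 1 (fun y : ℂ => (1 - bBig ‖y‖) * (lam 0 - 2) * tau (Complex.arg y)) u :=
      ((contDiffAt_const.sub hb).mul contDiffAt_const).mul ht
    have hdir : ContDiffAt ℝ 1 (fun y : ℂ => (y * ((‖y‖⁻¹ : ℝ) : ℂ)) ^ 2) u :=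
      (contDiffAt_id.mul (Complex.ofRealCLM.contDiff.contDiffAt.comp u
        (hn.inv (norm_ne_zero_iff.2 hu)))).pow 2
    refine (((Complex.ofRealCLM.contDiff.contDiffAt.comp u hA).mul hdir).mul
      (contDiff_expI.contDiffAt.comp u hP)).congr_of_eventuallyEq ?_
    filter_upwards [isOpen_ne.mem_nhds hu] with y hy
    have hd : y * ((‖y‖⁻¹ : ℝ) : ℂ) = Complex.exp ((Complex.arg y : ℂ) * Complex.I) := by
      rw [exp_arg_div hy, Complex.ofReal_inv, div_eq_mul_inv]
    simp only [f0u, Function.comp_apply, Complex.ofRealCLM_apply, hd]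
    rw [← Complex.exp_nat_mul, mul_assoc _ (Complex.exp _) (Complex.exp _), ← Complex.exp_add]
    congr 2
    push_cast
    ring

lemma contDiff_F0 : ContDiff ℝ 1 F0 := by
  have hb : ContDiff ℝ 1 fun x : ℂ × ℂ => bBig ‖x.1‖ := by
    refine contDiff_iff_contDiffAt.2 fun x => ?_
    by_cases hu : x.1 = 0
    · refine (contDiffAt_const (c := (0 : ℝ))).congr_of_eventuallyEq ?_
      filter_upwards [continuous_fst.norm.continuousAt.eventually_lt continuousAt_const
        (show ‖x.1‖ < 100 by simp [hu])] with y hy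
      exact stp_of_le (by linarith)
    · exact contDiff_stp.contDiffAt.comp x
        (((contDiffAt_fst.norm ℝ hu).sub contDiffAt_const).div_const 100)
  exact (contDiff_f0u.comp contDiff_fst).prodMk
    ((Complex.ofRealCLM.contDiff.comp (contDiff_const.sub hb)).mul (contDiff_sig.comp contDiff_snd))

lemma contDiff_coord (j : ℕ) : ContDiff ℝ 1 (coord s j) := by
  induction j with
  | zero => exact contDiff_id
  | succ j ih => exact contDiff_chart.comp ih

lemma contDiff_Lft (m : ℕ → ℕ) (j : ℕ) : ContDiff ℝ 1 (Lft s m j) := by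
  induction j with
  | zero => exact contDiff_id
  | succ j ih => exact ih.comp (contDiff_lift _)

lemma ret_eq_zero_of_lt {j M : ℕ} (hM : 0 < M) (h : M < Wd.m j) (z : ℝ) :
    Wd.ret (j + 1) M z = 0 := by
  by_contra hne
  exact absurd (Wd.ret_ne_zero hM hne).2 (not_le.2 h)

lemma contDiff_corr (hs : ScaleOK s) (j : ℕ) : ContDiff ℝ 1 (corr Wd s j) := by
  have hX : ContDiff ℝ 1 fun p : ℝ × ℂ × ℂ => coord s j p.2 := (contDiff_coord j).comp contDiff_snd
  have hold : ContDiff ℝ 1 fun p : ℝ × ℂ × ℂ => yOld Wd s j (coord s j p.2) :=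
    (contDiff_oldStep (q := par Wd s j (Wd.m j))).comp hX
  have hmix : ContDiff ℝ 1 fun p : ℝ × ℂ × ℂ => yMix Wd s j p.1 (coord s j p.2) := by
    refine hold.add (ContDiff.sum fun M hM => ?_)
    rcases lt_or_ge M (Wd.m j) with c | c
    · simpa [ret_eq_zero_of_lt Wd (Finset.mem_Icc.1 hM).1 c] using
        (contDiff_const : ContDiff ℝ 1 fun _ : ℝ × ℂ × ℂ => (0 : ℂ × ℂ))
    · exact ((Wd.contDiff_ret _ _).comp contDiff_fst).smul
        (((contDiff_newStep (par_good Wd s hs c)).comp hX).sub hold)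
  exact ((contDiff_Lft _ j).comp hmix).sub ((contDiff_Lft _ j).comp hold)

lemma coord_db (hs : ScaleOK s) (j : ℕ) (x : ℂ × ℂ) :
    DB (coord s j) x (∏ i ∈ range j, 40 / s (i + 1)) := by
  induction j with
  | zero =>
    refine ⟨differentiableAt_id, ?_⟩
    show ‖fderiv ℝ (fun y => y) x‖ ≤ _
    rw [fderiv_fun_id, Finset.prod_range_zero]
    exact ContinuousLinearMap.norm_id_le
  | succ j ih =>
    rw [Finset.prod_range_succ, mul_comm]
    exact (db_chart (hs.pos j) _).comp ih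

/-- The derivative bound of the lift of level `j`. -/
def LD (s : ℕ → ℝ) (m : ℕ → ℕ) (j : ℕ) : ℝ :=
  ∏ i ∈ range j, 3 * s (i + 1) / lam i ^ (m (i + 1) - m i)

lemma LD_nonneg (hs : ScaleOK s) (m : ℕ → ℕ) (j : ℕ) : 0 ≤ LD s m j :=
  prod_nonneg fun i _ => div_nonneg (mul_nonneg (by norm_num) (hs.pos i).le)
    (pow_nonneg (by linarith [three_lt_lam i]) _)

lemma Lft_db (hs : ScaleOK s) (m : ℕ → ℕ) :
    ∀ (j : ℕ) (Y : ℂ × ℂ), BoxL s j Y → DB (Lft s m j) Y (LD s m j)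
  | 0, Y, _ => by
    refine ⟨differentiableAt_id, ?_⟩
    show ‖fderiv ℝ (fun y => y) Y‖ ≤ _
    rw [fderiv_fun_id, LD, Finset.prod_range_zero]
    exact ContinuousLinearMap.norm_id_le
  | j + 1, Y, hY => by
    have hY : Y ∈ box (s (j + 1)) := hY.resolve_left (Nat.succ_ne_zero j)
    rw [LD, Finset.prod_range_succ]
    exact (Lft_db hs m j _ (boxL_lift hs hY)).comp
      (db_lift (one_le_lam j) (lam_lt_nu j).le (hs.pos j) (hs.le j) _ hY.2)

lemma LD_succ_le (hs : ScaleOK s) (m : ℕ → ℕ) (j : ℕ) : LD s m (j + 1) ≤ 3 * s (j + 1) := by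
  have h : ∀ i, 3 * s (i + 1) / lam i ^ (m (i + 1) - m i) ≤ 3 * s (i + 1) := fun i =>
    div_le_self (mul_nonneg (by norm_num) (hs.pos i).le) (one_le_pow₀ (one_le_lam i))
  rw [LD, Finset.prod_range_succ]
  refine (mul_le_of_le_one_left (div_nonneg (mul_nonneg (by norm_num) (hs.pos j).le)
    (pow_nonneg (by linarith [three_lt_lam j]) _)) (Finset.prod_le_one (fun i _ =>
    div_nonneg (mul_nonneg (by norm_num) (hs.pos i).le) (pow_nonneg (by linarith [three_lt_lam i]) _))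
    fun i _ => (h i).trans (by linarith [hs.le i]))).trans (h j)

lemma pow_m_le_prod (j : ℕ) :
    lam j ^ (Wd.m (j + 1) - 1) ≤ ∏ i ∈ range (j + 1), lam i ^ (Wd.m (i + 1) - Wd.m i) := by
  induction j with
  | zero => simp [Wd.m_zero]
  | succ j ih =>
    rw [Finset.prod_range_succ]
    have h1 := Wd.one_le_m (j + 1)
    have h2 : Wd.m (j + 1) ≤ Wd.m (j + 2) := m_mono Wd (j + 1)
    rw [show Wd.m (j + 1 + 1) - 1 = (Wd.m (j + 1) - 1) + (Wd.m (j + 1 + 1) - Wd.m (j + 1)) by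
      show Wd.m (j + 2) - 1 = _ + (Wd.m (j + 2) - _); omega, pow_add]
    have hpos : 0 ≤ lam (j + 1) := by linarith [three_lt_lam (j + 1)]
    refine mul_le_mul_of_nonneg_right ?_ (pow_nonneg hpos _)
    exact (pow_le_pow_left₀ hpos (lam_succ_lt_lam j).le _).trans ih

lemma LD_mul_coord_le (hs : ScaleOK s) (j : ℕ) :
    LD s Wd.m (j + 1) * (∏ i ∈ range (j + 1), 40 / s (i + 1)) * nu (j + 1) ^ Wd.m (j + 1)
      ≤ 480 * 120 ^ j * (nu (j + 1) / lam j) ^ Wd.m (j + 1) := by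
  set PL := ∏ i ∈ range (j + 1), lam i ^ (Wd.m (i + 1) - Wd.m i)
  have hPL : 0 < PL := prod_pos fun i _ => pow_pos (by linarith [three_lt_lam i]) _
  have e : LD s Wd.m (j + 1) * (∏ i ∈ range (j + 1), 40 / s (i + 1)) = 120 ^ (j + 1) / PL := by
    rw [LD, ← prod_mul_distrib, ← Finset.card_range (j + 1), ← prod_const, Finset.card_range,
      ← prod_div_distrib]
    refine prod_congr rfl fun i _ => ?_
    have := (hs.pos i).ne'
    field_simp
    norm_num
  have hl : 0 < lam j := by linarith [three_lt_lam j]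
  have hN : 0 ≤ nu (j + 1) ^ Wd.m (j + 1) := pow_nonneg (by linarith [three_lt_nu (j + 1)]) _
  have hp : lam j ^ Wd.m (j + 1) ≤ 4 * PL := by
    obtain ⟨k, hk⟩ := Nat.exists_eq_add_of_le (Wd.one_le_m (j + 1))
    have h := pow_m_le_prod Wd j
    rw [hk, Nat.add_sub_cancel_left] at h
    rw [hk, pow_add, pow_one]
    exact mul_le_mul (by linarith [lam_le j]) h (pow_nonneg hl.le _) (by norm_num)
  rw [e, div_pow, div_mul_eq_mul_div, mul_div_assoc', div_le_div_iff₀ hPL (pow_pos hl _)]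
  calc 120 ^ (j + 1) * nu (j + 1) ^ Wd.m (j + 1) * lam j ^ Wd.m (j + 1)
      ≤ 120 ^ (j + 1) * nu (j + 1) ^ Wd.m (j + 1) * (4 * PL) := by gcongr
    _ = _ := by ring

lemma box_of_le (hs : ScaleOK s) {j : ℕ} {Y : ℂ × ℂ} (h1 : ‖Y.1‖ ≤ 400) (h2 : ‖Y.2‖ ≤ 57) :
    Y ∈ box (s (j + 1)) :=
  ⟨h1.trans (le_trans (by norm_num) (le_trans (big_div hs (c := 1) le_rfl)
    (div_le_div_of_nonneg_right (by norm_num) (hs.pos j).le))), h2⟩

lemma yOld_small (hs : ScaleOK s) {j : ℕ} {X : ℂ × ℂ} (hX : ‖X.1‖ ≤ 82) :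
    ‖(yOld Wd s j X).1‖ ≤ 400 ∧ ‖(yOld Wd s j X).2‖ ≤ 57 :=
  norm_oldStep_le (par_good Wd s hs (M := Wd.m j) le_rfl) hX

lemma yMix_eq (j : ℕ) (z : ℝ) (X : ℂ × ℂ) : yMix Wd s j z X =
    (1 - ∑ M ∈ Finset.Icc 1 (Wd.Mx (j + 1)), Wd.ret (j + 1) M z) • yOld Wd s j X
      + ∑ M ∈ Finset.Icc 1 (Wd.Mx (j + 1)), Wd.ret (j + 1) M z • newStep (par Wd s j M) X := by
  simp only [yMix, smul_sub, sum_sub_distrib, sub_smul, one_smul, sum_smul]
  abel

lemma norm_mix_le {ι : Type*} {I : Finset ι} {r : ι → ℝ} (hr : ∀ i ∈ I, 0 ≤ r i)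
    (hr1 : ∑ i ∈ I, r i ≤ 1) {a : ℂ} {b : ι → ℂ} {K : ℝ} (ha : ‖a‖ ≤ K)
    (hb : ∀ i ∈ I, r i ≠ 0 → ‖b i‖ ≤ K) :
    ‖(1 - ∑ i ∈ I, r i) • a + ∑ i ∈ I, r i • b i‖ ≤ K := by
  refine (norm_add_le _ _).trans ?_
  rw [norm_smul, Real.norm_of_nonneg (by linarith)]
  refine (add_le_add (mul_le_mul_of_nonneg_left ha (by linarith)) ((norm_sum_le _ _).trans
    (sum_le_sum (g := fun i => r i * K) fun i hi => ?_))).trans_eq (by rw [← sum_mul]; ring)
  rw [norm_smul, Real.norm_of_nonneg (hr i hi)]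
  rcases eq_or_ne (r i) 0 with h | h
  · simp [h]
  · exact mul_le_mul_of_nonneg_left (hb i hi h) (hr i hi)

lemma yMix_small (hs : ScaleOK s) {j : ℕ} (z : ℝ) {X : ℂ × ℂ} (hX : ‖X.1‖ ≤ 82) :
    ‖(yMix Wd s j z X).1‖ ≤ 400 ∧ ‖(yMix Wd s j z X).2‖ ≤ 57 := by
  rw [yMix_eq]
  have hn : ∀ M ∈ Finset.Icc 1 (Wd.Mx (j + 1)), Wd.ret (j + 1) M z ≠ 0 → (par Wd s j M).Good :=
    fun M hM h => par_good Wd s hs (Wd.ret_ne_zero (Finset.mem_Icc.1 hM).1 h).2
  have h0 : ∀ M ∈ Finset.Icc 1 (Wd.Mx (j + 1)), 0 ≤ Wd.ret (j + 1) M z :=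
    fun M _ => Wd.ret_nonneg _ _ _
  constructor
  · simp only [Prod.fst_add, Prod.smul_fst, Prod.fst_sum]
    exact norm_mix_le h0 (Wd.sum_ret_le_one _ _ z) (yOld_small Wd hs hX).1
      fun M hM h => (norm_newStep_le (hn M hM h) hX).1
  · simp only [Prod.snd_add, Prod.smul_snd, Prod.snd_sum]
    exact norm_mix_le h0 (Wd.sum_ret_le_one _ _ z) (yOld_small Wd hs hX).2
      fun M hM h => (norm_newStep_le (hn M hM h) hX).2

lemma db_smul_const_fun {E F : Type*} [NormedAddCommGroup E] [NormedSpace ℝ E] [NormedAddCommGroup F]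
    [NormedSpace ℝ F] {f : E → F} {x : E} {K : ℝ} (hf : DB f x K) {c : ℝ} (hc : 0 ≤ c) :
    DB (fun y => c • f y) x (c * K) :=
  ((DB.const c x le_rfl).smul hf (abs_of_nonneg hc).le le_rfl).mono (by simp)

lemma db_sum {E F ι : Type*} [NormedAddCommGroup E] [NormedSpace ℝ E] [NormedAddCommGroup F]
    [NormedSpace ℝ F] {I : Finset ι} {f : ι → E → F} {x : E} {K : ι → ℝ}
    (hf : ∀ i ∈ I, DB (f i) x (K i)) : DB (fun y => ∑ i ∈ I, f i y) x (∑ i ∈ I, K i) := by
  classical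
  induction I using Finset.induction_on with
  | empty => simpa using DB.const (0 : F) x le_rfl
  | insert a I ha ih =>
    simp only [sum_insert ha]
    exact (hf a (mem_insert_self a I)).add (ih fun i hi => hf i (mem_insert_of_mem hi))

lemma eventually_corr_zero (hs : ScaleOK s) {j : ℕ} {x : ℂ × ℂ}
    (h : 82 < ‖(coord s j x).1‖) (z : ℝ) :
    (fun y => corr Wd s j (z, y)) =ᶠ[nhds x] fun _ => 0 := by
  filter_upwards [continuousAt_const.eventually_lt
    (continuous_fst.comp (contDiff_coord j).continuous).norm.continuousAt h] with y hy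
  exact corr_eq_zero_of_large Wd hs (le_trans (by norm_num) hy.le)

/-- A derivative bound for the corrections in the fibre direction which does not depend on the
windows or on the scales. -/
lemma exists_corr_fibre_bound : ∃ K : ℝ, 0 ≤ K ∧ ∀ (B : Base) (mmin : ℕ → ℕ)
    (Wd : Windows B mmin) (s : ℕ → ℝ), ScaleOK s → ∀ (j : ℕ) (z : ℝ) (x : ℂ × ℂ),
      DB (fun y => corr Wd s (j + 1) (z, y)) x
        (K * 120 ^ j * (nu (j + 1) / lam j) ^ Wd.m (j + 1)) := by
  obtain ⟨K, hK, hKb⟩ := exists_db_newStep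
  refine ⟨960 * K, by linarith, fun B mmin Wd s hs j z x => ?_⟩
  have hrat : 0 ≤ (nu (j + 1) / lam j) ^ Wd.m (j + 1) :=
    pow_nonneg (div_nonneg (by linarith [three_lt_nu (j + 1)]) (by linarith [three_lt_lam j])) _
  rcases lt_or_ge 82 ‖(coord s (j + 1) x).1‖ with c | c
  · exact (DB.const (0 : ℂ × ℂ) x (by positivity)).congr (eventually_corr_zero Wd hs c z)
  set N := nu (j + 1) ^ Wd.m (j + 1)
  set I := Finset.Icc 1 (Wd.Mx (j + 2))
  set X := coord s (j + 1) x
  have hold : DB (yOld Wd s (j + 1)) X (K * N) :=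
    (hKb (par Wd s (j + 1) (Wd.m (j + 1))) (par_good Wd s hs le_rfl) X c).2
  have hsum := Wd.sum_ret_le_one (j + 2) (Wd.Mx (j + 2)) z
  have hmix : DB (yMix Wd s (j + 1) z) X (K * N) := by
    rw [show yMix Wd s (j + 1) z = _ from funext (yMix_eq Wd (j + 1) z)]
    refine ((db_smul_const_fun hold (sub_nonneg.2 hsum)).add (db_sum (I := I)
      (K := fun M => Wd.ret (j + 2) M z * (K * N)) fun M hM => ?_)).mono
      (le_of_eq (by rw [← sum_mul]; ring))
    rcases eq_or_ne (Wd.ret (j + 2) M z) 0 with h | h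
    · simpa [h] using DB.const (0 : ℂ × ℂ) X le_rfl
    · have hg := par_good Wd s hs (j := j + 1) (Wd.ret_ne_zero (Finset.mem_Icc.1 hM).1 h).2
      exact db_smul_const_fun (hKb _ hg X c).1 (Wd.ret_nonneg _ _ _)
  have hbox : ∀ Y, ‖Y.1‖ ≤ 400 ∧ ‖Y.2‖ ≤ 57 → BoxL s (j + 1) Y :=
    fun Y hY => Or.inr (box_of_le hs hY.1 hY.2)
  have hC := coord_db hs (j + 1) x
  have h1 := DB.comp (f := yMix Wd s (j + 1) z ∘ coord s (j + 1)) (g := Lft s Wd.m (j + 1)) (x := x)
    (Lft_db hs Wd.m (j + 1) _ (hbox _ (yMix_small Wd hs z c)))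
    (DB.comp (f := coord s (j + 1)) hmix hC)
  have h2 := DB.comp (f := yOld Wd s (j + 1) ∘ coord s (j + 1)) (g := Lft s Wd.m (j + 1)) (x := x)
    (Lft_db hs Wd.m (j + 1) _ (hbox _ (yOld_small Wd hs c)))
    (DB.comp (f := coord s (j + 1)) hold hC)
  have h4 := h1.sub h2
  simp only [comp_apply] at h4
  simp only [corr]
  refine h4.mono ?_
  have h3 := mul_le_mul_of_nonneg_left (LD_mul_coord_le Wd hs j) hK
  linarith

lemma box_convex (t : ℝ) : Convex ℝ (box t) := by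
  have h : box t = Metric.closedBall (0 : ℂ) (10 / t) ×ˢ Metric.closedBall (0 : ℂ) 57 := by
    ext Y; simp [box]
  rw [h]
  exact (convex_closedBall _ _).prod (convex_closedBall _ _)

lemma exists_ret_deriv_bound (j : ℕ) : ∃ C : ℝ, 0 ≤ C ∧
    ∀ z : ℝ, ∑ M ∈ Finset.Icc 1 (Wd.Mx j), |deriv (Wd.ret j M) z| ≤ C := by
  set g := fun z : ℝ => ∑ M ∈ Finset.Icc 1 (Wd.Mx j), |deriv (Wd.ret j M) z|
  have hc : Continuous g :=
    continuous_finsetSum _ fun M _ => ((Wd.contDiff_ret j M).continuous_deriv le_rfl).abs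
  have hp : Periodic g 1 := fun z => by
    refine sum_congr rfl fun M _ => ?_
    rw [← deriv_comp_add_const]
    simp only [Wd.ret_periodic j M _]
  obtain ⟨C, hC⟩ := (hp.compact_of_continuous one_ne_zero hc).bddAbove
  exact ⟨max C 0, le_max_right _ _, fun z => (hC ⟨z, rfl⟩).trans (le_max_left _ _)⟩

/-- The size and the base derivative of a correction are controlled by the coarser scales. -/
lemma exists_corr_base_bound : ∀ j : ℕ, ∃ K : ℝ, 0 ≤ K ∧ ∀ s : ℕ → ℝ, ScaleOK s →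
    ∀ (z : ℝ) (x : ℂ × ℂ), ‖corr Wd s (j + 1) (z, x)‖ ≤ K * s (j + 1) ∧
      DB (fun t => corr Wd s (j + 1) (t, x)) z (K * s (j + 1)) := by
  intro j
  obtain ⟨C, hC, hCb⟩ := exists_ret_deriv_bound Wd (j + 2)
  refine ⟨2400 * (C + 1), by linarith, fun s hs z x => ?_⟩
  have hsp := (hs.pos j).le
  rcases lt_or_ge 82 ‖(coord s (j + 1) x).1‖ with c | c
  · have h0 : ∀ t, corr Wd s (j + 1) (t, x) = 0 := fun t =>
      corr_eq_zero_of_large Wd hs (le_trans (by norm_num) c.le)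
    simp only [h0, norm_zero]
    exact ⟨by positivity, DB.const 0 z (by positivity)⟩
  set X := coord s (j + 1) x
  have hbox : ∀ t, yMix Wd s (j + 1) t X ∈ box (s (j + 1)) := fun t =>
    box_of_le hs (yMix_small Wd hs t c).1 (yMix_small Wd hs t c).2
  have hbo := box_of_le (j := j) hs (yOld_small Wd hs (j := j + 1) c).1 (yOld_small Wd hs c).2
  have hd : ∀ Y ∈ box (s (j + 1)), DB (Lft s Wd.m (j + 1)) Y (3 * s (j + 1)) := fun Y hY =>
    (Lft_db hs Wd.m (j + 1) Y (Or.inr hY)).mono (LD_succ_le hs _ j)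
  constructor
  · refine ((box_convex _).norm_image_sub_le_of_norm_fderiv_le (𝕜 := ℝ) (fun Y hY => (hd Y hY).1)
      (fun Y hY => (hd Y hY).2) hbo (hbox z)).trans ?_
    have hdiff : ‖yMix Wd s (j + 1) z X - yOld Wd s (j + 1) X‖ ≤ 800 := by
      obtain ⟨a1, a2⟩ := yMix_small Wd hs (j := j + 1) z c
      obtain ⟨b1, b2⟩ := yOld_small Wd hs (j := j + 1) c
      refine max_le ((norm_sub_le _ _).trans ?_) ((norm_sub_le _ _).trans ?_)
      · linarith
      · linarith
    refine (mul_le_mul_of_nonneg_left hdiff (by positivity)).trans ?_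
    linarith [mul_nonneg hC hsp]
  · have hmix : DB (fun t => yMix Wd s (j + 1) t X) z (C * 800) := by
      refine ((DB.const (yOld Wd s (j + 1) X) z le_rfl).add (db_sum
        (K := fun M => |deriv (Wd.ret (j + 2) M) z| * 800) fun M hM => ?_)).mono ?_
      · rcases lt_or_ge M (Wd.m (j + 1)) with h | h
        · simpa [ret_eq_zero_of_lt Wd (Finset.mem_Icc.1 hM).1 h] using
            DB.const (0 : ℂ × ℂ) z (K := |deriv (Wd.ret (j + 2) M) z| * 800) (by positivity)
        · have hv : ‖newStep (par Wd s (j + 1) M) X - yOld Wd s (j + 1) X‖ ≤ 800 := by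
            obtain ⟨a1, a2⟩ := norm_newStep_le (par_good Wd s hs h) (x := X) c
            obtain ⟨b1, b2⟩ := yOld_small Wd hs (j := j + 1) c
            refine max_le ((norm_sub_le _ _).trans ?_) ((norm_sub_le _ _).trans ?_)
            · linarith
            · linarith
          exact ((db_of_deriv ((Wd.contDiff_ret _ _).differentiable (by simp))
            (le_of_eq (Real.norm_eq_abs _))).smul (DB.const _ z le_rfl) le_rfl hv).mono (by simp)
      · rw [← sum_mul, zero_add]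
        exact mul_le_mul_of_nonneg_right (hCb z) (by norm_num)
    simp only [corr]
    refine (((DB.comp (f := fun t => yMix Wd s (j + 1) t X) (g := Lft s Wd.m (j + 1))
      (hd _ (hbox z)) hmix)).sub (DB.const _ z le_rfl)).mono ?_
    linarith [mul_nonneg hC hsp]

/-- All the parameters can be chosen so that the series converges in `C^1`. -/
theorem exists_params : ∃ (B : Base) (mmin : ℕ → ℕ) (Wd : Windows B mmin) (s : ℕ → ℝ),
    ScaleOK s ∧ ContDiff ℝ 1 (fun p : ℝ × ℂ × ℂ => Gfin Wd s p.1 p.2) ∧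
    ∀ (z : ℝ) (x : ℂ × ℂ), Summable fun i => corr Wd s i (z, x) := by
  obtain ⟨B⟩ := exists_base
  obtain ⟨K, hK, hKb⟩ := exists_corr_fibre_bound
  have hr : ∀ j, 0 ≤ nu (j + 1) / lam j ∧ nu (j + 1) / lam j < 1 := fun j => by
    have := three_lt_lam j
    exact ⟨div_nonneg (by linarith [three_lt_nu (j + 1)]) (by linarith),
      (div_lt_one (by linarith)).2 (nu_succ_lt_lam j)⟩
  choose k hk using fun j => exists_pow_lt_of_lt_one
    (show (0 : ℝ) < (1 / 2) ^ j / (K * 120 ^ j + 1) by positivity) (hr j).2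
  set mmin : ℕ → ℕ := fun j => k (j - 1)
  obtain ⟨Wd⟩ := exists_windows B mmin
  choose C hC hCb using exists_corr_base_bound Wd
  set s : ℕ → ℝ := fun i => match i with
    | 0 => 0
    | j + 1 => min (1 / 1000) ((1 / 2) ^ j / (C j + 1))
  have hs : ScaleOK s :=
    { zero := rfl
      pos := fun j => lt_min (by norm_num) (div_pos (by positivity) (by linarith [hC j]))
      le := fun j => min_le_left _ _ }
  set g : ℕ → ℝ × ℂ × ℂ → ℂ × ℂ := fun i => corr Wd s (i + 1)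
  have hbase : ∀ i, C i * s (i + 1) ≤ (1 / 2) ^ i := fun i => by
    refine (mul_le_mul_of_nonneg_left (min_le_right _ _) (hC i)).trans ?_
    rw [mul_div_assoc', div_le_iff₀ (by linarith [hC i])]
    nlinarith [pow_pos (show (0 : ℝ) < 1 / 2 by norm_num) i]
  have hfib : ∀ i, K * 120 ^ i * (nu (i + 1) / lam i) ^ Wd.m (i + 1) ≤ (1 / 2) ^ i := fun i => by
    have hd : 0 ≤ K * 120 ^ i := by positivity
    refine (mul_le_mul_of_nonneg_left ((pow_le_pow_of_le_one (hr i).1 (hr i).2.le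
      (Wd.mmin_le i)).trans (hk i).le) hd).trans ?_
    rw [mul_div_assoc', div_le_iff₀ (by linarith)]
    nlinarith [pow_pos (show (0 : ℝ) < 1 / 2 by norm_num) i]
  have hv : ∀ (l i : ℕ) (p : ℝ × ℂ × ℂ), (l : ℕ∞) ≤ (1 : ℕ∞) →
      ‖iteratedFDeriv ℝ l (g i) p‖ ≤ 2 * (1 / 2) ^ i := by
    intro l i p hl
    have h0 : (0 : ℝ) ≤ (1 / 2) ^ i := by positivity
    obtain ⟨hsz, hdz⟩ := hCb i s hs p.1 p.2
    rcases Nat.le_one_iff_eq_zero_or_eq_one.1 (Nat.cast_le.1 hl) with rfl | rfl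
    · rw [norm_iteratedFDeriv_zero]
      linarith [hsz.trans (hbase i)]
    · rw [norm_iteratedFDeriv_one]
      set L := fderiv ℝ (g i) p
      have hd : HasFDerivAt (g i) L (p.1, p.2) :=
        (((contDiff_corr Wd hs (i + 1)).differentiable (by simp)) p).hasFDerivAt
      have e1 : fderiv ℝ (g i ∘ fun t : ℝ => (t, p.2)) p.1
          = L ∘L ContinuousLinearMap.inl ℝ ℝ (ℂ × ℂ) :=
        (HasFDerivAt.comp (g := g i) p.1 hd (hasFDerivAt_prodMk_left p.1 p.2)).fderiv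
      have e2 : fderiv ℝ (g i ∘ fun y : ℂ × ℂ => (p.1, y)) p.2
          = L ∘L ContinuousLinearMap.inr ℝ ℝ (ℂ × ℂ) :=
        (HasFDerivAt.comp (g := g i) p.2 hd (hasFDerivAt_prodMk_right p.1 p.2)).fderiv
      have n1 := (e1 ▸ hdz.2).trans (hbase i)
      have n2 := (e2 ▸ (hKb B mmin Wd s hs i p.1 p.2).2).trans (hfib i)
      refine ContinuousLinearMap.opNorm_le_bound _ (by positivity) fun q => ?_
      have e : L q = (L ∘L ContinuousLinearMap.inl ℝ ℝ (ℂ × ℂ)) q.1
          + (L ∘L ContinuousLinearMap.inr ℝ ℝ (ℂ × ℂ)) q.2 := by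
        simp only [ContinuousLinearMap.comp_apply, ← map_add]
        simp
      rw [e]
      refine (norm_add_le _ _).trans ((add_le_add ((ContinuousLinearMap.le_of_opNorm_le _ n1 q.1).trans
        (mul_le_mul_of_nonneg_left (norm_fst_le q) h0)) ((ContinuousLinearMap.le_of_opNorm_le _ n2
        q.2).trans (mul_le_mul_of_nonneg_left (norm_snd_le q) h0))).trans_eq (by ring))
  have hsum2 : Summable fun i : ℕ => 2 * (1 / 2 : ℝ) ^ i :=
    summable_geometric_two.mul_left 2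
  have hS : ∀ p, Summable fun i => corr Wd s i p := fun p => by
    refine (summable_nat_add_iff 1).1 (Summable.of_norm_bounded hsum2 fun i => ?_)
    simpa [norm_iteratedFDeriv_zero, g] using hv 0 i p (by simp)
  refine ⟨B, mmin, Wd, s, hs, ?_, fun z x => hS (z, x)⟩
  have e : (fun p : ℝ × ℂ × ℂ => Gfin Wd s p.1 p.2)
      = fun p => F0 p.2 + (corr Wd s 0 p + ∑' i, g i p) := funext fun p => by
    simp only [Gfin, g, (hS p).tsum_eq_zero_add]
  rw [e]
  exact (contDiff_F0.comp contDiff_snd).add ((contDiff_corr Wd hs 0).add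
    (contDiff_tsum (fun i => contDiff_corr Wd hs (i + 1)) (v := fun _ i => 2 * (1 / 2) ^ i)
      (fun l _ => hsum2) hv))

lemma Gfin_periodic (hs : ScaleOK s) (x : ℂ × ℂ) : Periodic (fun z => Gfin Wd s z x) 1 := by
  intro z
  have h : ∀ i, corr Wd s i (z + 1, x) = corr Wd s i (z, x) := fun i => by
    simp only [corr, yMix, Wd.ret_periodic (i + 1) _ z]
  simp only [Gfin, h]

lemma Gfin_big (hs : ScaleOK s) {z : ℝ} {x : ℂ × ℂ} (hx : 81 ≤ ‖x.1‖) :
    Gfin Wd s z x = F0 x := by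
  rw [Gfin_eq_of_large Wd (J := 0) hs (by simpa [coord] using hx)]
  simp [Gtr]

lemma F0_big {x : ℂ × ℂ} (hx : 200 ≤ ‖x.1‖) : F0 x = (x.1 ^ 2, 0) := by
  have hb : bBig ‖x.1‖ = 1 := stp_of_ge (by rw [le_div_iff₀ (by norm_num)]; linarith)
  refine Prod.ext ?_ (by simp [F0, hb])
  simp only [F0, f0u, hb, sub_self, zero_mul, one_mul, zero_add, add_zero]
  conv_rhs => rw [← Complex.norm_mul_exp_arg_mul_I x.1, mul_pow, ← Complex.exp_nat_mul]
  push_cast
  congr 2
  ring

lemma sig_eq_zero_of_far {n : ℝ} (hn : 1 ≤ n) (m : ℕ) {v : ℂ} (hv : 57 ≤ ‖v‖) :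
    sig n m v = 0 := by
  have h1 : (57 : ℝ) ^ 2 ≤ Complex.normSq v := by
    rw [Complex.normSq_eq_norm_sq]; gcongr
  have h2 : (1 : ℝ) ≤ (n ^ m) ^ 2 := one_le_pow₀ (one_le_pow₀ hn)
  have h3 : 2 ≤ (n ^ m) ^ 2 * Complex.normSq v / 400 := by
    rw [le_div_iff₀ (by norm_num)]
    nlinarith
  simp [sig, chi_of_ge h3]

lemma newStep_snd_far {q : StepPar} (hn : 1 ≤ q.n) (u : ℂ) {v v' : ℂ} (hv : 57 ≤ ‖v‖)
    (hv' : 57 ≤ ‖v'‖) : newStep q (u, v) = newStep q (u, v') := by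
  have hc : chart q.s (u, v) = chart q.s (u, v') := by
    simp [chart, vbar_eq_zero hv, vbar_eq_zero hv']
  have hsg : sig q.n q.m v = sig q.n q.m v' := by
    rw [sig_eq_zero_of_far hn _ hv, sig_eq_zero_of_far hn _ hv']
  have he : newEta (u, v) = newEta (u, v') := rfl
  simp only [newStep, newFst, newSnd, newDir, hc, hsg, he]

/-- The map only sees a bounded part of the second coordinate. -/
lemma Gfin_snd_far (z : ℝ) (u : ℂ) {v v' : ℂ} (hv : 57 ≤ ‖v‖) (hv' : 57 ≤ ‖v'‖) :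
    Gfin Wd s z (u, v) = Gfin Wd s z (u, v') := by
  have hF : F0 (u, v) = F0 (u, v') := by
    simp only [F0, sig_eq_zero_of_far (one_le_nu 0) 1 hv, sig_eq_zero_of_far (one_le_nu 0) 1 hv']
  have hco : ∀ i, coord s (i + 1) (u, v) = coord s (i + 1) (u, v') := by
    intro i
    induction i with
    | zero => simp [coord, chart, vbar_eq_zero hv, vbar_eq_zero hv']
    | succ i ih => simp only [coord] at ih ⊢; rw [ih]
  have h : ∀ i, corr Wd s i (z, (u, v)) = corr Wd s i (z, (u, v')) := by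
    intro i
    cases i with
    | zero =>
      have hn : ∀ M, newStep (par Wd s 0 M) (u, v) = newStep (par Wd s 0 M) (u, v') :=
        fun M => newStep_snd_far (one_le_nu 0) u hv hv'
      have ho : yOld Wd s 0 (u, v) = yOld Wd s 0 (u, v') := by
        simp only [yOld, sig_eq_zero_of_far (one_le_nu 0) _ hv,
          sig_eq_zero_of_far (one_le_nu 0) _ hv']
      simp only [corr, yMix, coord, hn, ho]
    | succ i => simp only [corr, hco i]
  simp only [Gfin, hF, h]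

/-- The first coordinate is homotopic to the squaring map through maps equal to it for large `u`. -/
lemma exists_fst_homotopy (hs : ScaleOK s)
    (hc : ContDiff ℝ 1 (fun p : ℝ × ℂ × ℂ => Gfin Wd s p.1 p.2)) :
    ∃ H : ℝ → ℝ → ℂ × ℂ → ℂ, Continuous (fun p : ℝ × ℝ × ℂ × ℂ => H p.1 p.2.1 p.2.2) ∧
      (∀ z x, H 0 z x = (Gfin Wd s z x).1) ∧ (∀ z x, H 1 z x = x.1 ^ 2) ∧
      (∀ t, ∀ z x, H t (z + 1) x = H t z x) ∧
      (∀ t z u v v', 57 ≤ ‖v‖ → 57 ≤ ‖v'‖ → H t z (u, v) = H t z (u, v')) ∧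
      (∀ t z x, 200 ≤ ‖(x : ℂ × ℂ).1‖ → H t z x = x.1 ^ 2) := by
  refine ⟨fun t z x => ((1 - t : ℝ) : ℂ) * (Gfin Wd s z x).1 + (t : ℂ) * x.1 ^ 2, ?_, ?_, ?_, ?_, ?_, ?_⟩
  · have hG : Continuous fun p : ℝ × ℝ × ℂ × ℂ => Gfin Wd s p.2.1 p.2.2 :=
      hc.continuous.comp continuous_snd
    have hx : Continuous fun p : ℝ × ℝ × ℂ × ℂ => p.2.2.1 :=
      continuous_fst.comp (continuous_snd.comp continuous_snd)
    exact ((Complex.continuous_ofReal.comp (continuous_const.sub continuous_fst)).mul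
      (continuous_fst.comp hG)).add
      ((Complex.continuous_ofReal.comp continuous_fst).mul (hx.pow 2))
  · intro z x; simp
  · intro z x; simp
  · intro t z x
    simp only [show Gfin Wd s (z + 1) x = Gfin Wd s z x from Gfin_periodic Wd hs x z]
  · intro t z u v v' hv hv'
    simp only [Gfin_snd_far Wd z u hv hv']
  · intro t z x hx
    simp only []
    rw [Gfin_big Wd hs (by linarith), F0_big hx]
    push_cast
    ring

end

end Vale.Agent.P103S
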