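import Vale.Agent.P103S.Tower

/-! P103: escape from the core. -/

namespace Vale.Agent.P103S

noncomputable section

open Real Finset Function

variable {B : Base} {mmin : ℕ → ℕ} (Wd : Windows B mmin) {s : ℕ → ℝ}

/-- Up to boundedly many exceptional times every orbit is next to the centre or far out. -/
def OrbitTimes (Wd : Windows B mmin) (s : ℕ → ℝ) : Prop :=
  ∀ ε R : ℝ, 0 < ε → ∃ T : ℕ, ∀ (z : ℝ) (x : ℂ × ℂ), ∃ E : Finset ℕ, E.card ≤ T ∧
    ∀ t : ℕ, t ∉ E → ‖orb (B := B) (Gfin Wd s) t z x - (1, 0)‖ ≤ ε ∨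
      (R ≤ ‖(orb (B := B) (Gfin Wd s) t z x).1‖ ∧ (orb (B := B) (Gfin Wd s) t z x).2 = 0)

end

end Vale.Agent.P103S
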