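import Vale.Agent.P103S.Space
import Vale.Agent.P103S.EscapeDefs

/-! P103: the map has zero topological entropy.

The base is covered by linearly many dynamical balls. In the two spheres an orbit is, outside of
boundedly many exceptional times, near one of two points and cannot switch between them without an
exceptional time, so polynomially many itineraries remain.
-/

namespace Vale.Agent.P103S

noncomputable section

open Real Function Dynamics Filter
open scoped Topology
open Homology (S2)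

variable {B : Base} {mmin : ℕ → ℕ} (Wd : Windows B mmin) {s : ℕ → ℝ}

/-- One point for each value of a code. -/
lemma cover_of_code {X σ : Type*} [Nonempty X] (S : Finset σ) (Φ : X → σ) (hΦ : ∀ x, Φ x ∈ S)
    {P : X → X → Prop} (hP : ∀ x y, Φ x = Φ y → P x y) :
    ∃ c : Finset X, c.card ≤ S.card ∧ ∀ x, ∃ y ∈ c, P x y := by
  classical
  refine ⟨S.image (invFun Φ), Finset.card_image_le, fun x => ⟨invFun Φ (Φ x),
    Finset.mem_image_of_mem _ (hΦ x), hP _ _ ?_⟩⟩
  exact (invFun_eq ⟨x, rfl⟩).symm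

/-- A polynomial is below every exponential. -/
lemma eventually_poly_le_exp (C d : ℕ) {r : ℝ} (hr : 0 < r) :
    ∀ᶠ n : ℕ in atTop, ((C * (n + 1) ^ d : ℕ) : ℝ) ≤ Real.exp (r * n) := by
  have h1 : Tendsto (fun n : ℕ => (C : ℝ) * 2 ^ d * ((n : ℝ) ^ (d : ℝ) * Real.exp (-r * n)))
      atTop (𝓝 0) := by
    simpa using ((tendsto_rpow_mul_exp_neg_mul_atTop_nhds_zero d r hr).comp
      (tendsto_natCast_atTop_atTop (R := ℝ))).const_mul ((C : ℝ) * 2 ^ d)
  filter_upwards [h1.eventually_le_const one_pos, eventually_ge_atTop 1] with n hn hn1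
  rw [Real.rpow_natCast] at hn
  push_cast
  have h2 : ((n : ℝ) + 1) ^ d ≤ 2 ^ d * (n : ℝ) ^ d := by
    rw [← mul_pow]
    refine pow_le_pow_left₀ (by positivity) ?_ d
    have : (1 : ℝ) ≤ n := Nat.one_le_cast.2 hn1
    linarith
  have h3 : (C : ℝ) * 2 ^ d * (n : ℝ) ^ d ≤ Real.exp (r * n) := by
    rw [neg_mul, Real.exp_neg] at hn
    rw [← mul_assoc, ← div_eq_mul_inv, div_le_one (Real.exp_pos _)] at hn
    exact hn
  calc (C : ℝ) * ((n : ℝ) + 1) ^ d ≤ C * (2 ^ d * (n : ℝ) ^ d) :=
        mul_le_mul_of_nonneg_left h2 (Nat.cast_nonneg C)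
    _ = C * 2 ^ d * (n : ℝ) ^ d := by ring
    _ ≤ _ := h3

/-- Polynomially many dynamical balls cover, hence the entropy vanishes. -/
theorem coverEntropy_eq_zero_of_poly {X : Type*} [PseudoMetricSpace X] [Nonempty X] (T : X → X)
    (h : ∀ ε > 0, ∃ C d : ℕ, ∀ n : ℕ, ∃ c : Finset X, c.card ≤ C * (n + 1) ^ d ∧
      ∀ x, ∃ y ∈ c, ∀ t < n, dist (T^[t] x) (T^[t] y) < ε) :
    coverEntropy T Set.univ = 0 := by
  refine le_antisymm ?_ (coverEntropy_nonneg T Set.univ_nonempty)
  rw [coverEntropy_eq_iSup_basis Metric.uniformity_basis_dist]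
  refine iSup₂_le fun ε hε => ?_
  obtain ⟨C, d, hc⟩ := h ε hε
  rw [coverEntropyEntourage]
  refine ExpGrowth.expGrowthSup_le_iff.2 fun b hb => ?_
  obtain ⟨r, hr0, hrb⟩ := EReal.exists_between_coe_real hb
  filter_upwards [eventually_poly_le_exp C d (EReal.coe_pos.1 hr0)] with n hn
  obtain ⟨c, hcard, hcov⟩ := hc n
  have hcover : IsDynCoverOf T Set.univ {p : X × X | dist p.1 p.2 < ε} n (c : Set X) := by
    intro x _
    obtain ⟨y, hy, hxy⟩ := hcov x
    exact ⟨y, hy, mem_dynEntourage.2 hxy⟩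
  calc ((coverMincard T Set.univ {p : X × X | dist p.1 p.2 < ε} n : ℕ∞) : ENNReal)
      ≤ ((c.card : ℕ∞) : ENNReal) := ENat.toENNReal_le.2 hcover.coverMincard_le_card
    _ ≤ ENNReal.ofReal (Real.exp (r * n)) := by
        rw [ENat.toENNReal_coe, ← ENNReal.ofReal_natCast]
        exact ENNReal.ofReal_le_ofReal ((Nat.cast_le.2 hcard).trans hn)
    _ = EReal.exp ((r * n : ℝ) : EReal) := (EReal.exp_coe _).symm
    _ ≤ EReal.exp (b * n) := EReal.exp_monotone (by
        rw [EReal.coe_mul, EReal.coe_natCast]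
        exact mul_le_mul_of_nonneg_right hrb.le (Nat.cast_nonneg' n))

/-- Orbit segments of the base circle map are covered by linearly many balls. -/
theorem base_cover (B : Base) : ∀ ε > 0, ∃ C : ℕ, ∀ n : ℕ, ∃ c : Finset ℝ,
    c.card ≤ C * (n + 1) ∧ ∀ z ∈ Set.Icc (0 : ℝ) 1, ∃ y ∈ c, ∀ t < n,
      |B.Ph^[t] z - B.Ph^[t] y| < ε := by
  classical
  intro ε hε
  set K := ⌊1 / ε⌋₊ + 2
  refine ⟨K + 1, fun n => ?_⟩
  set S : ℝ → ℤ := fun z => ∑ t ∈ Finset.range n, ⌊B.Ph^[t] z / ε⌋
  have hmono : ∀ t, Monotone fun z => ⌊B.Ph^[t] z / ε⌋ := fun t a b hab =>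
    Int.floor_mono (div_le_div_of_nonneg_right ((B.mono_Ph.iterate t) hab) hε.le)
  have hS : Monotone S := fun a b hab => Finset.sum_le_sum fun t _ => hmono t hab
  have hspan : S 1 - S 0 ≤ (n : ℤ) * K := by
    rw [← Finset.sum_sub_distrib]
    refine (Finset.sum_le_sum (g := fun _ => (K : ℤ)) fun t _ => ?_).trans (le_of_eq (by simp))
    have e : B.Ph^[t] 1 = B.Ph^[t] 0 + 1 := by simpa using B.Ph_iter_add_one t 0
    rw [e, add_div, sub_le_iff_le_add]
    refine Int.lt_add_one_iff.1 ?_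
    rw [Int.floor_lt]
    push_cast [K]
    linarith [Int.lt_floor_add_one (B.Ph^[t] 0 / ε), Nat.lt_floor_add_one (1 / ε)]
  have : Nonempty (Set.Icc (0 : ℝ) 1) := ⟨⟨0, by simp⟩⟩
  obtain ⟨c, hc, hcov⟩ := cover_of_code (X := Set.Icc (0 : ℝ) 1) (Finset.Icc (S 0) (S 1))
    (fun z => S z.1) (fun z => Finset.mem_Icc.2 ⟨hS z.2.1, hS z.2.2⟩)
    (P := fun z y => ∀ t < n, |B.Ph^[t] z.1 - B.Ph^[t] y.1| < ε) fun z y he t ht => by
      have key : ∀ a b : ℝ, a ≤ b → S a = S b → ⌊B.Ph^[t] a / ε⌋ = ⌊B.Ph^[t] b / ε⌋ :=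
        fun a b hab h => (Finset.sum_eq_sum_iff_of_le fun t _ => hmono t hab).1 h t
          (Finset.mem_range.2 ht)
      have hfl : ⌊B.Ph^[t] z.1 / ε⌋ = ⌊B.Ph^[t] y.1 / ε⌋ := by
        rcases le_total z.1 y.1 with h | h
        · exact key _ _ h he
        · exact (key _ _ h he.symm).symm
      have h := Int.abs_sub_lt_one_of_floor_eq_floor hfl
      rwa [← sub_div, abs_div, abs_of_pos hε, div_lt_one hε] at h
  refine ⟨c.image Subtype.val, Finset.card_image_le.trans (hc.trans ?_), fun z hz => ?_⟩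
  · rw [Int.card_Icc, Int.toNat_le]
    push_cast
    have : (0 : ℤ) ≤ K := by positivity
    linarith
  · obtain ⟨y, hy, h⟩ := hcov ⟨z, hz⟩
    exact ⟨y.1, Finset.mem_image_of_mem _ hy, h⟩

/-! ### Points of the spheres -/

/-- The south pole. -/
def south : S2 := ⟨EuclideanSpace.single 2 (-1), by simp⟩

lemma dist_south_sq (a : S2) : dist a south ^ 2 = 2 * (1 + a.1 2) := by
  have h : ‖a.1‖ = 1 := mem_sphere_zero_iff_norm.1 a.2
  have h1 : ∑ i, a.1 i ^ 2 = 1 := by
    rw [← EuclideanSpace.real_norm_sq_eq, h, one_pow]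
  rw [Subtype.dist_eq, dist_eq_norm, EuclideanSpace.real_norm_sq_eq]
  simp only [south, Fin.sum_univ_three] at h1 ⊢
  simp at h1 ⊢
  linarith

lemma toS2_two (u : ℂ) :
    (toS2 u).1 2 = (1 - Complex.normSq u) / (1 + Complex.normSq u) := by
  simp [toS2]

lemma one_add_toS2_two (u : ℂ) : 1 + (toS2 u).1 2 = 2 / (1 + Complex.normSq u) := by
  have := Complex.normSq_nonneg u
  rw [toS2_two]
  field_simp
  ring

lemma toS2_two_ne (u : ℂ) : (toS2 u).1 2 ≠ -1 := by
  intro h
  have h1 := one_add_toS2_two u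
  have : 0 < 2 / (1 + Complex.normSq u) := by
    have := Complex.normSq_nonneg u
    positivity
  linarith

lemma toS2_ofS2v {b : S2} (hb : b.1 2 ≠ -1) : toS2 (ofS2v b) = b := by
  rw [ofS2v, if_neg hb, toS2_ofS2 hb]

lemma continuous_toS2 : Continuous toS2 := by
  unfold toS2
  refine Continuous.subtype_mk ?_ _
  have hne : ∀ u : ℂ, 1 + Complex.normSq u ≠ 0 := fun u => by
    have := Complex.normSq_nonneg u
    positivity
  refine (PiLp.continuous_toLp 2 _).comp (continuous_pi fun i => ?_)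
  fin_cases i
  · exact Continuous.div₀ (by fun_prop) (by fun_prop) hne
  · exact Continuous.div₀ (by fun_prop) (by fun_prop) hne
  · exact Continuous.div₀ (by fun_prop) (by fun_prop) hne

/-! ### The circle -/

lemma exp_baseZ (q : Circle) : Circle.exp (2 * π * baseZ q) = q := by
  rw [baseZ, show 2 * π * (Complex.arg q / (2 * π)) = Complex.arg q by field_simp, Circle.exp_arg]

lemma Ph_add_int (B : Base) (z : ℝ) (k : ℤ) : B.Ph (z + k) = B.Ph z + k := by
  have hp : Periodic (fun w => B.Ph w - w) 1 := fun w => by simp only [B.Ph_add_one]; ring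
  have h := (hp.int_mul k) z
  simp only [mul_one] at h
  linarith

lemma exp_Ph_baseZ (B : Base) (y : ℝ) :
    Circle.exp (2 * π * B.Ph (baseZ (Circle.exp (2 * π * y)))) = Circle.exp (2 * π * B.Ph y) := by
  obtain ⟨m, hm⟩ := Circle.exp_eq_exp.1 (exp_baseZ (Circle.exp (2 * π * y)))
  have e : baseZ (Circle.exp (2 * π * y)) = y + m := by
    refine mul_left_cancel₀ (show (2 * π : ℝ) ≠ 0 by positivity) ?_
    rw [hm]
    ring
  rw [e, Ph_add_int]
  exact Circle.exp_eq_exp.2 ⟨m, by ring⟩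

lemma iterate_fst (a : M5) {z : ℝ} (ha : a.1 = Circle.exp (2 * π * z)) (t : ℕ) :
    ((fMap Wd s)^[t] a).1 = Circle.exp (2 * π * B.Ph^[t] z) := by
  induction t with
  | zero => simpa using ha
  | succ t ih =>
    rw [iterate_succ_apply', iterate_succ_apply']
    show Circle.exp (2 * π * B.Ph (baseZ _)) = _
    rw [ih, exp_Ph_baseZ]

lemma dist_exp_le (a b : ℝ) : dist (Circle.exp a) (Circle.exp b) ≤ |a - b| := by
  change dist (Circle.exp a : ℂ) (Circle.exp b) ≤ _
  rw [dist_eq_norm, Circle.coe_exp, Circle.coe_exp]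
  have e : Complex.exp (a * Complex.I) - Complex.exp (b * Complex.I)
      = Complex.exp (b * Complex.I) * (Complex.exp (Complex.I * ((a - b : ℝ) : ℂ)) - 1) := by
    rw [mul_sub, ← Complex.exp_add, mul_one]
    congr 1
    congr 1
    push_cast
    ring
  rw [e, norm_mul, Complex.norm_exp_ofReal_mul_I, one_mul, ← Real.norm_eq_abs]
  exact norm_exp_I_mul_ofReal_sub_one_le

/-- Every point has a coordinate orbit from time one on, or stays over the south pole. -/
lemma exists_coord_orbit (hs : ScaleOK s) (a : M5) :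
    ∃ z ∈ Set.Icc (0 : ℝ) 1, a.1 = Circle.exp (2 * π * z) ∧
      ((∀ t, ((fMap Wd s)^[t + 1] a).2.1.1 2 = -1 ∧ ((fMap Wd s)^[t + 1] a).2.2 = toS2 0) ∨
        ∃ x : ℂ × ℂ, ∀ t, ((fMap Wd s)^[t + 1] a).2 =
          (toS2 (orb (B := B) (Gfin Wd s) (t + 1) z x).1,
            toS2 (orb (B := B) (Gfin Wd s) (t + 1) z x).2)) := by
  set z := Int.fract (baseZ a.1) with hz
  have hz1 : a.1 = Circle.exp (2 * π * z) := by
    conv_lhs => rw [← exp_baseZ a.1]
    refine Circle.exp_eq_exp.2 ⟨⌊baseZ a.1⌋, ?_⟩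
    rw [hz, Int.fract]
    ring
  refine ⟨z, ⟨Int.fract_nonneg _, (Int.fract_lt_one _).le⟩, hz1, ?_⟩
  by_cases ha : a.2.1.1 2 = -1
  · refine Or.inl fun t => ?_
    have hall : ∀ r, ((fMap Wd s)^[r] a).2.1.1 2 = -1 := by
      intro r
      induction r with
      | zero => exact ha
      | succ r ih =>
        rw [iterate_succ_apply', fMap_infty Wd _ ih]
        exact ih
    refine ⟨hall _, ?_⟩
    rw [iterate_succ_apply', fMap_infty Wd _ (hall t)]
  · refine Or.inr ⟨(ofS2 a.2.1, ofS2v a.2.2), fun t => ?_⟩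
    set b : M5 := (Circle.exp (2 * π * z), toS2 (ofS2 a.2.1), toS2 (ofS2v a.2.2))
    have hab : fMap Wd s a = fMap Wd s b := by
      have hb : b = (a.1, a.2.1, toS2 (ofS2v a.2.2)) := by
        simp only [b, toS2_ofS2 ha, ← hz1]
      rw [hb]
      simp [fMap, fU, fV, fibG, ofS2v_toS2]
    rw [iterate_succ_apply, hab, ← iterate_succ_apply, fMap_iterate Wd hs (t + 1) z]

/-- The two resting points. -/
def rest (b : Bool) : S2 × S2 := if b then (south, toS2 0) else (toS2 1, toS2 0)

/-- Outside of boundedly many times an orbit rests near one of two points, and it does not switch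
between them at consecutive such times. -/
lemma exists_itinerary (hs : ScaleOK s)
    (hc : ContDiff ℝ 1 (fun p : ℝ × ℂ × ℂ => Gfin Wd s p.1 p.2)) (ht : OrbitTimes Wd s)
    {ε : ℝ} (hε : 0 < ε) :
    ∃ T : ℕ, ∀ a : M5, ∃ E : Finset ℕ, ∃ b : ℕ → Bool, E.card ≤ T ∧ 0 ∈ E ∧
      (∀ t, t ∉ E → dist ((fMap Wd s)^[t] a).2 (rest (b t)) < ε) ∧
      ∀ t, t ∉ E → t + 1 ∉ E → b (t + 1) = b t := by
  classical
  have hf : Continuous (fMap Wd s) := (contMDiff_fMap Wd hs hc).continuous
  -- the image of a neighbourhood of the centre stays off the south pole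
  have hcoord : Continuous fun a : M5 => a.2.1.1 2 := by fun_prop
  set S := {a : M5 | -(3 / 4 : ℝ) ≤ a.2.1.1 2}
  have hSc : IsCompact S := (isClosed_le continuous_const hcoord).isCompact
  have hSne : S.Nonempty := ⟨(1, toS2 1, toS2 0), by
    show -(3 / 4 : ℝ) ≤ (toS2 1).1 2
    rw [toS2_two, map_one]
    norm_num⟩
  obtain ⟨a₀, ha₀, hmin⟩ := hSc.exists_isMinOn hSne (hcoord.comp hf).continuousOn
  set c := 1 + (fMap Wd s a₀).2.1.1 2 with hc'
  have hc0 : 0 < c := by
    have hne : a₀.2.1.1 2 ≠ -1 := fun h => by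
      simp only [S, Set.mem_ofPred_eq, h] at ha₀
      norm_num at ha₀
    rw [hc']
    show 0 < 1 + (fU Wd s a₀).1 2
    rw [fU, if_neg hne, one_add_toS2_two]
    have := Complex.normSq_nonneg (fibG Wd s a₀).1
    positivity
  obtain ⟨δ, hδ, hδε⟩ := Metric.continuousAt_iff.1
    ((continuous_toS2.prodMap continuous_toS2).continuousAt (x := ((1 : ℂ), (0 : ℂ)))) ε hε
  set δ' := min (δ / 2) (1 / 4)
  set R := 200 + 4 / ε + 4 / c
  obtain ⟨T, hT⟩ := ht δ' R (lt_min (by positivity) (by norm_num))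
  have hR : 200 ≤ R := by
    have : 0 ≤ 4 / ε + 4 / c := by positivity
    simp only [R]; linarith
  have hR1 : 4 / ε ≤ R := by
    have : 0 ≤ 4 / c := by positivity
    simp only [R]; linarith
  have hR2 : 4 / c ≤ R := by
    have : 0 ≤ 4 / ε := by positivity
    simp only [R]; linarith
  refine ⟨T + 1, fun a => ?_⟩
  obtain ⟨z, -, -, hor⟩ := exists_coord_orbit Wd hs a
  rcases hor with hinf | ⟨x, hx⟩
  · refine ⟨{0}, fun _ => true, by simp, by simp, fun t ht0 => ?_, fun _ _ _ => rfl⟩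
    obtain ⟨t, rfl⟩ : ∃ r, t = r + 1 := ⟨t - 1, by simp at ht0; omega⟩
    obtain ⟨h1, h2⟩ := hinf t
    have h0 : dist ((fMap Wd s)^[t + 1] a).2.1 south = 0 := by
      have h := dist_south_sq ((fMap Wd s)^[t + 1] a).2.1
      rw [h1] at h
      simpa using h
    rw [Prod.dist_eq]
    simp only [rest, if_true, h2, dist_self]
    rw [h0]
    simpa using hε
  obtain ⟨E, hE, hEt⟩ := hT z x
  set o := fun t => orb (B := B) (Gfin Wd s) t z x
  refine ⟨insert 0 E, fun t => decide (R ≤ ‖(o t).1‖), (Finset.card_insert_le 0 E).trans (by omega),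
    Finset.mem_insert_self _ _, ?_, ?_⟩
  · intro t ht'
    simp only [Finset.mem_insert, not_or] at ht'
    obtain ⟨r, rfl⟩ : ∃ r, t = r + 1 := ⟨t - 1, by omega⟩
    rw [hx r]
    by_cases hfar : R ≤ ‖(o (r + 1)).1‖
    · have hv : (o (r + 1)).2 = 0 := by
        rcases hEt _ ht'.2 with h | h
        · have h1 : ‖(o (r + 1)).1 - 1‖ ≤ δ' := by
            simpa using (norm_fst_le (o (r + 1) - (1, 0))).trans h
          have h2 : ‖(o (r + 1)).1‖ ≤ ‖(o (r + 1)).1 - 1‖ + 1 := by
            simpa using norm_le_norm_sub_add (o (r + 1)).1 1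
          linarith [min_le_right (δ / 2) (1 / 4 : ℝ)]
        · exact h.2
      have hd : dist (toS2 (o (r + 1)).1) south < ε := by
        refine lt_of_pow_lt_pow_left₀ 2 hε.le ?_
        rw [dist_south_sq, one_add_toS2_two]
        have hN : R ^ 2 ≤ Complex.normSq (o (r + 1)).1 := by
          rw [Complex.normSq_eq_norm_sq]
          exact pow_le_pow_left₀ (by linarith) hfar 2
        rw [← mul_div_assoc, div_lt_iff₀ (by linarith [sq_nonneg R])]
        have h4 : 4 ≤ ε * R := by rwa [div_le_iff₀' hε] at hR1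
        have h5 : 4 * 4 ≤ (ε * R) * (ε * R) := mul_le_mul h4 h4 (by norm_num) (by positivity)
        have h6 := mul_le_mul_of_nonneg_left hN (sq_nonneg ε)
        have := sq_nonneg ε
        linarith
      have hv' : (orb (B := B) (Gfin Wd s) (r + 1) z x).2 = 0 := hv
      simp only [decide_eq_true hfar, rest, if_true, Prod.dist_eq, hv', dist_self]
      exact max_lt hd hε
    · have hnear : ‖o (r + 1) - (1, 0)‖ ≤ δ' := by
        rcases hEt _ ht'.2 with h | h
        · exact h
        · exact absurd h.1 hfar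
      simp only [decide_eq_false hfar, rest, Bool.false_eq_true, if_false]
      refine hδε ?_
      rw [dist_eq_norm]
      linarith [min_le_left (δ / 2) (1 / 4 : ℝ)]
  · intro t ht0 ht1
    simp only [Finset.mem_insert, not_or] at ht0 ht1
    obtain ⟨r, rfl⟩ : ∃ r, t = r + 1 := ⟨t - 1, by omega⟩
    by_cases hfar : R ≤ ‖(o (r + 1)).1‖
    · have hstep : (o (r + 1 + 1)).1 = (o (r + 1)).1 ^ 2 := by
        show (Gfin Wd s (B.Ph^[r + 1] z) (o (r + 1))).1 = _
        rw [Gfin_big Wd hs (by linarith), F0_big (by linarith)]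
      have hfar' : R ≤ ‖(o (r + 1 + 1)).1‖ := by
        rw [hstep, norm_pow, sq]
        exact le_trans (le_mul_of_one_le_right (by linarith) (by linarith)) (mul_le_mul hfar hfar
          (by linarith) (norm_nonneg _))
      simp only [hfar, hfar']
    · have hnear : ‖o (r + 1) - (1, 0)‖ ≤ δ' := by
        rcases hEt _ ht0.2 with h | h
        · exact h
        · exact absurd h.1 hfar
      have hu : ‖(o (r + 1)).1‖ ≤ 5 / 4 := by
        have h1 : ‖(o (r + 1)).1 - 1‖ ≤ δ' := by
          simpa using (norm_fst_le (o (r + 1) - (1, 0))).trans hnear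
        have h2 : ‖(o (r + 1)).1‖ ≤ ‖(o (r + 1)).1 - 1‖ + 1 := by
          simpa using norm_le_norm_sub_add (o (r + 1)).1 1
        linarith [min_le_right (δ / 2) (1 / 4 : ℝ)]
      have hmem : (fMap Wd s)^[r + 1] a ∈ S := by
        show -(3 / 4 : ℝ) ≤ ((fMap Wd s)^[r + 1] a).2.1.1 2
        rw [hx r]
        show -(3 / 4 : ℝ) ≤ (toS2 (o (r + 1)).1).1 2
        have hN : Complex.normSq (o (r + 1)).1 ≤ (5 / 4) ^ 2 := by
          rw [Complex.normSq_eq_norm_sq]
          exact pow_le_pow_left₀ (norm_nonneg _) hu 2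
        have := Complex.normSq_nonneg (o (r + 1)).1
        rw [toS2_two, le_div_iff₀ (by linarith)]
        linarith
      have h1 := hmin hmem
      have h2 : c ≤ 1 + (toS2 (o (r + 1 + 1)).1).1 2 := by
        have e : ((fMap Wd s)^[r + 1 + 1] a).2.1 = toS2 (o (r + 1 + 1)).1 := by rw [hx (r + 1)]
        rw [← e, iterate_succ_apply' _ (r + 1)]
        simp only [Set.mem_ofPred_eq, comp_apply] at h1
        linarith
      have hfar' : ¬R ≤ ‖(o (r + 1 + 1)).1‖ := by
        intro hR'
        rw [one_add_toS2_two] at h2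
        have hN : R ^ 2 ≤ Complex.normSq (o (r + 1 + 1)).1 := by
          rw [Complex.normSq_eq_norm_sq]
          exact pow_le_pow_left₀ (by linarith) hR' 2
        rw [le_div_iff₀ (by linarith [sq_nonneg R])] at h2
        have h4 : 4 ≤ c * R := by rwa [div_le_iff₀' hc0] at hR2
        have h5 : R ≤ R ^ 2 := le_self_pow₀ (by linarith) two_ne_zero
        have h6 := mul_le_mul_of_nonneg_left (h5.trans hN) hc0.le
        linarith
      simp only [hfar, hfar']

theorem entropy_fMap (hs : ScaleOK s)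
    (hc : ContDiff ℝ 1 (fun p : ℝ × ℂ × ℂ => Gfin Wd s p.1 p.2)) (ht : OrbitTimes Wd s) :
    coverEntropy (fMap Wd s) Set.univ = 0 := by
  classical
  have : Nonempty M5 := ⟨(1, toS2 0, toS2 0)⟩
  refine coverEntropy_eq_zero_of_poly _ fun ε hε => ?_
  obtain ⟨T, hT⟩ := exists_itinerary Wd hs hc ht (half_pos hε)
  choose E b hEc hE0 hrest hsw using hT
  obtain ⟨net, -, hnetfin, hnet⟩ :=
    finite_cover_balls_of_compact (isCompact_univ (X := S2 × S2)) (half_pos hε)
  have hnet' : ∀ q : S2 × S2, ∃ w ∈ net, dist q w < ε / 2 := fun q => by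
    simpa using hnet (Set.mem_univ q)
  choose nr hnr hnrd using hnet'
  obtain ⟨C₀, hbase⟩ := base_cover B (ε / (8 * π)) (by positivity)
  have hzex : ∀ a : M5, ∃ z ∈ Set.Icc (0 : ℝ) 1, a.1 = Circle.exp (2 * π * z) := fun a => by
    obtain ⟨z, hz, hza, -⟩ := exists_coord_orbit Wd hs a
    exact ⟨z, hz, hza⟩
  choose zf hzf hza using hzex
  set L : Finset (S2 × S2) := hnetfin.toFinset ∪ {rest true, rest false}
  set K := 2 * T + 1
  refine ⟨C₀ * ((K + 1) * (L.card + 1) ^ K), K + 1, fun n => ?_⟩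
  obtain ⟨c, hccard, hcov⟩ := hbase n
  choose yf hyf hyd using fun a : M5 => hcov (zf a) (hzf a)
  set lab : M5 → ℕ → S2 × S2 := fun a t =>
    if t ∈ E a then nr ((fMap Wd s)^[t] a).2 else rest (b a t) with hlab
  set E' : M5 → Finset ℕ := fun a => insert 0 (E a ∪ (E a).image (· + 1)) with hE'
  set D : M5 → Finset (ℕ × (S2 × S2)) := fun a =>
    ((E' a).filter (· < n)).image fun t => (t, lab a t) with hD
  set P := Finset.range n ×ˢ L
  set Ds := (Finset.range (K + 1)).biUnion fun i => P.powersetCard i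
  have hlabL : ∀ a t, lab a t ∈ L := fun a t => by
    simp only [hlab, L, Finset.mem_union, Set.Finite.mem_toFinset, Finset.mem_insert,
      Finset.mem_singleton]
    by_cases h : t ∈ E a
    · rw [if_pos h]; exact Or.inl (hnr _)
    · rw [if_neg h]; cases b a t <;> simp
  have hDmem : ∀ a, D a ∈ Ds := fun a => by
    simp only [Ds, Finset.mem_biUnion, Finset.mem_range, Finset.mem_powersetCard]
    refine ⟨(D a).card, ?_, fun p hp => ?_, rfl⟩
    · have h1 : (E' a).card ≤ 1 + (T + T) := by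
        refine (Finset.card_insert_le _ _).trans ?_
        rw [Nat.add_comm]
        exact Nat.add_le_add_left ((Finset.card_union_le _ _).trans
          (Nat.add_le_add (hEc a) (Finset.card_image_le.trans (hEc a)))) 1
      have h2 : (D a).card ≤ (E' a).card :=
        Finset.card_image_le.trans (Finset.card_filter_le _ _)
      omega
    · simp only [hD, Finset.mem_image, Finset.mem_filter] at hp
      obtain ⟨t, ⟨-, htn⟩, rfl⟩ := hp
      exact Finset.mem_product.2 ⟨Finset.mem_range.2 htn, hlabL a t⟩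
  have hclose : ∀ a t, dist ((fMap Wd s)^[t] a).2 (lab a t) < ε / 2 := fun a t => by
    simp only [hlab]
    by_cases h : t ∈ E a
    · rw [if_pos h]; exact hnrd _
    · rw [if_neg h]; exact hrest a t h
  have hmemD : ∀ a t, t < n → t ∈ E' a → (t, lab a t) ∈ D a := fun a t h1 h2 =>
    Finset.mem_image.2 ⟨t, Finset.mem_filter.2 ⟨h2, h1⟩, rfl⟩
  have hget : ∀ a t q, (t, q) ∈ D a → t ∈ E' a ∧ q = lab a t := fun a t q h => by
    simp only [hD, Finset.mem_image, Finset.mem_filter, Prod.mk.injEq] at h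
    obtain ⟨r, ⟨hr, -⟩, rfl, rfl⟩ := h
    exact ⟨hr, rfl⟩
  have hdet : ∀ a a', D a = D a' → ∀ t < n, lab a t = lab a' t := by
    intro a a' hDD t htn
    induction t with
    | zero =>
      have h := hmemD a 0 htn (Finset.mem_insert_self _ _)
      rw [hDD] at h
      exact (hget a' 0 _ h).2
    | succ t ih =>
      by_cases h : t + 1 ∈ E' a
      · have h' := hmemD a (t + 1) htn h
        rw [hDD] at h'
        exact (hget a' _ _ h').2
      · have h' : t + 1 ∉ E' a' := fun h' => h (by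
          have h'' := hmemD a' (t + 1) htn h'
          rw [← hDD] at h''
          exact (hget a _ _ h'').1)
        have key : ∀ a₁ : M5, t + 1 ∉ E' a₁ → lab a₁ (t + 1) = lab a₁ t := fun a₁ h₁ => by
          simp only [hE', Finset.mem_insert, Finset.mem_union, Finset.mem_image, not_or, not_exists,
            not_and] at h₁
          have ht : t ∉ E a₁ := fun hh => h₁.2.2 t hh rfl
          simp only [hlab, if_neg h₁.2.1, if_neg ht, hsw a₁ t ht h₁.2.1]
        rw [key a h, key a' h', ih (by omega)]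
  obtain ⟨cc, hcc, hccov⟩ := cover_of_code (c ×ˢ Ds) (fun a => (yf a, D a))
    (fun a => Finset.mem_product.2 ⟨hyf a, hDmem a⟩)
    (P := fun a a' => ∀ t < n, dist ((fMap Wd s)^[t] a) ((fMap Wd s)^[t] a') < ε)
    fun a a' he t htn => by
      obtain ⟨hy, hDD⟩ := Prod.mk.inj he
      rw [Prod.dist_eq]
      refine max_lt ?_ ?_
      · rw [iterate_fst Wd a (hza a), iterate_fst Wd a' (hza a')]
        refine (dist_exp_le _ _).trans_lt ?_
        have h1 := hyd a t htn
        have h2 := hyd a' t htn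
        rw [← hy] at h2
        rw [← mul_sub, abs_mul, abs_of_pos (by positivity : (0 : ℝ) < 2 * π)]
        have h3 : |B.Ph^[t] (zf a) - B.Ph^[t] (zf a')| < 2 * (ε / (8 * π)) := by
          refine (abs_sub_le _ (B.Ph^[t] (yf a)) _).trans_lt ?_
          rw [abs_sub_comm (B.Ph^[t] (yf a))]
          linarith
        calc 2 * π * |B.Ph^[t] (zf a) - B.Ph^[t] (zf a')|
            < 2 * π * (2 * (ε / (8 * π))) := mul_lt_mul_of_pos_left h3 (by positivity)
          _ = ε / 2 := by field_simp; ring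
          _ < ε := half_lt_self hε
      · have h1 := hclose a t
        have h2 := hclose a' t
        rw [← hdet a a' hDD t htn] at h2
        calc _ ≤ _ := dist_triangle_right _ _ (lab a t)
          _ < ε / 2 + ε / 2 := add_lt_add h1 h2
          _ = ε := add_halves ε
  refine ⟨cc, hcc.trans ?_, hccov⟩
  rw [Finset.card_product]
  have hP : P.card = n * L.card := by simp [P]
  have hDs : Ds.card ≤ (K + 1) * (n * L.card + 1) ^ K := by
    refine Finset.card_biUnion_le.trans ((Finset.sum_le_sum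
      (g := fun _ => (n * L.card + 1) ^ K) fun i hi => ?_).trans (by simp))
    rw [Finset.card_powersetCard, hP]
    refine (Nat.choose_le_pow _ _).trans ((Nat.pow_le_pow_left (Nat.le_succ _) i).trans ?_)
    exact Nat.pow_le_pow_right (Nat.succ_pos _) (Nat.lt_succ_iff.1 (Finset.mem_range.1 hi))
  have hpow : (n * L.card + 1) ^ K ≤ (L.card + 1) ^ K * (n + 1) ^ K := by
    rw [← mul_pow]
    refine Nat.pow_le_pow_left ?_ K
    have : (L.card + 1) * (n + 1) = n * L.card + L.card + n + 1 := by ring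
    omega
  calc c.card * Ds.card ≤ C₀ * (n + 1) * ((K + 1) * ((L.card + 1) ^ K * (n + 1) ^ K)) :=
        Nat.mul_le_mul hccard (hDs.trans (Nat.mul_le_mul_left _ hpow))
    _ = _ := by ring

end

end Vale.Agent.P103S
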