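import Vale.Agent.P103S.EscapeDefs

/-! P103: every orbit is next to the centre or far out at all but boundedly many times. -/

namespace Vale.Agent.P103S

noncomputable section

open Real Finset Function

variable {B : Base} {mmin : ℕ → ℕ} (Wd : Windows B mmin) {s : ℕ → ℝ}

section outside

lemma f0u_grow {u : ℂ} (h : 82 ≤ ‖u‖) : (5 / 4) * ‖u‖ ≤ ‖f0u u‖ := by
  obtain ⟨h0, h1⟩ := stp_mem ((‖u‖ - 100) / 100)
  have hr := rad_grow (be := lam 0) (s := 0) le_rfl (by norm_num) (by linarith : (4:ℝ) ≤ ‖u‖)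
    (by simp)
  have hsq : (5 / 4) * ‖u‖ ≤ ‖u‖ ^ 2 := by nlinarith
  have hval : (5 / 4) * ‖u‖ ≤ (1 - bBig ‖u‖) * rad (lam 0) 0 ‖u‖ + bBig ‖u‖ * ‖u‖ ^ 2 := by
    unfold bBig
    nlinarith
  rw [f0u, norm_mul, Complex.norm_exp_ofReal_mul_I, mul_one, Complex.norm_real, Real.norm_eq_abs]
  exact hval.trans (le_abs_self _)

lemma f0_big {x : ℂ × ℂ} (h : 200 ≤ ‖x.1‖) : F0 x = (x.1 ^ 2, 0) := by
  have hb : bBig ‖x.1‖ = 1 := stp_of_ge (by linarith)
  refine Prod.ext ?_ (by simp [F0, hb])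
  simp only [F0, f0u, hb, sub_self, zero_mul, one_mul, zero_add, add_zero]
  conv_rhs => rw [← Complex.norm_mul_exp_arg_mul_I x.1]
  rw [mul_pow, ← Complex.exp_nat_mul]
  push_cast
  ring_nf

lemma Gfin_out {z : ℝ} (hs : ScaleOK s) {x : ℂ × ℂ} (hx : 81 ≤ ‖x.1‖) :
    Gfin Wd s z x = F0 x := by
  rw [Gfin_eq_of_large Wd (J := 0) hs (by simpa [coord] using hx)]
  simp [Gtr]

lemma orb_far (hs : ScaleOK s) {R : ℝ} (hR : 200 ≤ R) {z : ℝ} {x : ℂ × ℂ} {τ : ℕ}
    (hτ : R ≤ ‖(orb (B := B) (Gfin Wd s) τ z x).1‖) :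
    ∀ t, τ < t → R ≤ ‖(orb (B := B) (Gfin Wd s) t z x).1‖ ∧
      (orb (B := B) (Gfin Wd s) t z x).2 = 0 := by
  have key : ∀ t, τ ≤ t → R ≤ ‖(orb (B := B) (Gfin Wd s) t z x).1‖ := by
    intro t ht
    induction ht with
    | refl => exact hτ
    | @step k _ ih =>
      show R ≤ ‖(Gfin Wd s _ (orb (B := B) (Gfin Wd s) k z x)).1‖
      rw [Gfin_out Wd hs (by linarith), f0_big (hR.trans ih), norm_pow]
      nlinarith
  intro t ht
  refine ⟨key t ht.le, ?_⟩
  obtain ⟨t', rfl⟩ : ∃ t', t = t' + 1 := ⟨t - 1, by omega⟩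
  have h1 := key t' (by omega)
  show (Gfin Wd s _ (orb (B := B) (Gfin Wd s) t' z x)).2 = 0
  rw [Gfin_out Wd hs (by linarith), f0_big (hR.trans h1)]

end outside

section periods

lemma Gtr_succ_window (hs : ScaleOK s) {j M : ℕ} {z : ℝ} {x : ℂ × ℂ}
    (hp : Wd.Period (j + 1) M z) (hd : ‖(coord s j x).1‖ ≤ dom s j) :
    Gtr Wd s (j + 1) z x = Lft s Wd.m j (newStep (par Wd s j M) (coord s j x)) := by
  have hf := Wd.period_first (j := j) (z := z) (by rw [hp.2.1]; exact one_ne_zero)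
  obtain ⟨hMx, hret⟩ := Wd.ret_of_period hp
  have hy : yMix Wd s j z (coord s j x) = newStep (par Wd s j M) (coord s j x) := by
    rw [yMix, Finset.sum_eq_single M]
    · rw [hret M hp.1, if_pos rfl, one_smul, add_sub_cancel]
    · intro N hN hNM
      rw [hret N (Finset.mem_Icc.1 hN).1, if_neg hNM, zero_smul]
    · intro hN
      exact absurd (Finset.mem_Icc.2 ⟨hp.1, hMx⟩) hN
  rw [Gtr_succ, window_formula Wd hs j (Wd.m j) z x hf hd, Lseg_first Wd hs]
  show Lft s Wd.m j (yOld Wd s j (coord s j x)) + _ = _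
  rw [corr, hy, add_sub_cancel]

lemma le_dom {j : ℕ} (hs : ScaleOK s) {r : ℝ} (hr : r ≤ 100) : r ≤ dom s j := by
  cases j with
  | zero => exact hr
  | succ j => show r ≤ 8 / s (j + 1); linarith [big_div hs (c := 8) (by norm_num) (j := j)]

lemma period_add {j M T d : ℕ} {z : ℝ} (hp : Wd.Period j d (B.Ph^[T] z)) (h : T + d = M) :
    Wd.w j (B.Ph^[M] z) = 1 := by
  rw [← h, Nat.add_comm, Function.iterate_add_apply]
  exact hp.2.2.1

lemma orb_succ_eq (hs : ScaleOK s) {j M T d : ℕ} {z : ℝ} (x : ℂ × ℂ)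
    (hp : Wd.Period (j + 1) M z) (hT : 0 < T) (hd : T + d ≤ M) :
    orb (B := B) (Gtr Wd s (j + 1)) (d + T) z x
      = orb (B := B) (Gtr Wd s j) d (B.Ph^[T] z) (orb (B := B) (Gtr Wd s (j + 1)) T z x) := by
  rw [orb_add]
  refine orb_congr (fun r hr w => ?_) _
  rw [← Function.iterate_add_apply]
  exact Gtr_succ_of_w Wd (hp.2.2.2.1 _ (by omega) (by omega)) w

/-- Leaving the coarse core inside a period is final. -/
lemma out_tail (hs : ScaleOK s) {j M : ℕ} {z : ℝ} (x : ℂ × ℂ)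
    (hP : ∀ d y v, Wd.Period j d y → 82 ≤ ‖(coord s j v).1‖ →
      82 ≤ ‖(coord s j (orb (B := B) (Gtr Wd s j) d y v)).1‖)
    (hp : Wd.Period (j + 1) M z) : ∀ r T, M - T = r → 0 < T → T ≤ M →
      Wd.w j (B.Ph^[T] z) = 1 →
      82 ≤ ‖(coord s j (orb (B := B) (Gtr Wd s (j + 1)) T z x)).1‖ →
      82 ≤ ‖(coord s j (orb (B := B) (Gtr Wd s (j + 1)) M z x)).1‖ := by
  intro r
  induction r using Nat.strong_induction_on with
  | _ r ih =>
    intro T hr hT hTM hw hu
    rcases eq_or_lt_of_le hTM with rfl | hlt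
    · exact hu
    obtain ⟨d, hd, hpd⟩ := (Wd.period_split hp).2 T hlt hw
    refine ih (M - (d + T)) (by have := hpd.1; omega) (d + T) rfl (by omega) (by omega) ?_ ?_
    · exact period_add Wd hpd (by omega)
    · rw [orb_succ_eq Wd hs x hp hT hd]
      exact hP d _ _ hpd hu

/-- States outside of the middle zone leave the coarse core after one coarse period. -/
lemma first_out (hs : ScaleOK s) {j M : ℕ} {z : ℝ} {x : ℂ × ℂ}
    (hP : ∀ d y v, Wd.Period j d y → 82 ≤ ‖(coord s j v).1‖ →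
      82 ≤ ‖(coord s j (orb (B := B) (Gtr Wd s j) d y v)).1‖)
    (hp : Wd.Period (j + 1) M z) (h : 10 / s (j + 1) ≤ ‖(coord s (j + 1) x).1‖) :
    82 ≤ ‖(coord s j (orb (B := B) (Gtr Wd s (j + 1)) (Wd.m j) z x)).1‖ := by
  have hm := Wd.m_le_of_period hp
  have hq := par_good Wd s hs hm
  have hfirst := (Wd.period_split hp).1
  obtain ⟨m', hm'⟩ : ∃ m', Wd.m j = m' + 1 := ⟨Wd.m j - 1, by have := hfirst.1; omega⟩
  have htail : ∀ w, orb (B := B) (Gtr Wd s (j + 1)) m' (B.Ph z) w
      = orb (B := B) (Gtr Wd s j) m' (B.Ph z) w := fun w => by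
    refine orb_congr (fun r hr y => ?_) _
    rw [← Function.iterate_succ_apply]
    exact Gtr_succ_of_w Wd (hp.2.2.2.1 (r + 1) r.succ_pos (by omega)) y
  by_cases hx : 82 ≤ ‖(coord s j x).1‖
  · have h0 : Gtr Wd s (j + 1) z x = Gtr Wd s j z x := Gtr_succ_of_large Wd hs (by linarith)
    have := hP _ z x hfirst hx
    rw [hm', orb_add] at this ⊢
    simp only [orb, Function.iterate_zero_apply, Function.iterate_one] at this ⊢
    rwa [h0, htail]
  · rw [not_le] at hx
    have hY : BoxL s j (newStep (par Wd s j M) (coord s j x)) := by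
      obtain ⟨hb1, hb2⟩ := norm_newStep_le hq hx.le
      cases j with
      | zero => exact Or.inl rfl
      | succ j =>
        refine Or.inr ⟨hb1.trans ?_, hb2⟩
        linarith [big_div hs (c := 10) (by norm_num) (j := j)]
    have hsh := (shadow Wd hs j (Wd.m j) z _ hfirst hY).1
    rw [Lseg_first Wd hs] at hsh
    rw [hm', Nat.add_sub_cancel] at hsh
    rw [hm', orb_add]
    simp only [orb, Function.iterate_zero_apply, Function.iterate_one]
    rw [Gtr_succ_window Wd hs hp (le_dom hs (by linarith)), htail, hsh]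
    linarith [newStep_outer hq (x := coord s j x) h (by linarith)]

/-- States above the exact zone end outside. -/
lemma big_step (hs : ScaleOK s) {j M : ℕ} {z : ℝ} {x : ℂ × ℂ}
    (hP : ∀ d y v, Wd.Period j d y → 82 ≤ ‖(coord s j v).1‖ →
      82 ≤ ‖(coord s j (orb (B := B) (Gtr Wd s j) d y v)).1‖)
    (hp : Wd.Period (j + 1) M z) (h : 8 / s (j + 1) < ‖(coord s (j + 1) x).1‖) :
    10 / s (j + 1) ≤ ‖(coord s (j + 1) (orb (B := B) (Gtr Wd s (j + 1)) M z x)).1‖ := by
  have hm := Wd.m_le_of_period hp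
  have hq := par_good Wd s hs hm
  have hfirst := (Wd.period_split hp).1
  have hm0 := hfirst.1
  have fin : 82 ≤ ‖(coord s j (orb (B := B) (Gtr Wd s (j + 1)) M z x)).1‖ →
      10 / s (j + 1) ≤ ‖(coord s (j + 1) (orb (B := B) (Gtr Wd s (j + 1)) M z x)).1‖ := by
    intro hu
    refine le_trans ?_ (coord_large hs (by linarith))
    gcongr
    · exact (hs.pos j).le
    · norm_num
  by_cases hout : 10 / s (j + 1) ≤ ‖(coord s (j + 1) x).1‖
  · exact fin (out_tail Wd hs x hP hp _ (Wd.m j) rfl hm0 hm hfirst.2.2.1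
      (first_out Wd hs hP hp hout))
  rw [not_le] at hout
  have hu := coord_small hs hout.le
  set q := par Wd s j M with hqdef
  set Y := newStep q (coord s j x) with hYdef
  have hY : BoxL s j Y := by
    obtain ⟨hb1, hb2⟩ := norm_newStep_le hq (x := coord s j x) (by linarith)
    cases j with
    | zero => exact Or.inl rfl
    | succ j =>
      refine Or.inr ⟨hb1.trans ?_, hb2⟩
      linarith [big_div hs (c := 10) (by norm_num) (j := j)]
  have hY2 : nu j ^ (M - Wd.m j) * ‖Y.2‖ ≤ 17 :=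
    norm_newStep_snd_end hq (x := coord s j x) (by linarith)
  have hstart : coord s j (orb (B := B) (Gtr Wd s (j + 1)) (Wd.m j) z x) = Y := by
    obtain ⟨m', hm'⟩ : ∃ m', Wd.m j = m' + 1 := ⟨Wd.m j - 1, by omega⟩
    have hsh := (shadow Wd hs j (Wd.m j) z Y hfirst hY).1
    rw [Lseg_first Wd hs, hm', Nat.add_sub_cancel] at hsh
    rw [hm', orb_add]
    simp only [orb, Function.iterate_zero_apply, Function.iterate_one]
    rw [Gtr_succ_window Wd hs hp (le_dom hs (by linarith))]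
    refine Eq.trans ?_ hsh
    congr 1
    refine orb_congr (fun r hr y => ?_) _
    rw [← Function.iterate_succ_apply]
    exact Gtr_succ_of_w Wd (hp.2.2.2.1 (r + 1) r.succ_pos (by omega)) y
  have main : ∀ r T, M - T = r → Wd.m j ≤ T → T ≤ M → Wd.w j (B.Ph^[T] z) = 1 →
      Flight (lam j) (s j) (T - Wd.m j) Y.1
        (coord s j (orb (B := B) (Gtr Wd s (j + 1)) T z x)).1 →
      (coord s j (orb (B := B) (Gtr Wd s (j + 1)) T z x)).2
        = ((nu j ^ (T - Wd.m j) : ℝ) : ℂ) * Y.2 →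
      10 / s (j + 1) ≤ ‖(coord s (j + 1) (orb (B := B) (Gtr Wd s (j + 1)) M z x)).1‖ := by
    intro r
    induction r using Nat.strong_induction_on with
    | _ r ih =>
      intro T hr hmT hTM hw hfl hv
      by_cases hbig : 82 ≤ ‖(coord s j (orb (B := B) (Gtr Wd s (j + 1)) T z x)).1‖
      · exact fin (out_tail Wd hs x hP hp _ T rfl (by omega) hTM hw hbig)
      rcases eq_or_lt_of_le hTM with rfl | hlt
      · have := newStep_middle hq (x := coord s j x) h.le hout.le hfl
        rw [coord_succ]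
        rw [← Prod.mk.eta (p := coord s j (orb (B := B) (Gtr Wd s (j + 1)) T z x)), hv]
        exact this
      rw [not_le] at hbig
      obtain ⟨d, hd, hpd⟩ := (Wd.period_split hp).2 T hlt hw
      have hex := return_exact Wd hs hpd (x := orb (B := B) (Gtr Wd s (j + 1)) T z x)
        (le_dom hs (by linarith))
      rw [← orb_succ_eq Wd hs x hp (by omega) hd] at hex
      have hsub : d + T - Wd.m j = (T - Wd.m j) + d := by omega
      refine ih (M - (d + T)) (by have := hpd.1; omega) (d + T) rfl (by omega) (by omega)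
        (period_add Wd hpd (by omega)) ?_ ?_
      · rw [hex, hsub]
        exact Flight.step d hfl
      · rw [hex, hsub, hv, sig_eq (by linarith [three_lt_nu j]), pow_add, Complex.ofReal_mul]
        · ring
        · rw [norm_mul, Complex.norm_real, Real.norm_of_nonneg (by have := one_le_nu j; positivity),
            ← mul_assoc, ← pow_add]
          refine le_trans ?_ (hY2.trans (by norm_num))
          gcongr
          · exact one_le_nu j
          · omega
  exact main _ (Wd.m j) rfl le_rfl hm hfirst.2.2.1 (by rw [Nat.sub_self, hstart]; exact Flight.refl _)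
    (by rw [Nat.sub_self, hstart]; simp)

/-- Leaving the core of any level is final. -/
lemma out_persist (hs : ScaleOK s) : ∀ (j M : ℕ) (z : ℝ) (x : ℂ × ℂ), Wd.Period j M z →
    82 ≤ ‖(coord s j x).1‖ → 82 ≤ ‖(coord s j (orb (B := B) (Gtr Wd s j) M z x)).1‖
  | 0, M, z, x, hp, hx => by
    obtain rfl := period_zero Wd hp
    simp only [orb, coord, Gtr, Finset.range_zero, Finset.sum_empty, add_zero] at hx ⊢
    calc (82 : ℝ) ≤ (5 / 4) * ‖x.1‖ := by linarith
      _ ≤ _ := f0u_grow hx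
  | j + 1, M, z, x, hp, hx => by
    by_cases h : ‖(coord s (j + 1) x).1‖ ≤ 8 / s (j + 1)
    · rw [return_exact Wd hs hp h, norm_gmap (hs.pos j).le]
      refine le_trans ?_ (rad_grow (hs.pos j).le (hs.le' _) (by linarith) ?_)
      · linarith
      · rwa [← le_div_iff₀ (hs.pos j)]
    · have := big_step Wd hs (x := x) (fun d y v => out_persist hs j d y v) hp (not_le.1 h)
      linarith [big_div hs (c := 10) (by norm_num) (j := j)]

end periods

section real

lemma period_unique {j M N : ℕ} {z : ℝ} (h : Wd.Period j M z) (h' : Wd.Period j N z) : M = N := by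
  rcases lt_trichotomy M N with hlt | rfl | hlt
  · exact absurd (h'.2.2.2.1 M h.1 hlt) (by rw [h.2.2.1]; exact one_ne_zero)
  · rfl
  · exact absurd (h.2.2.2.1 N h'.1 hlt) (by rw [h'.2.2.1]; exact one_ne_zero)

lemma exists_period {j : ℕ} {z : ℝ} (hw : Wd.w j z = 1)
    (hd : ∀ t ≤ Wd.Mx j, Wd.Decided j t z) : ∃ M ≤ Wd.Mx j, Wd.Period j M z := by
  obtain ⟨k, hk, hk1⟩ := Wd.entry j (B.Ph z)
  rw [← Function.iterate_succ_apply] at hk1
  classical
  have hex : ∃ M, 0 < M ∧ Wd.w j (B.Ph^[M] z) = 1 := ⟨k + 1, k.succ_pos, hk1⟩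
  have hle : Nat.find hex ≤ k + 1 := Nat.find_min' hex ⟨k.succ_pos, hk1⟩
  refine ⟨Nat.find hex, by omega, (Nat.find_spec hex).1, hw, (Nat.find_spec hex).2, ?_,
    fun t ht => hd t (by omega)⟩
  intro t ht htM
  rcases hd t (by omega) j le_rfl with h | h
  · exact h
  · exact absurd ⟨ht, h⟩ (Nat.find_min hex htM)

lemma decided_shift {j t a : ℕ} {z : ℝ} :
    Wd.Decided j t (B.Ph^[a] z) ↔ Wd.Decided j (t + a) z := by
  simp [Windows.Decided, Function.iterate_add_apply]

lemma orb_fin_eq (hs : ScaleOK s) {J M : ℕ} {z : ℝ} {x : ℂ × ℂ} (hp : Wd.Period J M z)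
    (hx : 81 ≤ ‖(coord s J x).1‖) : ∀ t ≤ M,
    orb (B := B) (Gfin Wd s) t z x = orb (B := B) (Gtr Wd s J) t z x := by
  intro t ht
  induction t with
  | zero => rfl
  | succ t ih =>
    show Gfin Wd s _ _ = Gtr Wd s J _ _
    rw [ih (by omega)]
    rcases Nat.eq_zero_or_pos t with rfl | hpos
    · exact Gfin_eq_of_large Wd hs hx
    · exact Gfin_eq_of_w Wd (w_succ_zero Wd (by rw [hp.2.2.2.1 t hpos (by omega)]; norm_num)) _

lemma continuous_Lft (j : ℕ) : Continuous (Lft s Wd.m j) := by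
  induction j with
  | zero => exact continuous_id
  | succ j ih => exact ih.comp (contDiff_lift _).continuous

lemma Lft_box_le (hs : ScaleOK s) {J n : ℕ} (hJ : 0 < J) (hn : J ≤ n) :
    Lft s Wd.m n '' box (s n) ⊆ Lft s Wd.m J '' box (s J) := by
  induction hn with
  | refl => exact subset_rfl
  | @step k hk ih =>
    have hkJ : J ≤ k := hk
    obtain ⟨k', rfl⟩ : ∃ k', k = k' + 1 := ⟨k - 1, by omega⟩
    rintro _ ⟨Y, hY, rfl⟩
    exact ih ⟨_, (boxL_lift hs hY).resolve_left (Nat.succ_ne_zero k'), rfl⟩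

lemma box_eq_prod (r : ℝ) :
    box r = Metric.closedBall (0 : ℂ) (10 / r) ×ˢ Metric.closedBall (0 : ℂ) 57 := by
  ext Y
  simp [box]

lemma yMix_mem_box (hs : ScaleOK s) {n : ℕ} (hn : 0 < n) (z : ℝ) {X : ℂ × ℂ}
    (hX : ‖X.1‖ ≤ 82) : yMix Wd s n z X ∈ box (s n) := by
  obtain ⟨n', rfl⟩ : ∃ n', n = n' + 1 := ⟨n - 1, by omega⟩
  set S := Finset.Icc 1 (Wd.Mx (n' + 1 + 1))
  set r := fun M => Wd.ret (n' + 1 + 1) M z
  set σ := ∑ M ∈ S, r M
  have hσ : σ ≤ 1 := Wd.sum_ret_le_one _ _ _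
  have hconv : Convex ℝ (box (s (n' + 1))) := by
    rw [box_eq_prod]
    exact (convex_closedBall _ _).prod (convex_closedBall _ _)
  have hbound : ∀ Y : ℂ × ℂ, ‖Y.1‖ ≤ 400 ∧ ‖Y.2‖ ≤ 57 → Y ∈ box (s (n' + 1)) := fun Y h =>
    ⟨h.1.trans (by linarith [big_div hs (c := 10) (by norm_num) (j := n')]), h.2⟩
  have hold : yOld Wd s (n' + 1) X ∈ box (s (n' + 1)) :=
    hbound _ (norm_oldStep_le (par_good Wd s hs (M := Wd.m (n' + 1)) le_rfl) hX)
  let wt : Option ℕ → ℝ := fun o => o.elim (1 - σ) r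
  let pt : Option ℕ → ℂ × ℂ := fun o => o.elim (yOld Wd s (n' + 1) X)
    fun M => if r M = 0 then yOld Wd s (n' + 1) X else newStep (par Wd s (n' + 1) M) X
  have hval : yMix Wd s (n' + 1) z X = ∑ o ∈ Finset.insertNone S, wt o • pt o := by
    rw [Finset.sum_insertNone]
    simp only [wt, pt, Option.elim_none, Option.elim_some]
    have h1 : ∀ M ∈ S, r M • (if r M = 0 then yOld Wd s (n' + 1) X
        else newStep (par Wd s (n' + 1) M) X) = r M • newStep (par Wd s (n' + 1) M) X := by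
      intro M _
      split_ifs with h <;> simp [h]
    rw [Finset.sum_congr rfl h1, yMix]
    simp only [smul_sub, Finset.sum_sub_distrib, ← Finset.sum_smul, sub_smul, one_smul]
    show _ + (_ - σ • _) = _ - σ • _ + _
    abel
  rw [hval]
  refine hconv.sum_mem ?_ ?_ ?_
  · rintro (_ | M) _
    · show 0 ≤ 1 - σ; linarith
    · exact Wd.ret_nonneg _ _ _
  · rw [Finset.sum_insertNone]
    simp [wt, σ]
  · rintro (_ | M) hM
    · exact hold
    · simp only [pt, Option.elim_some]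
      split_ifs with h
      · exact hold
      · have hm := (Wd.ret_ne_zero (Finset.mem_Icc.1 (Finset.some_mem_insertNone.1 hM)).1 h).2
        exact hbound _ (norm_newStep_le (par_good Wd s hs hm) hX)

/-- Inner states follow the centre during the whole period. -/
lemma near_period (hs : ScaleOK s) (hsum : ∀ z x, Summable fun i => corr Wd s i (z, x)) {J M : ℕ}
    (hJ : 0 < J) {z : ℝ} {x : ℂ × ℂ} (hp : Wd.Period J M z) (hx : ‖(coord s J x).1‖ < 82) :
    ∀ t, 0 < t → t ≤ M →
      ‖orb (B := B) (Gfin Wd s) t z x - (1, 0)‖ ≤ ctr s J * (20 / s J) := by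
  obtain ⟨Y, hY, hval⟩ : ∃ Y ∈ box (s J), Gfin Wd s z x = Lseg s Wd.m J M Y := by
    have hd : ‖(coord s J x).1‖ ≤ dom s J := le_dom hs (by linarith)
    by_cases hw : Wd.w (J + 1) z = 0
    · exact ⟨_, (boxL_prod hs J M _ _).resolve_left hJ.ne',
        (Gfin_eq_of_w Wd hw x).trans (window_formula Wd hs J M z x hp hd)⟩
    · obtain rfl := period_unique Wd hp (Wd.period_first hw)
      have hmem : ∀ n, J ≤ n → Gtr Wd s n z x ∈ Lft s Wd.m J '' box (s J) := by
        intro n hn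
        induction hn with
        | refl =>
          rw [window_formula Wd hs J _ z x hp hd, Lseg_first Wd hs]
          exact ⟨_, (boxL_prod hs J _ _ _).resolve_left hJ.ne', rfl⟩
        | @step k hk ih =>
          by_cases hz : corr Wd s k (z, x) = 0
          · rwa [Gtr_succ, hz, add_zero]
          have hw' : Wd.w (k + 1) z ≠ 0 := fun h => hz (corr_eq_zero_of_w Wd h)
          have hu : ‖(coord s k x).1‖ < 81 :=
            not_le.1 fun h => hz (corr_eq_zero_of_large Wd hs h)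
          rw [Gtr_succ, window_formula Wd hs k _ z x (Wd.period_first hw')
            (le_dom hs (by linarith)), Lseg_first Wd hs]
          show Lft s Wd.m k (yOld Wd s k (coord s k x)) + _ ∈ _
          rw [corr, add_sub_cancel]
          exact Lft_box_le Wd hs hJ hk ⟨_, yMix_mem_box Wd hs (lt_of_lt_of_le hJ hk) z (by linarith), rfl⟩
      have hcl : IsClosed (Lft s Wd.m J '' box (s J)) := by
        refine (IsCompact.image ?_ (continuous_Lft Wd J)).isClosed
        rw [box_eq_prod]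
        exact (isCompact_closedBall _ _).prod (isCompact_closedBall _ _)
      have hlim : Filter.Tendsto (fun n => Gtr Wd s n z x) Filter.atTop (nhds (Gfin Wd s z x)) :=
        (hsum z x).hasSum.tendsto_sum_nat.const_add _
      obtain ⟨Y, hY, hYv⟩ := hcl.mem_of_tendsto hlim (Filter.eventually_atTop.2 ⟨J, hmem⟩)
      exact ⟨Y, hY, by rw [Lseg_first Wd hs]; exact hYv.symm⟩
  intro t ht htM
  obtain ⟨t', rfl⟩ : ∃ t', t = t' + 1 := ⟨t - 1, by omega⟩
  have hsh := (shadow Wd hs J M z Y hp (Or.inr hY)).2 t' (by omega)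
  have heq : orb (B := B) (Gfin Wd s) (t' + 1) z x
      = orb (B := B) (Gtr Wd s J) t' (B.Ph z) (Lseg s Wd.m J M Y) := by
    rw [orb_add]
    simp only [orb, Function.iterate_zero_apply, Function.iterate_one, hval]
    refine orb_congr (fun r hr w => ?_) _
    rw [← Function.iterate_succ_apply]
    exact Gfin_eq_of_w Wd (w_succ_zero Wd (by rw [hp.2.2.2.1 _ r.succ_pos (by omega)]; norm_num)) w
  rw [heq]
  refine hsh.trans (mul_le_mul_of_nonneg_left ?_ (ctr_nonneg hs J))
  obtain ⟨J', rfl⟩ : ∃ J', J = J' + 1 := ⟨J - 1, by omega⟩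
  have h10 := big_div hs (c := 10) (by norm_num) (j := J')
  have h20 : 20 / s (J' + 1) = 10 / s (J' + 1) + 10 / s (J' + 1) := by ring
  rw [Prod.norm_def, h20]
  refine max_le ?_ ?_
  · simp only [Prod.fst_sub]
    exact (norm_sub_le _ _).trans (by simp; linarith [hY.1])
  · simp only [Prod.snd_sub, sub_zero]
    linarith [hY.2]

/-- An escaped orbit reaches the far zone after boundedly many decided steps. -/
lemma reach_far (hs : ScaleOK s) (R : ℝ) : ∀ j, ∃ T : ℕ, ∀ (z : ℝ) (x : ℂ × ℂ), Wd.w j z = 1 →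
    (∀ t ≤ T, Wd.Decided j t z) → 82 ≤ ‖(coord s j x).1‖ →
    ∃ τ ≤ T, R ≤ ‖(orb (B := B) (Gfin Wd s) τ z x).1‖
  | 0 => by
    obtain ⟨N, hN⟩ := pow_unbounded_of_one_lt R (by norm_num : (1:ℝ) < 5 / 4)
    refine ⟨N, fun z x _ _ hx => ⟨N, le_rfl, ?_⟩⟩
    have key : ∀ n : ℕ, 82 ≤ ‖(orb (B := B) (Gfin Wd s) n z x).1‖ ∧
        (5 / 4 : ℝ) ^ n ≤ ‖(orb (B := B) (Gfin Wd s) n z x).1‖ := by
      intro n
      induction n with
      | zero => exact ⟨hx, by simp only [coord] at hx; simp [orb]; linarith⟩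
      | succ n ih =>
        have hg := f0u_grow ih.1
        show 82 ≤ ‖(Gfin Wd s _ _).1‖ ∧ _ ≤ ‖(Gfin Wd s _ _).1‖
        rw [Gfin_out Wd hs (by linarith [ih.1]), pow_succ]
        show 82 ≤ ‖f0u _‖ ∧ _ ≤ ‖f0u _‖
        constructor <;> linarith [ih.1, ih.2]
    exact hN.le.trans (key N).2
  | j + 1 => by
    obtain ⟨T0, hT0⟩ := reach_far hs R j
    obtain ⟨N, hN⟩ := pow_unbounded_of_one_lt (8 / s (j + 1)) (by norm_num : (1:ℝ) < 5 / 4)
    set L := Wd.Mx (j + 1)
    refine ⟨(N + 2) * L + T0, fun z x hw hd hx => ?_⟩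
    have hP := fun d y v => out_persist Wd hs j d y v
    have climb : ∀ k ≤ N, ∃ τ ≤ N * L, Wd.w (j + 1) (B.Ph^[τ] z) = 1 ∧
        82 ≤ ‖(coord s (j + 1) (orb (B := B) (Gfin Wd s) τ z x)).1‖ ∧
        (8 / s (j + 1) < ‖(coord s (j + 1) (orb (B := B) (Gfin Wd s) τ z x)).1‖ ∨
          (τ ≤ k * L ∧ (5 / 4 : ℝ) ^ k ≤
            ‖(coord s (j + 1) (orb (B := B) (Gfin Wd s) τ z x)).1‖)) := by
      intro k hk
      induction k with
      | zero => exact ⟨0, Nat.zero_le _, hw, hx, Or.inr ⟨by simp, by simp [orb]; linarith⟩⟩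
      | succ k ih =>
        obtain ⟨τ, hτ, hwτ, h82, hor⟩ := ih (by omega)
        by_cases hbig : 8 / s (j + 1) < ‖(coord s (j + 1) (orb (B := B) (Gfin Wd s) τ z x)).1‖
        · exact ⟨τ, hτ, hwτ, h82, Or.inl hbig⟩
        obtain ⟨hτk, hge⟩ := hor.resolve_left hbig
        rw [not_lt] at hbig
        have hkL : τ + L ≤ (k + 1) * L := by rw [Nat.succ_mul]; omega
        have hNL : (k + 1) * L ≤ N * L := Nat.mul_le_mul_right _ hk
        obtain ⟨M, hM, hpM⟩ := exists_period Wd hwτ fun t ht => (decided_shift Wd).2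
          (hd _ (by rw [Nat.add_mul]; omega))
        have hnew : coord s (j + 1) (orb (B := B) (Gfin Wd s) (M + τ) z x)
            = (gmap (lam (j + 1)) (s (j + 1)) M
                (coord s (j + 1) (orb (B := B) (Gfin Wd s) τ z x)).1,
              sig (nu (j + 1)) M (coord s (j + 1) (orb (B := B) (Gfin Wd s) τ z x)).2) := by
          rw [orb_add, orb_fin_eq Wd hs hpM (by linarith) M le_rfl]
          exact return_exact Wd hs hpM hbig
        have hg : (5 / 4) * ‖(coord s (j + 1) (orb (B := B) (Gfin Wd s) τ z x)).1‖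
            ≤ ‖(coord s (j + 1) (orb (B := B) (Gfin Wd s) (M + τ) z x)).1‖ := by
          rw [hnew, norm_gmap (hs.pos j).le]
          exact rad_grow (hs.pos j).le (hs.le' _) (by linarith) (by rwa [← le_div_iff₀ (hs.pos j)])
        refine ⟨M + τ, by omega, ?_, by linarith, Or.inr ⟨by omega, ?_⟩⟩
        · rw [Function.iterate_add_apply]; exact hpM.2.2.1
        · rw [pow_succ]; linarith
    obtain ⟨τ, hτ, hwτ, h82, hor⟩ := climb N le_rfl
    have hbig : 8 / s (j + 1) < ‖(coord s (j + 1) (orb (B := B) (Gfin Wd s) τ z x)).1‖ :=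
      hor.elim id fun h => lt_of_lt_of_le hN h.2
    have hNL : (N + 2) * L = N * L + L + L := by ring
    obtain ⟨M, hM, hpM⟩ := exists_period Wd hwτ fun t ht => (decided_shift Wd).2
      (hd _ (by omega))
    have h10 : 10 / s (j + 1) ≤
        ‖(coord s (j + 1) (orb (B := B) (Gfin Wd s) (M + τ) z x)).1‖ := by
      rw [orb_add, orb_fin_eq Wd hs hpM (by linarith) M le_rfl]
      exact big_step Wd hs hP hpM hbig
    have hw2 : Wd.w (j + 1) (B.Ph^[M + τ] z) = 1 := by
      rw [Function.iterate_add_apply]; exact hpM.2.2.1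
    obtain ⟨M2, hM2, hp2⟩ := exists_period Wd hw2 fun t ht => (decided_shift Wd).2
      (hd _ (by omega))
    have hm2 := Wd.m_le_of_period hp2
    have hout : 82 ≤
        ‖(coord s j (orb (B := B) (Gfin Wd s) (Wd.m j + (M + τ)) z x)).1‖ := by
      rw [orb_add, orb_fin_eq Wd hs hp2 (by linarith [big_div hs (c := 10) (by norm_num) (j := j)])
        _ hm2]
      exact first_out Wd hs hP hp2 h10
    have hw3 : Wd.w j (B.Ph^[Wd.m j + (M + τ)] z) = 1 := by
      rw [Function.iterate_add_apply]; exact (Wd.period_split hp2).1.2.2.1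
    obtain ⟨τ', hτ', hfar⟩ := hT0 (B.Ph^[Wd.m j + (M + τ)] z)
      (orb (B := B) (Gfin Wd s) (Wd.m j + (M + τ)) z x) hw3
      (fun t ht => (decided_shift Wd).2 fun i hi => hd _ (by omega) i (by omega)) hout
    exact ⟨τ' + (Wd.m j + (M + τ)), by omega, by rw [orb_add]; exact hfar⟩

end real

lemma exists_small_ctr (hs : ScaleOK s) {ε : ℝ} (hε : 0 < ε) :
    ∃ J, 0 < J ∧ ctr s J * (20 / s J) ≤ ε := by
  obtain ⟨n, hn⟩ := exists_pow_lt_of_lt_one (show (0:ℝ) < ε / 60 by positivity)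
    (show (3 / 1000 : ℝ) < 1 by norm_num)
  refine ⟨n + 1, n.succ_pos, ?_⟩
  have h1 : ctr s n ≤ (3 / 1000) ^ n := by
    have hsimp : (3 / 1000 : ℝ) ^ n = ∏ _i ∈ Finset.range n, (3 / 1000 : ℝ) := by
      rw [Finset.prod_const, Finset.card_range]
    rw [ctr, hsimp]
    exact Finset.prod_le_prod (fun i _ => mul_nonneg (by norm_num) (hs.pos i).le)
      (fun i _ => by linarith [hs.le i])
  have h2 : ctr s (n + 1) * (20 / s (n + 1)) = 60 * ctr s n := by
    rw [ctr, Finset.prod_range_succ, ← ctr]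
    field_simp [(hs.pos n).ne']
    ring
  rw [h2]
  linarith

/-- At all but boundedly many times an orbit is next to the centre or far out. -/
theorem orbit_times (hs : ScaleOK s) (hsum : ∀ z x, Summable fun i => corr Wd s i (z, x)) :
    OrbitTimes Wd s := by
  intro ε R hε
  obtain ⟨J, hJ, hsmall⟩ := exists_small_ctr hs hε
  obtain ⟨T0, hT0⟩ := reach_far Wd hs (max R 200) J
  set L := Wd.Mx J
  set W := T0 + 2 * L
  refine ⟨(W + 1) + 2 * (J + 1) * (2 * W + 1) + (W + 1), fun z x => ?_⟩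
  classical
  choose Ef hEc hE using fun i => Wd.bad_le i z
  set Bd : Finset ℕ := (Finset.range (J + 1)).biUnion Ef
  have hdec : ∀ t, t ∉ Bd → Wd.Decided J t z := fun t ht i hi =>
    hE i t fun h => ht (Finset.mem_biUnion.2 ⟨i, Finset.mem_range.2 (by omega), h⟩)
  let Q : ℕ → Prop := fun a => Wd.w J (B.Ph^[a] z) = 1 ∧
    (∀ t ≤ W, a + t ∉ Bd) ∧ 82 ≤ ‖(coord s J (orb (B := B) (Gfin Wd s) a z x)).1‖
  let extra : Finset ℕ := if h : ∃ a, Q a then Finset.Icc (Nat.find h) (Nat.find h + W) else ∅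
  refine ⟨Finset.range (W + 1) ∪ Bd.biUnion (fun b => Finset.Icc (b - W) (b + W)) ∪ extra,
    ?_, fun t ht => ?_⟩
  · refine (Finset.card_union_le _ _).trans (add_le_add ((Finset.card_union_le _ _).trans
      (add_le_add (Finset.card_range _).le ?_)) ?_)
    · have hB : Bd.card ≤ 2 * (J + 1) := by
        refine Finset.card_biUnion_le.trans ((Finset.sum_le_sum fun i _ => hEc i).trans ?_)
        simp [Finset.sum_const]; omega
      refine Finset.card_biUnion_le.trans ((Finset.sum_le_card_nsmul _ _ (2 * W + 1) fun b _ => ?_).trans ?_)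
      · rw [Nat.card_Icc]; omega
      · rw [smul_eq_mul]; exact Nat.mul_le_mul_right _ hB
    · simp only [extra]
      split_ifs
      · rw [Nat.card_Icc]; omega
      · simp
  simp only [Finset.mem_union, not_or, Finset.mem_range, not_lt] at ht
  obtain ⟨⟨htW, htB⟩, htX⟩ := ht
  have hgood : ∀ r, t ≤ r + W → r ≤ t + W → r ∉ Bd := by
    intro r h1 h2 hr
    exact htB (Finset.mem_biUnion.2 ⟨r, hr, Finset.mem_Icc.2 ⟨by omega, by omega⟩⟩)
  obtain ⟨k, hk, hwk⟩ := Wd.entry J (B.Ph^[t - L] z)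
  rw [← Function.iterate_add_apply] at hwk
  let P : ℕ → Prop := fun a => a < t ∧ Wd.w J (B.Ph^[a] z) = 1
  set a := Nat.findGreatest P t
  have hP0 : P (k + (t - L)) := ⟨by omega, hwk⟩
  have hge : k + (t - L) ≤ a := Nat.le_findGreatest (by omega) hP0
  obtain ⟨hat, hwa⟩ : P a := Nat.findGreatest_spec (by omega) hP0
  obtain ⟨M, hM, hpM⟩ := exists_period Wd hwa fun r hr => (decided_shift Wd).2
    (hdec _ (hgood _ (by omega) (by omega)))
  have htM : t ≤ a + M := by
    by_contra hlt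
    have : a + M ≤ a := Nat.le_findGreatest (by omega)
      ⟨by omega, by rw [Nat.add_comm, Function.iterate_add_apply]; exact hpM.2.2.1⟩
    have := hpM.1
    omega
  by_cases hin : ‖(coord s J (orb (B := B) (Gfin Wd s) a z x)).1‖ < 82
  · left
    have := near_period Wd hs hsum hJ hpM hin (t - a) (by omega) (by omega)
    rw [show t = (t - a) + a by omega, orb_add]
    exact this.trans hsmall
  right
  have hQ : Q a := ⟨hwa, fun r hr => hgood _ (by omega) (by omega), not_lt.1 hin⟩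
  have hex : ∃ a, Q a := ⟨a, hQ⟩
  simp only [extra, dif_pos hex, Finset.mem_Icc, not_and_or, not_le] at htX
  obtain ⟨hw0, hd0, h820⟩ := Nat.find_spec hex
  have hmin := Nat.find_min' hex hQ
  have hlt : Nat.find hex + W < t := by rcases htX with h | h <;> omega
  obtain ⟨τ, hτ, hfar⟩ := hT0 _ (orb (B := B) (Gfin Wd s) (Nat.find hex) z x) hw0
    (fun r hr => (decided_shift Wd).2 (hdec _ (by rw [Nat.add_comm]; exact hd0 r (by omega))))
    h820
  rw [← orb_add] at hfar
  have := orb_far Wd hs (le_max_right R 200) hfar t (by omega)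
  exact ⟨(le_max_left _ _).trans this.1, this.2⟩

end

end Vale.Agent.P103S
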