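import Vale.Agent.P103S.Entropy
import Vale.Agent.P103S.Escape
import Vale.Agent.P103S.Homology.Bridge

/-! P103: the counterexample to the entropy conjecture for `C^1` maps. -/

namespace Vale.Agent.P103S

noncomputable section

open Real Function CategoryTheory AlgebraicTopology
open scoped Manifold ContDiff
open Homology (S2)

theorem exists_counterexample :
    ∃ f : C(Circle × S2 × S2, Circle × S2 × S2),
      ContMDiff ((𝓡 1).prod ((𝓡 2).prod (𝓡 2))) ((𝓡 1).prod ((𝓡 2).prod (𝓡 2))) 1 f ∧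
      Dynamics.coverEntropy f Set.univ = 0 ∧
      (2 : ℝ) ∈ spectrum ℝ (((singularHomologyFunctor (ModuleCat.{0} ℝ) 2).obj
        (ModuleCat.of ℝ ℝ)).map (TopCat.ofHom f :
          TopCat.of (Circle × S2 × S2) ⟶ TopCat.of (Circle × S2 × S2))).hom ∧
      ∃ L : ((singularHomologyFunctor (ModuleCat.{0} ℝ) 2).obj (ModuleCat.of ℝ ℝ)).obj
          (TopCat.of (Circle × S2 × S2)) ⟶ ModuleCat.of ℝ ℝ, L ≠ 0 ∧
        ((singularHomologyFunctor (ModuleCat.{0} ℝ) 2).obj (ModuleCat.of ℝ ℝ)).map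
          (TopCat.ofHom f : TopCat.of (Circle × S2 × S2) ⟶ TopCat.of (Circle × S2 × S2)) ≫ L
            = (2 : ℝ) • L := by
  obtain ⟨B, mmin, Wd, s, hs, hc, hsum⟩ := exists_params
  have hf := contMDiff_fMap Wd hs hc
  refine ⟨⟨fMap Wd s, hf.continuous⟩, hf, entropy_fMap Wd hs hc (orbit_times Wd hs hsum), ?_,
    Homology.exists_eigen_functional (M := TopCat.of (Circle × S2 × S2)) prU secU
      (ContinuousMap.ext fun _ => rfl) ⟨fMap Wd s, hf.continuous⟩
      (homotopic_fMap Wd hs hc hf.continuous)⟩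
  exact Homology.two_mem_spectrum (M := TopCat.of (Circle × S2 × S2)) prU secU
    (ContinuousMap.ext fun _ => rfl) ⟨fMap Wd s, hf.continuous⟩ (homotopic_fMap Wd hs hc hf.continuous)

/-- A `C^1` map of a compact manifold without boundary whose entropy is smaller than the logarithm
of the modulus of a point of the spectrum of its action on real homology. -/
theorem entropy_conjecture_fails :
    ∃ f : C(Circle × S2 × S2, Circle × S2 × S2),
      ContMDiff ((𝓡 1).prod ((𝓡 2).prod (𝓡 2))) ((𝓡 1).prod ((𝓡 2).prod (𝓡 2))) 1 f ∧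
      Dynamics.coverEntropy f Set.univ = 0 ∧
      ∃ (k : ℕ) (r : ℝ), r ∈ spectrum ℝ (((singularHomologyFunctor (ModuleCat.{0} ℝ) k).obj
        (ModuleCat.of ℝ ℝ)).map (TopCat.ofHom f :
          TopCat.of (Circle × S2 × S2) ⟶ TopCat.of (Circle × S2 × S2))).hom ∧
        (∃ L : ((singularHomologyFunctor (ModuleCat.{0} ℝ) k).obj (ModuleCat.of ℝ ℝ)).obj
            (TopCat.of (Circle × S2 × S2)) ⟶ ModuleCat.of ℝ ℝ, L ≠ 0 ∧
          ((singularHomologyFunctor (ModuleCat.{0} ℝ) k).obj (ModuleCat.of ℝ ℝ)).map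
            (TopCat.ofHom f : TopCat.of (Circle × S2 × S2) ⟶ TopCat.of (Circle × S2 × S2)) ≫ L
              = r • L) ∧
        Dynamics.coverEntropy f Set.univ < ((Real.log |r| : ℝ) : EReal) := by
  obtain ⟨f, h1, h2, h3, h4⟩ := exists_counterexample
  refine ⟨f, h1, h2, 2, 2, h3, h4, ?_⟩
  rw [h2]
  exact_mod_cast Real.log_pos (by norm_num : (1:ℝ) < |2|)

end

end Vale.Agent.P103S
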