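import Mathlib

/-!
P103: numerical data and cut-off functions for the C^1 map with zero entropy
(paper: scratch/P103/SHUB24.md).
-/

namespace Vale.Agent.P103S

noncomputable section

open Real

/-- Expansion rate of level `j` in the tangential coordinate. -/
def nu (j : ℕ) : ℝ := 3 + 1 / (4 * j + 4)

/-- Expansion rate of level `j` in the normal coordinate. -/
def lam (j : ℕ) : ℝ := 3 + 1 / (4 * j + 6)

lemma three_lt_lam (j : ℕ) : 3 < lam j := by
  unfold lam
  have : (0 : ℝ) < 1 / (4 * (j : ℝ) + 6) := by positivity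
  linarith

lemma lam_lt_nu (j : ℕ) : lam j < nu j := by
  unfold lam nu
  have : 1 / (4 * (j : ℝ) + 6) < 1 / (4 * (j : ℝ) + 4) :=
    one_div_lt_one_div_of_lt (by positivity) (by linarith)
  linarith

lemma nu_succ_lt_lam (j : ℕ) : nu (j + 1) < lam j := by
  unfold lam nu
  have : 1 / (4 * ((j + 1 : ℕ) : ℝ) + 4) < 1 / (4 * (j : ℝ) + 6) := by
    push_cast
    exact one_div_lt_one_div_of_lt (by positivity) (by linarith)
  linarith

lemma nu_le (j : ℕ) : nu j ≤ 13 / 4 := by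
  unfold nu
  have : 1 / (4 * (j : ℝ) + 4) ≤ 1 / 4 :=
    one_div_le_one_div_of_le (by norm_num) (by linarith [(Nat.cast_nonneg j : (0:ℝ) ≤ j)])
  linarith

lemma three_lt_nu (j : ℕ) : 3 < nu j := (three_lt_lam j).trans (lam_lt_nu j)

lemma lam_le (j : ℕ) : lam j ≤ 13 / 4 := (lam_lt_nu j).le.trans (nu_le j)

lemma nu_succ_lt_nu (j : ℕ) : nu (j + 1) < nu j := (nu_succ_lt_lam j).trans (lam_lt_nu j)

lemma lam_succ_lt_lam (j : ℕ) : lam (j + 1) < lam j :=
  (lam_lt_nu (j + 1)).trans (nu_succ_lt_lam j)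

/-- The C^1 step: `0` on `x ≤ 0`, `1` on `1 ≤ x`. -/
def stp (x : ℝ) : ℝ := if x ≤ 0 then 0 else if 1 ≤ x then 1 else 3 * x ^ 2 - 2 * x ^ 3

lemma stp_of_le {x : ℝ} (h : x ≤ 0) : stp x = 0 := if_pos h

lemma stp_of_ge {x : ℝ} (h : 1 ≤ x) : stp x = 1 := by
  rw [stp, if_neg (by linarith), if_pos h]

lemma stp_mem (x : ℝ) : stp x ∈ Set.Icc (0 : ℝ) 1 := by
  unfold stp
  split_ifs with h1 h2
  · simp
  · simp
  · constructor <;> nlinarith [not_le.1 h1, not_le.1 h2, sq_nonneg x, sq_nonneg (1 - x)]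

/-- The derivative of `stp`. -/
def dstp (x : ℝ) : ℝ := max 0 (6 * x - 6 * x ^ 2)

lemma continuous_dstp : Continuous dstp := by
  unfold dstp
  fun_prop

lemma dstp_mem (x : ℝ) : dstp x ∈ Set.Icc (0 : ℝ) (3 / 2) :=
  ⟨le_max_left _ _, max_le (by norm_num) (by nlinarith [sq_nonneg (2 * x - 1)])⟩

lemma dstp_of_le {x : ℝ} (h : x ≤ 0) : dstp x = 0 :=
  max_eq_left (by nlinarith)

lemma dstp_of_ge {x : ℝ} (h : 1 ≤ x) : dstp x = 0 :=
  max_eq_left (by nlinarith)

lemma hasDerivAt_stp (x : ℝ) : HasDerivAt stp (dstp x) x := by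
  have hpoly : HasDerivAt (fun y : ℝ => 3 * y ^ 2 - 2 * y ^ 3) (6 * x - 6 * x ^ 2) x := by
    refine (((hasDerivAt_pow 2 x).const_mul 3).fun_sub
      ((hasDerivAt_pow 3 x).const_mul 2)).congr_deriv ?_
    norm_num; ring
  have hmid : ∀ y ∈ Set.Icc (0:ℝ) 1, stp y = 3 * y ^ 2 - 2 * y ^ 3 := by
    intro y hy
    rcases eq_or_lt_of_le hy.1 with h | h
    · subst h; simp [stp]
    rcases eq_or_lt_of_le hy.2 with h' | h'
    · subst h'; rw [stp_of_ge le_rfl]; norm_num
    rw [stp, if_neg (by linarith), if_neg (by linarith)]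
  have hlo : ∀ y ∈ Set.Iic (0:ℝ), stp y = 0 := fun y hy => stp_of_le hy
  have hhi : ∀ y ∈ Set.Ici (1:ℝ), stp y = 1 := fun y hy => stp_of_ge hy
  rcases lt_trichotomy x 0 with h | h | h
  · rw [dstp_of_le h.le]
    exact (hasDerivAt_const x (0:ℝ)).congr_of_eventuallyEq
      (Filter.eventually_of_mem (Iic_mem_nhds h) hlo)
  · subst h
    rw [dstp_of_le le_rfl]
    have h1 : HasDerivWithinAt stp 0 (Set.Iic 0) 0 :=
      (hasDerivWithinAt_const 0 (Set.Iic 0) (0:ℝ)).congr hlo (hlo 0 (by simp))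
    have h2 : HasDerivWithinAt stp 0 (Set.Icc 0 1) 0 := by
      have := (hpoly.hasDerivWithinAt (s := Set.Icc 0 1)).congr hmid (hmid 0 (by simp))
      simpa using this
    refine (h1.union h2).hasDerivAt ?_
    rw [Set.Iic_union_Icc_eq_Iic zero_le_one]
    exact Iic_mem_nhds zero_lt_one
  rcases lt_trichotomy x 1 with h' | h' | h'
  · rw [dstp, max_eq_right (by nlinarith)]
    exact hpoly.congr_of_eventuallyEq
      (Filter.eventually_of_mem (Icc_mem_nhds h h') hmid)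
  · subst h'
    rw [dstp_of_ge le_rfl]
    have h1 : HasDerivWithinAt stp 0 (Set.Ici 1) 1 :=
      (hasDerivWithinAt_const 1 (Set.Ici 1) (1:ℝ)).congr hhi (hhi 1 (by simp))
    have h2 : HasDerivWithinAt stp 0 (Set.Icc 0 1) 1 := by
      have := (hpoly.hasDerivWithinAt (s := Set.Icc 0 1)).congr hmid (hmid 1 (by simp))
      simpa using this
    refine (h2.union h1).hasDerivAt ?_
    rw [Set.Icc_union_Ici_eq_Ici zero_le_one]
    exact Ici_mem_nhds zero_lt_one
  · rw [dstp_of_ge h'.le]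
    exact (hasDerivAt_const x (1:ℝ)).congr_of_eventuallyEq
      (Filter.eventually_of_mem (Ici_mem_nhds h') hhi)

lemma deriv_stp : deriv stp = dstp := funext fun x => (hasDerivAt_stp x).deriv

lemma contDiff_stp : ContDiff ℝ 1 stp :=
  contDiff_one_iff_deriv.2
    ⟨fun x => (hasDerivAt_stp x).differentiableAt, deriv_stp ▸ continuous_dstp⟩

lemma stp_mono : Monotone stp :=
  monotone_of_hasDerivAt_nonneg hasDerivAt_stp fun x => (dstp_mem x).1

lemma abs_deriv_stp (x : ℝ) : |deriv stp x| ≤ 3 / 2 := by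
  rw [deriv_stp, abs_of_nonneg (dstp_mem x).1]
  exact (dstp_mem x).2

/-- The constant radius of the exact (log-linear) zone. -/
def cz : ℝ := 1 / 4

/-- Periodic function with slope at most one, equal to the identity on `[-cz, cz]`. -/
def tau (th : ℝ) : ℝ := Real.arcsin (Real.sin th) * stp ((Real.cos th - 2 / 100) / (94 / 100))

/-- Bounded odd function, the identity on `[-1, 1]`. -/
def tau2 (y : ℝ) : ℝ := if |y| ≤ 1 then y else if 0 < y then 2 - 1 / y else -2 - 1 / y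

/-- `1` on `x ≤ 1`, `0` on `2 ≤ x`. -/
def chi (x : ℝ) : ℝ := 1 - stp (x - 1)

lemma chi_of_le {x : ℝ} (h : x ≤ 1) : chi x = 1 := by
  simp [chi, stp_of_le (by linarith : x - 1 ≤ 0)]

lemma chi_of_ge {x : ℝ} (h : 2 ≤ x) : chi x = 0 := by
  simp [chi, stp_of_ge (by linarith : (1:ℝ) ≤ x - 1)]

lemma chi_mem (x : ℝ) : chi x ∈ Set.Icc (0 : ℝ) 1 := by
  have := stp_mem (x - 1)
  simp only [chi, Set.mem_Icc] at this ⊢
  constructor <;> linarith

end

end Vale.Agent.P103S
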