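import Vale.Agent.P103S.Angle

/-! P103: the product level maps, the chart change and the lift. -/

namespace Vale.Agent.P103S

noncomputable section

open Real

/-- The saturated linear profile `2 r`, capped at `10 / s` (no cap for `s = 0`). -/
def capA (s r : ℝ) : ℝ :=
  2 * r * (1 - stp (2 * (2 * r * (s / 10)) - 1)) + stp (2 * (2 * r * (s / 10)) - 1) * (10 / s)

/-- Radial profile with slope `be` at the fixed point `1`. -/
def rad (be s r : ℝ) : ℝ :=
  (1 - stp (r - 3)) * (stp (4 * r - 1) * Real.exp (cz * tau2 (be * Real.log r / cz)))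
    + stp (r - 3) * capA s r

/-- Level map in the normal coordinate: degree `2 ^ m`, multiplier `l ^ m` at `1`. -/
def gmap (l s : ℝ) (m : ℕ) (u : ℂ) : ℂ := (rad (l ^ m) s ‖u‖ : ℂ) * En l m (Complex.arg u)

/-- Level map in the tangential coordinate. -/
def sig (n : ℝ) (m : ℕ) (v : ℂ) : ℂ :=
  ((n ^ m * chi ((n ^ m) ^ 2 * Complex.normSq v / 400) : ℝ) : ℂ) * v

/-- Global extension of `log` near `1`. -/
def Lam (u : ℂ) : ℂ :=
  u - 1 + ((chi (8 * Complex.normSq (u - 1)) : ℝ) : ℂ) * (Complex.log u - (u - 1))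

/-- Cut-off identity. -/
def vbar (v : ℂ) : ℂ := ((chi (Complex.normSq v / 1600) : ℝ) : ℂ) * v

/-- Chart change. -/
def chart (s : ℝ) (x : ℂ × ℂ) : ℂ × ℂ := ((vbar x.2 - Lam x.1) / (s : ℂ) + 1, Lam x.1 / (s : ℂ))

/-- Lift of a state at the end of a period of length `k + first`. -/
def lift (l n s : ℝ) (k : ℕ) (Y : ℂ × ℂ) : ℂ × ℂ :=
  (Complex.exp ((s : ℂ) * Y.2 / ((l ^ k : ℝ) : ℂ)),
    ((s : ℂ) * (Y.1 - 1) + (s : ℂ) * Y.2) / ((n ^ k : ℝ) : ℂ))

/-- The box of states reachable by the new map of a level with scale `s`. -/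
def box (s : ℝ) : Set (ℂ × ℂ) := {Y | ‖Y.1‖ ≤ 10 / s ∧ ‖Y.2‖ ≤ 57}

/-- The derivative of `tau2`. -/
def dtau2 (y : ℝ) : ℝ := 1 / (max 1 |y|) ^ 2

lemma tau2_of_abs_le {y : ℝ} (h : |y| ≤ 1) : tau2 y = y := if_pos h

lemma tau2_of_one_le {y : ℝ} (h : 1 ≤ y) : tau2 y = 2 - 1 / y := by
  rcases eq_or_lt_of_le h with e | e
  · subst e; norm_num [tau2]
  rw [tau2, if_neg (by rw [abs_of_pos (by linarith)]; linarith), if_pos (by linarith)]

lemma tau2_of_le_neg_one {y : ℝ} (h : y ≤ -1) : tau2 y = -2 - 1 / y := by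
  rcases eq_or_lt_of_le h with e | e
  · subst e; norm_num [tau2]
  rw [tau2, if_neg (by rw [abs_of_neg (by linarith)]; linarith), if_neg (by linarith)]

lemma abs_tau2_le (y : ℝ) : |tau2 y| ≤ 2 := by
  rcases le_or_gt |y| 1 with h | h
  · rw [tau2_of_abs_le h]; linarith
  rcases lt_abs.1 h with h' | h'
  · rw [tau2_of_one_le h'.le, abs_le]
    have h1 : 0 < 1 / y := by have : 0 < y := (by linarith); positivity
    have h2 : 1 / y ≤ 1 := by rw [div_le_one (by linarith)]; linarith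
    constructor <;> linarith
  · rw [tau2_of_le_neg_one (by linarith), abs_le]
    have h1 : 1 / y < 0 := div_neg_of_pos_of_neg one_pos (by linarith)
    have h2 : -1 ≤ 1 / y := by rw [le_div_iff_of_neg (by linarith)]; linarith
    constructor <;> linarith

lemma tau2_nonpos {y : ℝ} (hy : y ≤ 0) : tau2 y ≤ 0 := by
  rcases le_or_gt |y| 1 with h | h
  · rwa [tau2_of_abs_le h]
  · have h' : y ≤ -1 := by rw [abs_of_nonpos hy] at h; linarith
    rw [tau2_of_le_neg_one h']
    have h2 : -1 ≤ 1 / y := by rw [le_div_iff_of_neg (by linarith)]; linarith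
    linarith

lemma hasDerivAt_tau2 (y : ℝ) : HasDerivAt tau2 (dtau2 y) y := by
  have hp : y ≠ 0 → ∀ c : ℝ, HasDerivAt (fun x : ℝ => c - 1 / x) (1 / y ^ 2) y := by
    intro h c
    simp only [one_div]
    exact ((hasDerivAt_inv h).const_sub c).congr_deriv (by ring)
  have hid : ∀ x ∈ Set.Icc (-1:ℝ) 1, tau2 x = x := fun x hx => tau2_of_abs_le (abs_le.2 hx)
  have hhi : ∀ x ∈ Set.Ici (1:ℝ), tau2 x = 2 - 1 / x := fun x hx => tau2_of_one_le hx
  have hlo : ∀ x ∈ Set.Iic (-1:ℝ), tau2 x = -2 - 1 / x := fun x hx => tau2_of_le_neg_one hx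
  rcases lt_trichotomy y (-1) with h | h | h
  · refine ((hp (by linarith) (-2)).congr_of_eventuallyEq
      (Filter.eventually_of_mem (Iic_mem_nhds h) hlo)).congr_deriv ?_
    rw [dtau2, abs_of_neg (by linarith), max_eq_right (by linarith), neg_sq]
  · subst h
    have h1 := ((hp (by norm_num) (-2)).hasDerivWithinAt (s := Set.Iic (-1))).congr hlo
      (hlo _ (by simp))
    have h2 := ((hasDerivAt_id (-1:ℝ)).hasDerivWithinAt (s := Set.Icc (-1) 1)).congr hid
      (hid _ (by norm_num))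
    have e : dtau2 (-1) = 1 := by norm_num [dtau2]
    rw [e]
    norm_num at h1
    refine (h1.union h2).hasDerivAt ?_
    rw [Set.Iic_union_Icc_eq_Iic (by norm_num)]
    exact Iic_mem_nhds (by norm_num)
  rcases lt_trichotomy y 1 with h' | h' | h'
  · refine ((hasDerivAt_id y).congr_of_eventuallyEq
      (Filter.eventually_of_mem (Icc_mem_nhds h h') hid)).congr_deriv ?_
    rw [dtau2, max_eq_left (abs_le.2 ⟨h.le, h'.le⟩)]
    norm_num
  · subst h'
    have h1 := ((hp (by norm_num) 2).hasDerivWithinAt (s := Set.Ici 1)).congr hhi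
      (hhi _ (by simp))
    have h2 := ((hasDerivAt_id (1:ℝ)).hasDerivWithinAt (s := Set.Icc (-1) 1)).congr hid
      (hid _ (by norm_num))
    have e : dtau2 1 = 1 := by norm_num [dtau2]
    rw [e]
    norm_num at h1
    refine (h2.union h1).hasDerivAt ?_
    rw [Set.Icc_union_Ici_eq_Ici (by norm_num)]
    exact Ici_mem_nhds (by norm_num)
  · refine ((hp (by linarith) 2).congr_of_eventuallyEq
      (Filter.eventually_of_mem (Ici_mem_nhds h') hhi)).congr_deriv ?_
    rw [dtau2, abs_of_pos (by linarith), max_eq_right h'.le]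

lemma dtau2_mem (y : ℝ) : dtau2 y ∈ Set.Icc (0:ℝ) 1 := by
  have h : (1:ℝ) ≤ (max 1 |y|) ^ 2 := one_le_pow₀ (le_max_left _ _)
  refine ⟨by unfold dtau2; positivity, ?_⟩
  rw [dtau2, div_le_one (by positivity)]
  exact h

lemma contDiff_tau2 : ContDiff ℝ 1 tau2 := by
  refine contDiff_one_iff_deriv.2 ⟨fun x => (hasDerivAt_tau2 x).differentiableAt, ?_⟩
  rw [show deriv tau2 = dtau2 from funext fun x => (hasDerivAt_tau2 x).deriv]
  unfold dtau2
  refine continuous_const.div (by fun_prop) fun x => ?_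
  positivity

lemma exp_tau2_le_two (y : ℝ) : Real.exp (cz * tau2 y) ≤ 2 := by
  have h1 : cz * tau2 y ≤ 1 / 2 := by
    unfold cz; linarith [(abs_le.1 (abs_tau2_le y)).2]
  have h2 := Real.add_one_le_exp (-(1/2 : ℝ))
  have h3 : Real.exp (1/2) * Real.exp (-(1/2 : ℝ)) = 1 := by
    rw [← Real.exp_add]; simp
  have h4 := Real.exp_le_exp.2 h1
  nlinarith [Real.exp_pos (1/2 : ℝ)]

/-- The inner part of `rad`. -/
def radIn (be r : ℝ) : ℝ := stp (4 * r - 1) * Real.exp (cz * tau2 (be * Real.log r / cz))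

lemma rad_def (be s r : ℝ) :
    rad be s r = (1 - stp (r - 3)) * radIn be r + stp (r - 3) * capA s r := rfl

lemma radIn_mem (be r : ℝ) : radIn be r ∈ Set.Icc (0:ℝ) 2 := by
  have h1 := stp_mem (4 * r - 1)
  exact ⟨mul_nonneg h1.1 (Real.exp_pos _).le,
    le_trans (mul_le_of_le_one_left (Real.exp_pos _).le h1.2) (exp_tau2_le_two _)⟩

lemma rad_of_le_three (be s : ℝ) {r : ℝ} (hr : r ≤ 3) : rad be s r = radIn be r := by
  simp [rad_def, stp_of_le (by linarith : r - 3 ≤ 0)]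

lemma rad_of_four_le (be s : ℝ) {r : ℝ} (hr : 4 ≤ r) : rad be s r = capA s r := by
  simp [rad_def, stp_of_ge (by linarith : (1:ℝ) ≤ r - 3)]

lemma rad_of_lt (be s : ℝ) {r : ℝ} (hr : r ≤ 1 / 4) : rad be s r = 0 := by
  rw [rad_of_le_three be s (by linarith), radIn, stp_of_le (by linarith), zero_mul]

lemma capA_eq_two_mul {s r : ℝ} (h : r * s ≤ 5 / 2) : capA s r = 2 * r := by
  rw [capA, stp_of_le (by linarith)]; ring

lemma capA_eq_cap {s r : ℝ} (h : 5 ≤ r * s) : capA s r = 10 / s := by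
  rw [capA, stp_of_ge (by linarith)]; ring

lemma capA_nonneg {s r : ℝ} (hs : 0 ≤ s) (hr : 0 ≤ r) : 0 ≤ capA s r := by
  have h1 := stp_mem (2 * (2 * r * (s / 10)) - 1)
  exact add_nonneg (mul_nonneg (by linarith) (by linarith [h1.2])) (mul_nonneg h1.1 (by positivity))

lemma capA_le {s r : ℝ} (hs : 0 ≤ s) (hr : 0 ≤ r) : capA s r ≤ 4 * r := by
  rcases le_or_gt (r * s) (5 / 2) with h | h
  · rw [capA_eq_two_mul h]; linarith
  · have hs0 : 0 < s := hs.lt_of_ne (by rintro rfl; simp at h; linarith)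
    have h1 : 10 / s ≤ 4 * r := by rw [div_le_iff₀ hs0]; linarith
    have := stp_mem (2 * (2 * r * (s / 10)) - 1)
    unfold capA
    nlinarith [this.1, this.2]

lemma capA_le_cap {s r : ℝ} (hs : 0 < s) : capA s r ≤ 10 / s := by
  rcases le_or_gt 5 (r * s) with h | h
  · rw [capA_eq_cap h]
  · have h1 : 2 * r ≤ 10 / s := by rw [le_div_iff₀ hs]; linarith
    have := stp_mem (2 * (2 * r * (s / 10)) - 1)
    unfold capA
    nlinarith [this.1, this.2]

lemma capA_grow {s r : ℝ} (hs : 0 ≤ s) (hr : 0 ≤ r) (hd : r * s ≤ 8) :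
    5 / 4 * r ≤ capA s r := by
  rcases le_or_gt (r * s) (5 / 2) with h | h
  · rw [capA_eq_two_mul h]; linarith
  · have hs0 : 0 < s := hs.lt_of_ne (by rintro rfl; simp at h; linarith)
    have h1 : 5 / 4 * r ≤ 10 / s := by rw [le_div_iff₀ hs0]; linarith
    have := stp_mem (2 * (2 * r * (s / 10)) - 1)
    unfold capA
    nlinarith [this.1, this.2]

lemma contDiff_capA (s : ℝ) : ContDiff ℝ 1 (capA s) := by
  have h : ContDiff ℝ 1 fun r : ℝ => stp (2 * (2 * r * (s / 10)) - 1) :=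
    contDiff_stp.comp (by fun_prop)
  exact ((contDiff_const.mul contDiff_id).mul (contDiff_const.sub h)).add
    (h.mul contDiff_const)

/-- A function that is differentiable with `|deriv| ≤ K` at a real point. -/
lemma db_of_hasDerivAt {f : ℝ → ℝ} {f' x K : ℝ} (h : HasDerivAt f f' x) (hK : |f'| ≤ K) :
    DB f x K := by
  refine ⟨h.differentiableAt, ?_⟩
  rw [← norm_deriv_eq_norm_fderiv, h.deriv]
  exact hK

lemma db_of_hasDerivAt_complex {f : ℂ → ℂ} {f' z : ℂ} {K : ℝ} (h : HasDerivAt f f' z)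
    (hK : ‖f'‖ ≤ K) : DB f z K := by
  have h' := h.hasFDerivAt.restrictScalars ℝ
  refine ⟨h'.differentiableAt, ?_⟩
  rw [h'.fderiv, ContinuousLinearMap.norm_restrictScalars, ContinuousLinearMap.norm_toSpanSingleton]
  exact hK

lemma db_const_smul {E F : Type*} [NormedAddCommGroup E] [NormedSpace ℝ E] [NormedAddCommGroup F]
    [NormedSpace ℝ F] {f : E → F} {x : E} {K : ℝ} (c : ℝ) (hf : DB f x K) :
    DB (fun y => c • f y) x (|c| * K) := by
  refine ⟨hf.1.const_smul c, ?_⟩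
  rw [fderiv_fun_const_smul hf.1, norm_smul, Real.norm_eq_abs]
  exact mul_le_mul_of_nonneg_left hf.2 (abs_nonneg _)

lemma db_id {E : Type*} [NormedAddCommGroup E] [NormedSpace ℝ E] (x : E) :
    DB (fun y : E => y) x 1 :=
  ⟨differentiableAt_fun_id, by rw [fderiv_fun_id]; exact ContinuousLinearMap.norm_id_le⟩

lemma hasDerivAt_chi (x : ℝ) : HasDerivAt chi (-dstp (x - 1)) x := by
  refine (((hasDerivAt_stp (x - 1)).comp x
    ((hasDerivAt_id x).sub_const 1)).const_sub 1).congr_deriv ?_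
  simp

lemma contDiff_chi : ContDiff ℝ 1 chi :=
  contDiff_const.sub (contDiff_stp.comp (by fun_prop))

lemma db_chi (x : ℝ) : DB chi x (3 / 2) :=
  db_of_hasDerivAt (hasDerivAt_chi x)
    (by rw [abs_neg, abs_of_nonneg (dstp_mem _).1]; exact (dstp_mem _).2)

lemma contDiff_normSq : ContDiff ℝ 1 fun z : ℂ => Complex.normSq z := by
  simp only [Complex.normSq_eq_norm_sq]
  exact contDiff_norm_sq ℝ

lemma db_normSq (z : ℂ) : DB (fun y : ℂ => Complex.normSq y) z (2 * ‖z‖) := by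
  simp only [Complex.normSq_eq_norm_sq]
  have h := (hasStrictFDerivAt_norm_sq z).hasFDerivAt
  refine ⟨h.differentiableAt, ?_⟩
  rw [h.fderiv, two_smul]
  refine (norm_add_le _ _).trans ?_
  rw [innerSL_apply_norm]
  linarith

/-- `y ↦ chi (c ‖y‖²) y`. -/
def cutId (c : ℝ) (y : ℂ) : ℂ := chi (c * Complex.normSq y) • y

lemma cutId_of_le {c : ℝ} {y : ℂ} (h : c * Complex.normSq y ≤ 1) : cutId c y = y := by
  simp [cutId, chi_of_le h]

lemma cutId_of_ge {c : ℝ} {y : ℂ} (h : 2 ≤ c * Complex.normSq y) : cutId c y = 0 := by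
  simp [cutId, chi_of_ge h]

lemma norm_cutId_le {c R : ℝ} (hR : 0 ≤ R) (hc : 0 ≤ c) (h : 2 ≤ c * R ^ 2) (y : ℂ) :
    ‖cutId c y‖ ≤ R := by
  rcases le_or_gt 2 (c * Complex.normSq y) with h' | h'
  · rw [cutId_of_ge h', norm_zero]; exact hR
  · rw [cutId, norm_smul, Real.norm_eq_abs, abs_of_nonneg (chi_mem _).1]
    refine (mul_le_of_le_one_left (norm_nonneg _) (chi_mem _).2).trans ?_
    rw [Complex.normSq_eq_norm_sq] at h'
    by_contra hh
    push Not at hh
    nlinarith [mul_le_mul_of_nonneg_left (pow_le_pow_left₀ hR hh.le 2) hc]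

lemma contDiff_cutId (c : ℝ) : ContDiff ℝ 1 (cutId c) :=
  (contDiff_chi.comp (contDiff_const.mul contDiff_normSq)).smul contDiff_id

lemma db_cutId {c : ℝ} (hc : 0 ≤ c) (y : ℂ) : DB (cutId c) y 7 := by
  rcases lt_or_ge 2 (c * Complex.normSq y) with h | h
  · refine (DB.const (0:ℂ) y (by norm_num : (0:ℝ) ≤ 7)).congr ?_
    filter_upwards [(continuous_const.mul Complex.continuous_normSq).continuousAt.eventually_mem
      (Ioi_mem_nhds h)] with z hz
    exact cutId_of_ge (le_of_lt hz)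
  · have h1 : DB (fun z : ℂ => c * Complex.normSq z) y (|c| * (2 * ‖y‖)) :=
      db_const_smul c (db_normSq y)
    have h2 := (DB.comp (db_chi _) h1).smul (db_id y) (a := 1) (b := ‖y‖)
      (by simp only [Function.comp]; rw [abs_of_nonneg (chi_mem _).1]; exact (chi_mem _).2) le_rfl
    refine DB.mono h2 ?_
    rw [Complex.normSq_eq_norm_sq] at h
    rw [abs_of_nonneg hc]
    nlinarith

lemma sig_eq_cutId (n : ℝ) (m : ℕ) :
    sig n m = fun v => (n ^ m) • cutId ((n ^ m) ^ 2 / 400) v := by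
  funext v
  simp only [sig, cutId, Complex.real_smul]
  rw [show (n ^ m) ^ 2 * Complex.normSq v / 400 = (n ^ m) ^ 2 / 400 * Complex.normSq v by ring]
  push_cast
  ring

lemma vbar_eq_cutId : vbar = cutId (1 / 1600) := by
  funext v
  simp only [vbar, cutId, Complex.real_smul]
  rw [show Complex.normSq v / 1600 = 1 / 1600 * Complex.normSq v by ring]

lemma gmap_eq_smul (l s : ℝ) (m : ℕ) :
    gmap l s m = fun u => rad (l ^ m) s ‖u‖ • En l m (Complex.arg u) := by
  funext u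
  simp [gmap, Complex.real_smul]

lemma Lam_eq_smul : Lam = fun u : ℂ =>
    u - 1 + chi (8 * Complex.normSq (u - 1)) • (Complex.log u - (u - 1)) := by
  funext u
  simp [Lam, Complex.real_smul]

lemma norm_sub_le_half {u : ℂ} (h : 8 * Complex.normSq (u - 1) ≤ 2) : ‖u - 1‖ ≤ 1 / 2 := by
  rw [Complex.normSq_eq_norm_sq] at h
  nlinarith [norm_nonneg (u - 1)]

lemma mem_slitPlane_of_near {u : ℂ} (h : ‖u - 1‖ < 1) : u ∈ Complex.slitPlane := by
  have := Complex.mem_slitPlane_of_norm_lt_one h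
  simpa using this

lemma norm_log_sub_le {u : ℂ} (h : ‖u - 1‖ ≤ 1 / 2) : ‖Complex.log u - (u - 1)‖ ≤ 1 / 4 := by
  have h1 := Complex.norm_log_one_add_sub_self_le (z := u - 1) (by linarith)
  rw [show (1:ℂ) + (u - 1) = u by ring] at h1
  refine h1.trans ?_
  have h2 : ‖u - 1‖ ^ 2 ≤ 1 / 4 := by nlinarith [norm_nonneg (u - 1)]
  have h3 : (1 - ‖u - 1‖)⁻¹ ≤ 2 := by
    rw [inv_le_comm₀ (by linarith) (by norm_num)]; linarith
  calc ‖u - 1‖ ^ 2 * (1 - ‖u - 1‖)⁻¹ / 2 ≤ 1 / 4 * 2 / 2 := by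
        gcongr
        exact inv_nonneg.2 (by linarith)
    _ = 1 / 4 := by norm_num

section profile

variable {be s r : ℝ}

lemma rad_nonneg (hs : 0 ≤ s) (hr : 0 ≤ r) : 0 ≤ rad be s r := by
  have h1 := stp_mem (r - 3)
  exact add_nonneg (mul_nonneg (by linarith [h1.2]) (radIn_mem be r).1)
    (mul_nonneg h1.1 (capA_nonneg hs hr))

lemma rad_one : rad be s 1 = 1 := by
  rw [rad_of_le_three be s (by norm_num), radIn, stp_of_ge (by norm_num)]
  simp [tau2_of_abs_le]

lemma rad_exact (hbe : 1 ≤ be) {w : ℝ} (hw : be * |w| ≤ cz) :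
    rad be s (Real.exp w) = Real.exp (be * w) := by
  unfold cz at hw
  have h1 : |w| ≤ 1 / 4 := le_trans (le_mul_of_one_le_left (abs_nonneg w) hbe) hw
  have h2 := Real.add_one_le_exp w
  have h3 : Real.exp w ≤ 3 := by
    have := Real.exp_le_exp.2 (show w ≤ 1 by linarith [le_abs_self w])
    linarith [Real.exp_one_lt_three]
  rw [rad_of_le_three be s h3, radIn, stp_of_ge (by linarith [neg_abs_le w]), one_mul, Real.log_exp,
    tau2_of_abs_le]
  · congr 1
    unfold cz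
    field_simp
  · rw [abs_div, abs_mul, abs_of_nonneg (zero_le_one.trans hbe), div_le_one (by norm_num [cz])]
    simpa [cz] using hw

lemma rad_le_one (hbe : 0 ≤ be) (h0 : 0 ≤ r) (h1 : r ≤ 1) : rad be s r ≤ 1 := by
  rw [rad_of_le_three be s (by linarith), radIn]
  have h2 : Real.exp (cz * tau2 (be * Real.log r / cz)) ≤ 1 := by
    refine Real.exp_le_one_iff.2 (mul_nonpos_of_nonneg_of_nonpos (by norm_num [cz]) ?_)
    refine tau2_nonpos (div_nonpos_of_nonpos_of_nonneg ?_ (by norm_num [cz]))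
    exact mul_nonpos_of_nonneg_of_nonpos hbe (Real.log_nonpos h0 h1)
  exact mul_le_one₀ (stp_mem _).2 (Real.exp_pos _).le h2

lemma rad_le (hs : 0 ≤ s) (hs' : s ≤ 1 / 100) (hr : 0 ≤ r) : rad be s r ≤ max 10 (4 * r) := by
  have h1 := radIn_mem be r
  have h2 := capA_le hs hr
  have h3 := stp_mem (r - 3)
  have h4 := le_max_left (10:ℝ) (4 * r)
  have h5 := le_max_right (10:ℝ) (4 * r)
  rw [rad_def]
  nlinarith [h1.2, h3.1, h3.2]

lemma rad_le_cap (hs : 0 < s) (hs' : s ≤ 1 / 100) (hr : 0 ≤ r) : rad be s r ≤ 10 / s := by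
  have h1 := radIn_mem be r
  have h2 := capA_le_cap (r := r) hs
  have h3 := stp_mem (r - 3)
  have h4 : 2 ≤ 10 / s := by rw [le_div_iff₀ hs]; linarith
  rw [rad_def]
  nlinarith [h1.2, h3.1, h3.2]

lemma rad_eq_cap (hs : 0 < s) (hs' : s ≤ 1 / 100) (hr : 5 / s ≤ r) : rad be s r = 10 / s := by
  have h1 : 5 ≤ r * s := by rwa [div_le_iff₀ hs] at hr
  rw [rad_of_four_le be s (by nlinarith), capA_eq_cap h1]

lemma rad_grow (hs : 0 ≤ s) (hs' : s ≤ 1 / 100) (hr : 4 ≤ r) (hd : r * s ≤ 8) :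
    (5 / 4) * r ≤ rad be s r := by
  rw [rad_of_four_le be s hr]
  exact capA_grow hs (by linarith) hd

lemma rad_eq_two_mul (hs : 0 ≤ s) (hr : 4 ≤ r) (hd : r * s ≤ 5 / 2) : rad be s r = 2 * r := by
  rw [rad_of_four_le be s hr, capA_eq_two_mul hd]

lemma rad_eq_zero (hr : 0 ≤ r) (hr' : r ≤ 1 / 4) : rad be s r = 0 := by
  exact rad_of_lt be s hr'

lemma abs_deriv_rad (hbe : 1 ≤ be) (hs : 0 ≤ s) (hs' : s ≤ 1 / 100) (hr : 0 ≤ r) :
    |deriv (rad be s) r| ≤ 200 * be := by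
  rcases lt_or_ge r (1 / 5) with h | h
  · have e : rad be s =ᶠ[nhds r] fun _ => 0 :=
      Filter.eventually_of_mem (Iio_mem_nhds (show r < 1 / 4 by linarith))
        fun x hx => rad_of_lt be s (le_of_lt hx)
    rw [e.deriv_eq, deriv_const, abs_zero]
    linarith
  have hr0 : 0 < r := by linarith
  set E := Real.exp (cz * tau2 (be * Real.log r / cz))
  set S := stp (r - 3)
  set S' := dstp (r - 3)
  set si := stp (2 * (2 * r * (s / 10)) - 1)
  set si' := dstp (2 * (2 * r * (s / 10)) - 1) * (2 * (2 * (s / 10)))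
  set dI := dstp (4 * r - 1) * 4 * E
    + stp (4 * r - 1) * (E * (cz * (dtau2 (be * Real.log r / cz) * (be * r⁻¹ / cz))))
  set dC := 2 * (1 - si) + 2 * r * (-si') + si' * (10 / s)
  have hI : HasDerivAt (radIn be) dI r := by
    have ha : HasDerivAt (fun x : ℝ => 4 * x - 1) 4 r := by
      simpa using ((hasDerivAt_id r).const_mul 4).sub_const 1
    have hb : HasDerivAt (fun x : ℝ => be * Real.log x / cz) (be * r⁻¹ / cz) r :=
      ((Real.hasDerivAt_log hr0.ne').const_mul be).div_const cz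
    exact ((hasDerivAt_stp _).comp r ha).fun_mul
      (((hasDerivAt_tau2 _).comp r hb).const_mul cz).exp
  have hC : HasDerivAt (capA s) dC r := by
    have ha : HasDerivAt (fun x : ℝ => 2 * (2 * x * (s / 10)) - 1) (2 * (2 * (s / 10))) r := by
      simpa using ((((hasDerivAt_id r).const_mul 2).mul_const (s / 10)).const_mul 2).sub_const 1
    have hb := (hasDerivAt_stp _).comp r ha
    refine ((((hasDerivAt_id r).const_mul 2).fun_mul (hb.const_sub 1)).fun_add
      (hb.mul_const (10 / s))).congr_deriv ?_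
    simp [dC, si, si']
  have hS : HasDerivAt (fun x => stp (x - 3)) S' r := by
    refine ((hasDerivAt_stp (r - 3)).comp r
      ((hasDerivAt_id r).sub_const 3)).congr_deriv ?_
    simp [S']
  have hR : HasDerivAt (rad be s)
      (-S' * radIn be r + (1 - S) * dI + (S' * capA s r + S * dC)) r :=
    ((hS.const_sub 1).fun_mul hI).fun_add (hS.fun_mul hC)
  rw [hR.deriv]
  have hS1 := stp_mem (r - 3)
  have hS2 := dstp_mem (r - 3)
  have hsi := stp_mem (2 * (2 * r * (s / 10)) - 1)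
  have hsi2 := dstp_mem (2 * (2 * r * (s / 10)) - 1)
  have hE : 0 ≤ E ∧ E ≤ 2 := ⟨(Real.exp_pos _).le, exp_tau2_le_two _⟩
  have b1 : |S' * radIn be r| ≤ 3 := by
    rw [abs_of_nonneg (mul_nonneg hS2.1 (radIn_mem be r).1)]
    calc S' * radIn be r ≤ 3 / 2 * 2 :=
          mul_le_mul hS2.2 (radIn_mem be r).2 (radIn_mem be r).1 (by norm_num)
      _ = 3 := by norm_num
  have b2 : |S' * capA s r| ≤ 12 := by
    rw [abs_of_nonneg (mul_nonneg hS2.1 (capA_nonneg hs hr))]
    rcases le_or_gt r 4 with h4 | h4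
    · rw [capA_eq_two_mul (by nlinarith)]
      calc S' * (2 * r) ≤ 3 / 2 * (2 * 4) :=
            mul_le_mul hS2.2 (by linarith) (by linarith) (by norm_num)
        _ = 12 := by norm_num
    · simp only [S', dstp_of_ge (show (1:ℝ) ≤ r - 3 by linarith), zero_mul]
      norm_num
  have b3 : |dI| ≤ 12 + 10 * be := by
    have h4 := stp_mem (4 * r - 1)
    have h5 := dstp_mem (4 * r - 1)
    have h6 := dtau2_mem (be * Real.log r / cz)
    have h7 : r⁻¹ ≤ 5 := by rw [inv_le_comm₀ hr0 (by norm_num)]; linarith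
    have e : E * (cz * (dtau2 (be * Real.log r / cz) * (be * r⁻¹ / cz)))
        = E * (dtau2 (be * Real.log r / cz) * (be * r⁻¹)) := by unfold cz; ring
    simp only [dI]
    rw [e]
    have t1 : dstp (4 * r - 1) * 4 * E ≤ 3 / 2 * 4 * 2 :=
      mul_le_mul (by linarith [h5.2]) hE.2 hE.1 (by norm_num)
    have t2 : dtau2 (be * Real.log r / cz) * (be * r⁻¹) ≤ 1 * (be * 5) :=
      mul_le_mul h6.2 (mul_le_mul_of_nonneg_left h7 (by linarith)) (by positivity) zero_le_one
    have t2' : 0 ≤ dtau2 (be * Real.log r / cz) * (be * r⁻¹) :=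
      mul_nonneg h6.1 (by positivity)
    have t3 : E * (dtau2 (be * Real.log r / cz) * (be * r⁻¹)) ≤ 2 * (1 * (be * 5)) :=
      mul_le_mul hE.2 t2 t2' (by norm_num)
    have t3' : 0 ≤ E * (dtau2 (be * Real.log r / cz) * (be * r⁻¹)) := mul_nonneg hE.1 t2'
    have t4 := mul_le_of_le_one_left t3' h4.2
    have t4' := mul_nonneg h4.1 t3'
    have t1' : 0 ≤ dstp (4 * r - 1) * 4 * E := by
      have := h5.1
      have := hE.1
      positivity
    rw [abs_of_nonneg (add_nonneg t1' t4')]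
    linarith
  have b4 : |dC| ≤ 8 := by
    have key : 0 ≤ si' * (10 / s - 2 * r) ∧ si' * (10 / s - 2 * r) ≤ 6 := by
      rcases eq_or_lt_of_le hs with e | hs0
      · subst e; simp [si']
      rcases le_or_gt 5 (r * s) with h5 | h5
      · simp [si', dstp_of_ge (show (1:ℝ) ≤ 2 * (2 * r * (s / 10)) - 1 by linarith)]
      have h6 : 2 * r ≤ 10 / s := by rw [le_div_iff₀ hs0]; linarith
      have h7 : 0 ≤ si' := mul_nonneg hsi2.1 (by positivity)
      refine ⟨mul_nonneg h7 (by linarith), ?_⟩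
      calc si' * (10 / s - 2 * r) ≤ 3 / 2 * (2 * (2 * (s / 10))) * (10 / s) :=
            mul_le_mul (mul_le_mul_of_nonneg_right hsi2.2 (by positivity)) (by linarith)
              (by linarith) (by positivity)
        _ = 6 := by field_simp; ring
    rw [show dC = 2 * (1 - si) + si' * (10 / s - 2 * r) by simp only [dC]; ring, abs_le]
    constructor <;> linarith [hsi.1, hsi.2, key.1, key.2]
  have b5 : |(1 - S) * dI| ≤ |dI| := by
    rw [abs_mul, abs_of_nonneg (by linarith [hS1.2])]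
    exact mul_le_of_le_one_left (abs_nonneg _) (by linarith [hS1.1])
  have b6 : |S * dC| ≤ |dC| := by
    rw [abs_mul, abs_of_nonneg hS1.1]
    exact mul_le_of_le_one_left (abs_nonneg _) hS1.2
  rw [neg_mul, abs_le]
  constructor <;>
    linarith [abs_le.1 b1, abs_le.1 b2, abs_le.1 (b5.trans b3), abs_le.1 (b6.trans b4)]

lemma contDiff_rad : ContDiff ℝ 1 (rad be s) := by
  have h1 : ContDiff ℝ 1 (radIn be) := by
    refine contDiff_iff_contDiffAt.2 fun r => ?_
    rcases lt_or_ge r (1 / 5) with h | h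
    · refine (contDiffAt_const (c := (0:ℝ))).congr_of_eventuallyEq ?_
      filter_upwards [Iio_mem_nhds (show r < 1 / 4 by linarith)] with x hx
      have : x < 1 / 4 := hx
      simp [radIn, stp_of_le (show 4 * x - 1 ≤ 0 by linarith)]
    · have h2 : ContDiffAt ℝ 1 (fun x : ℝ => be * Real.log x / cz) r :=
        (contDiffAt_const.mul (Real.contDiffAt_log.2 (by linarith))).div_const cz
      exact ((contDiff_stp.comp (by fun_prop)).contDiffAt).mul
        (((contDiffAt_const.mul (contDiff_tau2.contDiffAt.comp r h2))).exp)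
  have h2 : ContDiff ℝ 1 fun r : ℝ => stp (r - 3) := contDiff_stp.comp (by fun_prop)
  exact ((contDiff_const.sub h2).mul h1).add (h2.mul (contDiff_capA s))

end profile

lemma contDiff_En (l : ℝ) (m : ℕ) : ContDiff ℝ 1 (En l m) :=
  ((Complex.ofRealCLM.contDiff.comp (contDiff_phN l m)).mul contDiff_const).cexp

lemma norm_deriv_En {l : ℝ} (hl : 3 ≤ l) (hl' : l ≤ 13 / 4) (m : ℕ) (t : ℝ) :
    ‖deriv (En l m) t‖ ≤ l ^ m := by
  have key : ∀ P : ℝ → ℝ, DifferentiableAt ℝ P t →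
      ‖deriv (fun y => Complex.exp ((P y : ℂ) * Complex.I)) t‖ = |deriv P t| := by
    intro P hP
    rw [((hP.hasDerivAt.ofReal_comp.mul_const Complex.I).cexp).deriv, norm_mul,
      Complex.norm_exp_ofReal_mul_I, one_mul, norm_mul, Complex.norm_I, mul_one,
      Complex.norm_real, Real.norm_eq_abs]
  have h := key (phN l m) ((contDiff_phN l m).differentiable one_ne_zero t)
  refine le_trans (le_of_eq ?_) (abs_deriv_phN hl hl' m t)
  rw [← h]
  rfl

section maps

variable {l n s : ℝ} {m : ℕ}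

lemma norm_gmap (hs : 0 ≤ s) (u : ℂ) : ‖gmap l s m u‖ = rad (l ^ m) s ‖u‖ := by
  rw [gmap, norm_mul, norm_En, mul_one, Complex.norm_real, Real.norm_eq_abs,
    abs_of_nonneg (rad_nonneg hs (norm_nonneg u))]

lemma gmap_exp (hl : 1 ≤ l) {w : ℂ} (hw : l ^ m * ‖w‖ ≤ cz) :
    gmap l s m (Complex.exp w) = Complex.exp ((l ^ m : ℝ) * w) := by
  have hm : (1:ℝ) ≤ l ^ m := one_le_pow₀ hl
  have h0 : (0:ℝ) ≤ l ^ m := zero_le_one.trans hm
  have hre : l ^ m * |w.re| ≤ cz :=
    le_trans (mul_le_mul_of_nonneg_left (Complex.abs_re_le_norm w) h0) hw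
  have him : l ^ m * |w.im| ≤ cz :=
    le_trans (mul_le_mul_of_nonneg_left (Complex.abs_im_le_norm w) h0) hw
  have him' : |w.im| ≤ 1 / 4 := by
    simpa [cz] using le_trans (le_mul_of_one_le_left (abs_nonneg w.im) hm) him
  have hpi := Real.pi_gt_three
  rw [gmap, Complex.norm_exp, rad_exact hm hre, Complex.arg_exp,
    (toIocMod_eq_self Real.two_pi_pos).2 (⟨by linarith [(abs_le.1 him').1],
      by linarith [(abs_le.1 him').2]⟩ : w.im ∈ Set.Ioc (-π) (-π + 2 * π)), En, phN_exact hl m him, Complex.ofReal_exp, ← Complex.exp_add]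
  congr 1
  apply Complex.ext <;>
    simp [Complex.add_re, Complex.add_im, Complex.mul_re, Complex.mul_im, -Complex.ofReal_pow]

lemma gmap_polar (hs : 0 ≤ s) {G th : ℝ} (hG : 0 ≤ G) :
    gmap l s m ((G : ℂ) * Complex.exp ((th : ℂ) * Complex.I))
      = (rad (l ^ m) s G : ℂ) * En l m th := by
  rcases eq_or_lt_of_le hG with e | hG0
  · subst e
    simp [gmap, rad_of_lt (l ^ m) s (show (0:ℝ) ≤ 1 / 4 by norm_num)]
  · rw [gmap, norm_mul, Complex.norm_exp_ofReal_mul_I, mul_one, Complex.norm_real,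
      Real.norm_eq_abs, abs_of_pos hG0, Complex.arg_real_mul _ hG0, Complex.arg_exp_mul_I,
      toIocMod, (En_periodic l m).sub_zsmul_eq]

lemma gmap_ofReal (hs : 0 ≤ s) {t : ℝ} (ht : 0 ≤ t) :
    gmap l s m (t : ℂ) = (rad (l ^ m) s t : ℂ) := by
  have := gmap_polar (l := l) (m := m) (th := 0) hs ht
  simpa [En, phN_zero_angle] using this

lemma contDiff_gmap : ContDiff ℝ 1 (gmap l s m) := by
  rw [gmap_eq_smul]
  refine contDiff_iff_contDiffAt.2 fun u => ?_
  rcases lt_or_ge ‖u‖ (1 / 5) with h | h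
  · refine (contDiffAt_const (c := (0:ℂ))).congr_of_eventuallyEq ?_
    filter_upwards [continuous_norm.continuousAt.eventually_mem
      (Iio_mem_nhds (show ‖u‖ < 1 / 4 by linarith))] with x hx
    simp [rad_of_lt (l ^ m) s (le_of_lt hx)]
  · have hu : u ≠ 0 := by rintro rfl; simp at h; linarith
    exact (contDiff_rad.contDiffAt.comp u (contDiffAt_norm ℝ hu)).smul
      (contDiffAt_comp_arg (En_periodic l m) (contDiff_En l m) hu)

lemma db_gmap (hl : 3 ≤ l) (hl' : l ≤ 13 / 4) (hs : 0 ≤ s) (hs' : s ≤ 1 / 100) (u : ℂ) :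
    DB (gmap l s m) u (300 * l ^ m) := by
  have hl1 : (1:ℝ) ≤ l ^ m := one_le_pow₀ (by linarith)
  rw [gmap_eq_smul]
  rcases lt_or_ge ‖u‖ (1 / 4) with h | h
  · refine (DB.const (0:ℂ) u (by positivity : (0:ℝ) ≤ 300 * l ^ m)).congr ?_
    filter_upwards [continuous_norm.continuousAt.eventually_mem (Iio_mem_nhds h)] with x hx
    simp [rad_of_lt (l ^ m) s (le_of_lt hx)]
  · have hu : u ≠ 0 := by rintro rfl; rw [norm_zero] at h; linarith
    have hn : DB (fun y : ℂ => ‖y‖) u 1 :=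
      ⟨(contDiffAt_norm ℝ hu).differentiableAt one_ne_zero,
        norm_fderiv_le_of_lipschitz ℝ (lipschitzWith_one_norm (E := ℂ))⟩
    have hr : DB (rad (l ^ m) s) ‖u‖ (200 * l ^ m) := by
      refine ⟨contDiff_rad.differentiable one_ne_zero _, ?_⟩
      rw [← norm_deriv_eq_norm_fderiv]
      exact abs_deriv_rad hl1 hs hs' (norm_nonneg u)
    have hd : Differentiable ℝ (En l m) := (contDiff_En l m).differentiable one_ne_zero
    have hE := db_comp_arg (En_periodic l m) hd (norm_deriv_En hl hl' m) hu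
    have ha : |(rad (l ^ m) s ∘ fun y : ℂ => ‖y‖) u| ≤ 40 * ‖u‖ := by
      rw [Function.comp_apply, abs_of_nonneg (rad_nonneg hs (norm_nonneg u))]
      exact (rad_le hs hs' (norm_nonneg u)).trans (max_le (by linarith) (by linarith))
    refine DB.mono ((hr.comp hn).smul hE ha (norm_En l m _).le) ?_
    rw [mul_assoc, mul_div_cancel₀ _ (norm_ne_zero_iff.2 hu)]
    linarith

lemma norm_sig_le (hn : 1 ≤ n) (v : ℂ) : ‖sig n m v‖ ≤ 40 := by
  have hm : (1:ℝ) ≤ n ^ m := one_le_pow₀ hn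
  have h0 : (0:ℝ) < n ^ m := by linarith
  rw [sig_eq_cutId]
  simp only [norm_smul, Real.norm_eq_abs, abs_of_pos h0]
  have := norm_cutId_le (c := (n ^ m) ^ 2 / 400) (R := 40 / n ^ m) (by positivity) (by positivity)
    (by field_simp; norm_num) v
  rw [le_div_iff₀ h0] at this
  linarith

lemma sig_eq (hn : 0 ≤ n) {v : ℂ} (hv : n ^ m * ‖v‖ ≤ 20) : sig n m v = (n ^ m : ℝ) * v := by
  rw [sig_eq_cutId]
  simp only [Complex.real_smul]
  rw [cutId_of_le]
  rw [Complex.normSq_eq_norm_sq, show (n ^ m) ^ 2 / 400 * ‖v‖ ^ 2 = (n ^ m * ‖v‖) ^ 2 / 400 by ring,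
    div_le_one (by norm_num)]
  nlinarith [mul_nonneg (pow_nonneg hn m) (norm_nonneg v)]

lemma contDiff_sig : ContDiff ℝ 1 (sig n m) := by
  rw [sig_eq_cutId]
  exact (contDiff_cutId _).const_smul _

lemma db_sig (hn : 1 ≤ n) (v : ℂ) : DB (sig n m) v (20 * n ^ m) := by
  have h0 : (0:ℝ) ≤ n ^ m := pow_nonneg (by linarith) m
  rw [sig_eq_cutId]
  refine DB.mono (db_const_smul _ (db_cutId (by positivity) v)) ?_
  rw [abs_of_nonneg h0]
  linarith

lemma Lam_exp {w : ℂ} (hw : ‖w‖ ≤ cz) : Lam (Complex.exp w) = w := by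
  unfold cz at hw
  have hpi := Real.pi_gt_three
  have him := abs_le.1 ((Complex.abs_im_le_norm w).trans hw)
  rw [Lam, Complex.log_exp (by linarith) (by linarith), chi_of_le]
  · push_cast; ring
  · have h1 := Complex.norm_exp_sub_one_sub_id_le (x := w) (by linarith)
    have h2 : ‖Complex.exp w - 1‖ ≤ 5 / 16 := by
      have := norm_le_norm_add_norm_sub' (Complex.exp w - 1) w
      nlinarith [norm_nonneg w]
    rw [Complex.normSq_eq_norm_sq]
    nlinarith [norm_nonneg (Complex.exp w - 1)]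

lemma norm_Lam_sub (u : ℂ) : ‖Lam u - u‖ ≤ 3 := by
  rw [Lam_eq_smul]
  set g := chi (8 * Complex.normSq (u - 1)) • (Complex.log u - (u - 1))
  have hg : ‖g‖ ≤ 1 := by
    rcases le_or_gt 2 (8 * Complex.normSq (u - 1)) with h | h
    · simp [g, chi_of_ge h]
    · simp only [g, norm_smul, Real.norm_eq_abs, abs_of_nonneg (chi_mem _).1]
      calc _ ≤ ‖Complex.log u - (u - 1)‖ :=
            mul_le_of_le_one_left (norm_nonneg _) (chi_mem _).2
        _ ≤ 1 := (norm_log_sub_le (norm_sub_le_half h.le)).trans (by norm_num)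
  calc ‖u - 1 + g - u‖ = ‖g - 1‖ := by congr 1; ring
    _ ≤ ‖g‖ + ‖(1:ℂ)‖ := norm_sub_le _ _
    _ ≤ 3 := by rw [norm_one]; linarith

lemma contDiff_Lam : ContDiff ℝ 1 Lam := by
  rw [Lam_eq_smul]
  refine (contDiff_id.sub contDiff_const).add (contDiff_iff_contDiffAt.2 fun u => ?_)
  have hq : Continuous fun y : ℂ => 8 * Complex.normSq (y - 1) :=
    continuous_const.mul (Complex.continuous_normSq.comp (by fun_prop))
  rcases lt_or_ge 2 (8 * Complex.normSq (u - 1)) with h | h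
  · refine (contDiffAt_const (c := (0:ℂ))).congr_of_eventuallyEq ?_
    filter_upwards [hq.continuousAt.eventually_mem (Ioi_mem_nhds h)] with x hx
    simp [chi_of_ge (le_of_lt hx)]
  · have hu := mem_slitPlane_of_near (show ‖u - 1‖ < 1 by linarith [norm_sub_le_half h])
    refine ((contDiff_chi.comp (contDiff_const.mul
      (contDiff_normSq.comp (contDiff_id.sub contDiff_const)))).contDiffAt).smul ?_
    exact ((Complex.contDiffAt_log hu).restrict_scalars ℝ).sub
      (contDiffAt_id.sub contDiffAt_const)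

lemma db_Lam (u : ℂ) : DB Lam u 16 := by
  rw [Lam_eq_smul]
  have hd : DB (fun y : ℂ => y - 1) u 1 := by
    simpa using (db_id u).sub (DB.const (1:ℂ) u le_rfl)
  refine DB.mono (hd.add (L := 4) ?_) (by norm_num)
  have hq : Continuous fun y : ℂ => 8 * Complex.normSq (y - 1) :=
    continuous_const.mul (Complex.continuous_normSq.comp (by fun_prop))
  rcases lt_or_ge 2 (8 * Complex.normSq (u - 1)) with h | h
  · refine (DB.const (0:ℂ) u (by norm_num : (0:ℝ) ≤ 4)).congr ?_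
    filter_upwards [hq.continuousAt.eventually_mem (Ioi_mem_nhds h)] with x hx
    simp [chi_of_ge (le_of_lt hx)]
  · have hz := norm_sub_le_half h
    have hu := mem_slitPlane_of_near (show ‖u - 1‖ < 1 by linarith)
    have h1 : DB (fun y : ℂ => 8 * Complex.normSq (y - 1)) u (|(8:ℝ)| * (2 * ‖u - 1‖ * 1)) :=
      db_const_smul 8 (DB.comp (f := fun y : ℂ => y - 1) (db_normSq (u - 1)) hd)
    have h2 : DB (fun y : ℂ => Complex.log y - (y - 1)) u 1 := by
      refine db_of_hasDerivAt_complex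
        ((Complex.hasDerivAt_log hu).fun_sub ((hasDerivAt_id u).sub_const 1)) ?_
      have hu0 : u ≠ 0 := Complex.slitPlane_ne_zero hu
      rw [show u⁻¹ - 1 = -(u - 1) / u by field_simp; ring, norm_div, norm_neg]
      rw [div_le_one (norm_pos_iff.2 hu0)]
      have := norm_sub_norm_le (1:ℂ) u
      rw [norm_one, norm_sub_rev] at this
      linarith
    refine DB.mono ((DB.comp (db_chi _) h1).smul h2 (a := 1) (b := 1 / 4) ?_ (norm_log_sub_le hz)) ?_
    · simp only [Function.comp]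
      rw [abs_of_nonneg (chi_mem _).1]
      exact (chi_mem _).2
    · rw [abs_of_nonneg (by norm_num : (0:ℝ) ≤ 8)]
      linarith

lemma vbar_eq {v : ℂ} (hv : ‖v‖ ≤ 40) : vbar v = v := by
  rw [vbar_eq_cutId, cutId_of_le]
  rw [Complex.normSq_eq_norm_sq]
  nlinarith [norm_nonneg v]

lemma norm_vbar_le (v : ℂ) : ‖vbar v‖ ≤ 57 := by
  rw [vbar_eq_cutId]
  exact norm_cutId_le (by norm_num) (by norm_num) (by norm_num) v

lemma vbar_eq_zero {v : ℂ} (hv : 57 ≤ ‖v‖) : vbar v = 0 := by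
  rw [vbar_eq_cutId, cutId_of_ge]
  rw [Complex.normSq_eq_norm_sq]
  nlinarith

lemma contDiff_vbar : ContDiff ℝ 1 vbar := by
  rw [vbar_eq_cutId]
  exact contDiff_cutId _

lemma db_chart (hs : 0 < s) (x : ℂ × ℂ) : DB (chart s) x (40 / s) := by
  have hfst : DB (fun y : ℂ × ℂ => y.1) x 1 :=
    ⟨differentiableAt_fst, by rw [fderiv_fst]; exact ContinuousLinearMap.norm_fst_le ℝ ℂ ℂ⟩
  have hsnd : DB (fun y : ℂ × ℂ => y.2) x 1 :=
    ⟨differentiableAt_snd, by rw [fderiv_snd]; exact ContinuousLinearMap.norm_snd_le ℝ ℂ ℂ⟩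
  have h1 : DB (fun y : ℂ × ℂ => Lam y.1) x (16 * 1) := (db_Lam x.1).comp hfst
  have h2 : DB (fun y : ℂ × ℂ => vbar y.2) x (7 * 1) := by
    rw [vbar_eq_cutId]
    exact (db_cutId (by norm_num) x.2).comp hsnd
  have e : chart s = fun y => (s⁻¹ • (vbar y.2 - Lam y.1) + 1, s⁻¹ • Lam y.1) := by
    funext y
    simp [chart, Complex.real_smul, div_eq_inv_mul]
  rw [e]
  have h40 : 40 / s = s⁻¹ * 40 := by ring
  have hsi : 0 < s⁻¹ := inv_pos.2 hs
  refine DB.prodMk ((db_const_smul s⁻¹ (h2.sub h1)).add (DB.const (1:ℂ) x le_rfl))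
    (db_const_smul s⁻¹ h1) ?_ ?_
  · rw [abs_of_pos hsi, h40]; linarith
  · rw [abs_of_pos hsi, h40]; linarith

lemma contDiff_chart : ContDiff ℝ 1 (chart s) := by
  unfold chart
  refine ContDiff.prodMk (((contDiff_vbar.comp contDiff_snd).sub
    (contDiff_Lam.comp contDiff_fst)).div_const _ |>.add contDiff_const)
    ((contDiff_Lam.comp contDiff_fst).div_const _)

/-- The lift lands in every coarser box. -/
lemma lift_mem_box (hl : 1 ≤ l) (hn : 1 ≤ n) (hs : 0 < s) (hs' : s ≤ 1 / 1000) {s0 : ℝ}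
    (hs0 : 0 < s0) (hs0' : s0 ≤ 1 / 100) (k : ℕ) {Y : ℂ × ℂ} (hY : Y ∈ box s) :
    lift l n s k Y ∈ box s0 := by
  obtain ⟨h1, h2⟩ := hY
  have hl' : (1:ℝ) ≤ l ^ k := one_le_pow₀ hl
  have hn' : (1:ℝ) ≤ n ^ k := one_le_pow₀ hn
  refine ⟨?_, ?_⟩
  · have ha : ‖(s : ℂ) * Y.2 / ((l ^ k : ℝ) : ℂ)‖ ≤ 1 := by
      rw [norm_div, norm_mul, Complex.norm_real, Complex.norm_real, Real.norm_eq_abs,
        Real.norm_eq_abs, abs_of_pos hs, abs_of_pos (by linarith), div_le_one (by linarith)]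
      nlinarith [norm_nonneg Y.2]
    refine (Complex.norm_exp_le_exp_norm _).trans ((Real.exp_le_exp.2 ha).trans ?_)
    rw [le_div_iff₀ hs0]
    nlinarith [Real.exp_one_lt_three, Real.exp_pos 1]
  · show ‖((s : ℂ) * (Y.1 - 1) + (s : ℂ) * Y.2) / ((n ^ k : ℝ) : ℂ)‖ ≤ 57
    rw [norm_div, Complex.norm_real, Real.norm_eq_abs, abs_of_pos (by linarith)]
    refine (div_le_self (norm_nonneg _) hn').trans ?_
    rw [← mul_add, norm_mul, Complex.norm_real, Real.norm_eq_abs, abs_of_pos hs]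
    have h3 : ‖Y.1 - 1 + Y.2‖ ≤ 10 / s + 1 + 57 := by
      refine (norm_add_le _ _).trans ?_
      have := norm_sub_le Y.1 1
      rw [norm_one] at this
      linarith
    refine (mul_le_mul_of_nonneg_left h3 hs.le).trans ?_
    rw [mul_add, mul_add, mul_div_cancel₀ _ hs.ne']
    linarith

lemma contDiff_lift (k : ℕ) : ContDiff ℝ 1 (lift l n s k) := by
  unfold lift
  refine ContDiff.prodMk ?_ ?_
  · exact ((contDiff_const.mul contDiff_snd).div_const _).cexp
  · exact (((contDiff_const.mul (contDiff_fst.sub contDiff_const)).add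
      (contDiff_const.mul contDiff_snd)).div_const _)

lemma db_lift (hl : 1 ≤ l) (hn : l ≤ n) (hs : 0 < s) (hs' : s ≤ 1 / 1000) (k : ℕ) {Y : ℂ × ℂ}
    (hY : ‖Y.2‖ ≤ 57) : DB (lift l n s k) Y (3 * s / l ^ k) := by
  have hl0 : (1:ℝ) ≤ l ^ k := one_le_pow₀ hl
  have hn0 : l ^ k ≤ n ^ k := pow_le_pow_left₀ (by linarith) hn k
  have e : lift l n s k = fun Y => (Complex.exp ((s / l ^ k) • Y.2),
      (s / n ^ k) • (Y.1 - 1 + Y.2)) := by
    funext Z
    simp [lift, Complex.real_smul, div_eq_mul_inv]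
    constructor <;> ring_nf
  rw [e]
  have hfst : DB (fun y : ℂ × ℂ => y.1) Y 1 :=
    ⟨differentiableAt_fst, by rw [fderiv_fst]; exact ContinuousLinearMap.norm_fst_le ℝ ℂ ℂ⟩
  have hsnd : DB (fun y : ℂ × ℂ => y.2) Y 1 :=
    ⟨differentiableAt_snd, by rw [fderiv_snd]; exact ContinuousLinearMap.norm_snd_le ℝ ℂ ℂ⟩
  have hpos : 0 < s / l ^ k := div_pos hs (by linarith)
  have hle : s / l ^ k ≤ s := div_le_self hs.le hl0
  have hexp : DB Complex.exp ((s / l ^ k) • Y.2) 3 := by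
    refine db_of_hasDerivAt_complex (Complex.hasDerivAt_exp _) ?_
    refine (Complex.norm_exp_le_exp_norm _).trans ?_
    have : ‖(s / l ^ k) • Y.2‖ ≤ 1 := by
      rw [norm_smul, Real.norm_eq_abs, abs_of_pos hpos]
      nlinarith [norm_nonneg Y.2]
    exact (Real.exp_le_exp.2 this).trans Real.exp_one_lt_three.le
  have h1 := DB.comp (f := fun y : ℂ × ℂ => (s / l ^ k) • y.2) (x := Y) hexp
    (db_const_smul (s / l ^ k) hsnd)
  have h2 := db_const_smul (s / n ^ k) ((hfst.sub (DB.const (1:ℂ) Y le_rfl)).add hsnd)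
  refine DB.prodMk h1 h2 ?_ ?_
  · rw [abs_of_pos hpos]
    exact le_of_eq (by ring)
  · rw [abs_of_pos (div_pos hs (by linarith))]
    have : s / n ^ k ≤ s / l ^ k := div_le_div_of_nonneg_left hs.le (by linarith) hn0
    rw [mul_div_assoc]
    linarith

lemma lift_center (k : ℕ) : lift l n s k (1, 0) = (1, 0) := by
  simp [lift]

/-- The lift contracts towards the common centre. -/
lemma norm_lift_sub_le (hl : 1 ≤ l) (hn : l ≤ n) (hs : 0 < s) (hs' : s ≤ 1 / 1000) (k : ℕ)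
    {Y : ℂ × ℂ} (hY : Y ∈ box s) : ‖lift l n s k Y - (1, 0)‖ ≤ 3 * s * ‖Y - (1, 0)‖ := by
  obtain ⟨h1, h2⟩ := hY
  have hl' : (1:ℝ) ≤ l ^ k := one_le_pow₀ hl
  have hn' : (1:ℝ) ≤ n ^ k := one_le_pow₀ (hl.trans hn)
  have hA : ‖Y.2‖ ≤ ‖Y - (1, 0)‖ := by
    have h := norm_snd_le (Y - (1, 0))
    rwa [Prod.snd_sub, show ((1, 0) : ℂ × ℂ).2 = 0 from rfl, sub_zero] at h
  have hB : ‖Y.1 - 1‖ ≤ ‖Y - (1, 0)‖ := by
    have h := norm_fst_le (Y - (1, 0))
    rwa [Prod.fst_sub] at h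
  have hpos : 0 ≤ s * ‖Y - (1, 0)‖ := mul_nonneg hs.le (norm_nonneg _)
  refine norm_prod_le_iff.2 ⟨?_, ?_⟩
  · show ‖Complex.exp ((s : ℂ) * Y.2 / ((l ^ k : ℝ) : ℂ)) - 1‖ ≤ _
    have ha : ‖(s : ℂ) * Y.2 / ((l ^ k : ℝ) : ℂ)‖ ≤ s * ‖Y.2‖ := by
      rw [norm_div, norm_mul, Complex.norm_real, Complex.norm_real, Real.norm_eq_abs,
        Real.norm_eq_abs, abs_of_pos hs, abs_of_pos (by linarith)]
      exact div_le_self (by positivity) hl'
    have hb : s * ‖Y.2‖ ≤ 1 := by nlinarith [norm_nonneg Y.2]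
    refine (Complex.norm_exp_sub_one_le (ha.trans hb)).trans ?_
    nlinarith [mul_le_mul_of_nonneg_left hA hs.le]
  · show ‖((s : ℂ) * (Y.1 - 1) + (s : ℂ) * Y.2) / ((n ^ k : ℝ) : ℂ) - 0‖ ≤ _
    rw [sub_zero, norm_div, Complex.norm_real, Real.norm_eq_abs, abs_of_pos (by linarith)]
    refine (div_le_self (norm_nonneg _) hn').trans ?_
    rw [← mul_add, norm_mul, Complex.norm_real, Real.norm_eq_abs, abs_of_pos hs]
    have := mul_le_mul_of_nonneg_left ((norm_add_le (Y.1 - 1) Y.2).trans (add_le_add hB hA)) hs.le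
    linarith

lemma chart_lift_zero (hs : 0 < s) (hs' : s ≤ 1 / 1000) {Y : ℂ × ℂ} (hY : Y ∈ box s) :
    chart s (lift l n s 0 Y) = Y := by
  obtain ⟨h1, h2⟩ := hY
  have hs0 : (s : ℂ) ≠ 0 := Complex.ofReal_ne_zero.2 hs.ne'
  have hw : ‖(s : ℂ) * Y.2‖ ≤ cz := by
    rw [norm_mul, Complex.norm_real, Real.norm_eq_abs, abs_of_pos hs, cz]
    nlinarith [norm_nonneg Y.2]
  have hv : ‖(s : ℂ) * (Y.1 - 1) + (s : ℂ) * Y.2‖ ≤ 40 := by
    rw [← mul_add, norm_mul, Complex.norm_real, Real.norm_eq_abs, abs_of_pos hs]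
    have h3 : ‖Y.1 - 1 + Y.2‖ ≤ 10 / s + 1 + 57 := by
      refine (norm_add_le _ _).trans ?_
      have := norm_sub_le Y.1 1
      rw [norm_one] at this
      linarith
    refine (mul_le_mul_of_nonneg_left h3 hs.le).trans ?_
    rw [mul_add, mul_add, mul_div_cancel₀ _ hs.ne']
    linarith
  simp only [chart, lift, pow_zero, Complex.ofReal_one, div_one]
  rw [Lam_exp hw, vbar_eq hv]
  refine Prod.ext ?_ ?_
  · show ((s : ℂ) * (Y.1 - 1) + (s : ℂ) * Y.2 - (s : ℂ) * Y.2) / (s : ℂ) + 1 = Y.1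
    field_simp
    ring
  · show (s : ℂ) * Y.2 / (s : ℂ) = Y.2
    field_simp

end maps

end

end Vale.Agent.P103S
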