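import Vale.Agent.P103S.Corr
import Vale.Agent.P103S.Homology.Lift

/-! P103: the map on `Circle × S2 × S2`. -/

namespace Vale.Agent.P103S

noncomputable section

open Real Function
open scoped Manifold ContDiff

open Homology (S2 sqS2 sq_sum)

/-- The manifold. -/
abbrev M5 := Circle × S2 × S2

instance factFinrankThree : Fact (Module.finrank ℝ (EuclideanSpace ℝ (Fin 3)) = 2 + 1) := ⟨by simp⟩

/-- The point with chart coordinate `u`; the south pole is the point at infinity. -/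
def toS2 (u : ℂ) : S2 :=
  ⟨(WithLp.equiv 2 (Fin 3 → ℝ)).symm
      ![2 * u.re / (1 + Complex.normSq u), 2 * u.im / (1 + Complex.normSq u),
        (1 - Complex.normSq u) / (1 + Complex.normSq u)], by
    have hd : (1 : ℝ) + Complex.normSq u ≠ 0 := by have := Complex.normSq_nonneg u; positivity
    rw [mem_sphere_zero_iff_norm, EuclideanSpace.norm_eq, Real.sqrt_eq_one]
    simp [Fin.sum_univ_three, sq_abs]
    field_simp
    simp [Complex.normSq_apply]
    ring⟩

/-- Chart coordinate. -/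
def ofS2 (a : S2) : ℂ := ⟨a.1 0 / (1 + a.1 2), a.1 1 / (1 + a.1 2)⟩

/-- Chart coordinate, replaced by a far point at infinity. -/
def ofS2v (a : S2) : ℂ := if a.1 2 = -1 then 100 else ofS2 a

lemma toS2_ne_south (u : ℂ) : (toS2 u).1 2 ≠ -1 := by
  have h := Complex.normSq_nonneg u
  show (1 - Complex.normSq u) / (1 + Complex.normSq u) ≠ -1
  rw [ne_eq, div_eq_iff (by positivity)]
  intro h'
  linarith

lemma one_add_ne {a : S2} (ha : a.1 2 ≠ -1) : 1 + a.1 2 ≠ 0 := fun h => ha (by linarith)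

lemma ofS2_toS2 (u : ℂ) : ofS2 (toS2 u) = u := by
  have h := Complex.normSq_nonneg u
  have hd : (1 : ℝ) + Complex.normSq u ≠ 0 := by positivity
  have hz : 1 + (1 - Complex.normSq u) / (1 + Complex.normSq u) = 2 / (1 + Complex.normSq u) := by
    field_simp; ring
  apply Complex.ext <;> simp [ofS2, toS2, hz] <;> field_simp

lemma ofS2v_toS2 (u : ℂ) : ofS2v (toS2 u) = u := by
  rw [ofS2v, if_neg (toS2_ne_south u), ofS2_toS2]

lemma normSq_ofS2 {a : S2} (ha : a.1 2 ≠ -1) :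
    Complex.normSq (ofS2 a) * (1 + a.1 2) = 1 - a.1 2 := by
  have hd := one_add_ne ha
  simp only [ofS2, Complex.normSq_mk]
  field_simp
  linear_combination sq_sum a

lemma toS2_ofS2 {a : S2} (ha : a.1 2 ≠ -1) : toS2 (ofS2 a) = a := by
  have hd := one_add_ne ha
  have hn : Complex.normSq (ofS2 a) = (1 - a.1 2) / (1 + a.1 2) := by
    rw [eq_div_iff hd, normSq_ofS2 ha]
  apply Subtype.ext
  apply PiLp.ext
  intro i
  simp only [toS2, hn]
  fin_cases i <;> simp [ofS2] <;> field_simp <;> ring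

lemma toS2_sq (u : ℂ) : toS2 (u ^ 2) = sqS2 (toS2 u) := by
  have h := Complex.normSq_nonneg u
  have hd : (1 : ℝ) + Complex.normSq u ≠ 0 := by positivity
  have hd2 : (1 : ℝ) + Complex.normSq u ^ 2 ≠ 0 := by positivity
  have hd3 : (1 + Complex.normSq u) ^ 2 + (1 - Complex.normSq u) ^ 2 ≠ 0 := by positivity
  have hq : Complex.normSq u = u.re * u.re + u.im * u.im := Complex.normSq_apply u
  apply Subtype.ext
  apply PiLp.ext
  intro i
  fin_cases i <;> simp [toS2, sqS2, pow_two u, Complex.mul_re, Complex.mul_im] <;>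
    field_simp <;> ring

variable {B : Base} {mmin : ℕ → ℕ} (Wd : Windows B mmin) (s : ℕ → ℝ)

/-- Real lift of a point of the circle. -/
def baseZ (q : Circle) : ℝ := Complex.arg (q : ℂ) / (2 * π)

/-- The map in coordinates, at a point. -/
def fibG (a : M5) : ℂ × ℂ := Gfin Wd s (baseZ a.1) (ofS2 a.2.1, ofS2v a.2.2)

/-- First sphere coordinate of the map. -/
def fU (a : M5) : S2 := if a.2.1.1 2 = -1 then a.2.1 else toS2 (fibG Wd s a).1

/-- Second sphere coordinate of the map. -/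
def fV (a : M5) : S2 := if a.2.1.1 2 = -1 then toS2 0 else toS2 (fibG Wd s a).2

/-- The map. -/
def fMap (a : M5) : M5 :=
  (Circle.exp (2 * π * B.Ph (baseZ a.1)), fU Wd s a, fV Wd s a)

variable {s}

/-- The model of the manifold. -/
abbrev I5 := ((𝓡 1).prod ((𝓡 2).prod (𝓡 2)))

lemma exp_two_pi_baseZ (q : Circle) : Circle.exp (2 * π * baseZ q) = q := by
  rw [baseZ, mul_div_cancel₀ _ (by positivity)]
  exact Circle.exp_arg q

lemma exists_int_of_exp_eq {x y : ℝ} (h : Circle.exp (2 * π * x) = Circle.exp (2 * π * y)) :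
    ∃ k : ℤ, x = y + k := by
  obtain ⟨m, hm⟩ := Circle.exp_eq_exp.1 h
  exact ⟨m, mul_left_cancel₀ (show 2 * π ≠ 0 by positivity) (by linear_combination hm)⟩

lemma exp_add_int (x : ℝ) (k : ℤ) :
    Circle.exp (2 * π * (x + k)) = Circle.exp (2 * π * x) :=
  Circle.exp_eq_exp.2 ⟨k, by ring⟩

lemma contDiffAt_arg {w : ℂ} (hw : w ∈ Complex.slitPlane) : ContDiffAt ℝ 1 Complex.arg w := by
  have h : ContDiffAt ℝ 1 (fun z => (Complex.log z).im) w :=
    Complex.imCLM.contDiff.contDiffAt.comp w ((Complex.contDiffAt_log hw).restrict_scalars ℝ)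
  exact h.congr_of_eventuallyEq (Filter.Eventually.of_forall fun z => (Complex.log_im z).symm)

/-- A continuously differentiable local choice of the real lift. -/
lemma exists_localLift (a0 : M5) : ∃ ζ : M5 → ℝ, ContMDiffAt I5 𝓘(ℝ, ℝ) 1 ζ a0 ∧
    ∀ᶠ a in nhds a0, Circle.exp (2 * π * ζ a) = a.1 := by
  let c : ℂ := ((a0.1 : Circle) : ℂ)⁻¹
  refine ⟨fun a => baseZ a0.1 + Complex.arg ((a.1 : ℂ) * c) / (2 * π), ?_, ?_⟩
  · haveI : Fact (Module.finrank ℝ ℂ = 1 + 1) := ⟨by simp⟩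
    have h1 : ContMDiffAt I5 𝓘(ℝ, ℂ) 1 (fun a : M5 => (a.1 : ℂ)) a0 :=
      (contMDiff_coe_sphere.comp contMDiff_fst).contMDiffAt
    have h2 : ContDiffAt ℝ 1 (fun z : ℂ => baseZ a0.1 + Complex.arg (z * c) / (2 * π))
        (a0.1 : ℂ) := by
      refine contDiffAt_const.add ((ContDiffAt.comp (a0.1 : ℂ)
        (contDiffAt_arg ?_) (contDiffAt_id.mul contDiffAt_const)).div_const _)
      simp [c, Circle.coe_ne_zero]
    have h3 := h2.contMDiffAt.comp a0 h1
    exact h3
  · refine Filter.Eventually.of_forall fun a => ?_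
    rw [mul_add, Circle.exp_add, exp_two_pi_baseZ, mul_div_cancel₀ _ (by positivity)]
    have e : (a.1 : ℂ) * c = ((a.1 * a0.1⁻¹ : Circle) : ℂ) := by simp [c]
    rw [e, Circle.exp_arg, mul_comm a.1, mul_inv_cancel_left]

lemma isOpen_coord2_ne : IsOpen {a : S2 | a.1 2 ≠ -1} :=
  isOpen_ne_fun (by fun_prop) continuous_const

lemma contMDiffAt_ofS2 {b : S2} (hb : b.1 2 ≠ -1) : ContMDiffAt (𝓡 2) 𝓘(ℝ, ℂ) 1 ofS2 b := by
  let g : EuclideanSpace ℝ (Fin 3) → ℂ := fun x =>
    ((x 0 / (1 + x 2) : ℝ) : ℂ) + ((x 1 / (1 + x 2) : ℝ) : ℂ) * Complex.I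
  have hp : ∀ i : Fin 3, ContDiffAt ℝ 1 (fun x : EuclideanSpace ℝ (Fin 3) => x i) b.1 :=
    fun i => contDiffAt_piLp_apply _
  have hd : ∀ i : Fin 3, ContDiffAt ℝ 1
      (fun x : EuclideanSpace ℝ (Fin 3) => ((x i / (1 + x 2) : ℝ) : ℂ)) b.1 := fun i =>
    Complex.ofRealCLM.contDiff.contDiffAt.comp b.1
      ((hp i).div (contDiffAt_const.add (hp 2)) (one_add_ne hb))
  have hg : ContDiffAt ℝ 1 g b.1 := (hd 0).add ((hd 1).mul contDiffAt_const)
  have h := hg.contMDiffAt.comp b ((contMDiff_coe_sphere (m := 1) (n := 2)) b)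
  exact h.congr_of_eventuallyEq
    (Filter.Eventually.of_forall fun a => (Complex.re_add_im (ofS2 a)).symm)

lemma contMDiff_toS2 : ContMDiff 𝓘(ℝ, ℂ) (𝓡 2) 1 toS2 := by
  have hd : ∀ u : ℂ, (1 : ℝ) + Complex.normSq u ≠ 0 := fun u => by
    have := Complex.normSq_nonneg u; positivity
  have hn : ContDiff ℝ 1 fun u : ℂ => Complex.normSq u := by
    simp only [Complex.normSq_apply]
    exact (Complex.reCLM.contDiff.mul Complex.reCLM.contDiff).add
      (Complex.imCLM.contDiff.mul Complex.imCLM.contDiff)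
  have h : ContDiff ℝ 1 fun u : ℂ => (toS2 u).1 := by
    rw [contDiff_piLp]
    intro i
    fin_cases i
    · exact ((contDiff_const.mul Complex.reCLM.contDiff).div (contDiff_const.add hn) hd)
    · exact ((contDiff_const.mul Complex.imCLM.contDiff).div (contDiff_const.add hn) hd)
    · exact ((contDiff_const.sub hn).div (contDiff_const.add hn) hd)
  exact h.contMDiff.codRestrict_sphere fun u => (toS2 u).2

lemma contMDiff_sqSphere : ContMDiff (𝓡 2) (𝓡 2) 1 (sqS2 : S2 → S2) := by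
  let g : EuclideanSpace ℝ (Fin 3) → EuclideanSpace ℝ (Fin 3) := fun x =>
    WithLp.toLp 2
      ![(x 0 ^ 2 - x 1 ^ 2) / (1 + x 2 ^ 2), 2 * x 0 * x 1 / (1 + x 2 ^ 2),
        2 * x 2 / (1 + x 2 ^ 2)]
  have hp : ∀ i : Fin 3, ContDiff ℝ 1 fun x : EuclideanSpace ℝ (Fin 3) => x i :=
    fun i => contDiff_piLp_apply _
  have hd : ∀ x : EuclideanSpace ℝ (Fin 3), (1 : ℝ) + x 2 ^ 2 ≠ 0 := fun x => by positivity
  have hden : ContDiff ℝ 1 fun x : EuclideanSpace ℝ (Fin 3) => (1 : ℝ) + x 2 ^ 2 :=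
    contDiff_const.add ((hp 2).pow 2)
  have hg : ContDiff ℝ 1 g := by
    rw [contDiff_piLp]
    intro i
    fin_cases i
    · exact (((hp 0).pow 2).sub ((hp 1).pow 2)).div hden hd
    · exact ((contDiff_const.mul (hp 0)).mul (hp 1)).div hden hd
    · exact (contDiff_const.mul (hp 2)).div hden hd
  exact (hg.contMDiff.comp contMDiff_coe_sphere).codRestrict_sphere fun a => (sqS2 a).2

lemma sqSphere_south {a : S2} (ha : a.1 2 = -1) : sqS2 a = a := by
  have h := sq_sum a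
  rw [ha] at h
  have h0 : a.1 0 = 0 := by nlinarith [sq_nonneg (a.1 0), sq_nonneg (a.1 1)]
  have h1 : a.1 1 = 0 := by nlinarith [sq_nonneg (a.1 0), sq_nonneg (a.1 1)]
  apply Subtype.ext
  apply PiLp.ext
  intro i
  fin_cases i <;> simp [sqS2, ha, h0, h1] <;> norm_num

/-- The region where the first coordinate is large. -/
def farU : Set M5 := {a | a.2.1.1 2 < -39999 / 40001}

lemma isOpen_farU : IsOpen farU := isOpen_lt (by fun_prop) continuous_const

lemma mem_farU {a : M5} (ha : a.2.1.1 2 = -1) : a ∈ farU := by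
  show a.2.1.1 2 < _
  rw [ha]; norm_num

lemma norm_of_low {c : ℝ} (hc : 0 ≤ c) {a : S2} (ha : a.1 2 ≠ -1)
    (h : a.1 2 * (1 + c ^ 2) ≤ 1 - c ^ 2) : c ≤ ‖ofS2 a‖ := by
  have h1 := normSq_ofS2 ha
  have hd : 0 < 1 + a.1 2 := by
    have := sq_sum a
    have h2 : -1 ≤ a.1 2 := by nlinarith [sq_nonneg (a.1 0), sq_nonneg (a.1 1)]
    exact lt_of_le_of_ne (by linarith) (one_add_ne ha).symm
  rw [Complex.norm_def]
  refine Real.le_sqrt_of_sq_le (le_of_mul_le_mul_right ?_ hd)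
  nlinarith

lemma norm_of_farU {a : M5} (ha : a.2.1.1 2 ≠ -1) (h : a ∈ farU) : 200 ≤ ‖ofS2 a.2.1‖ := by
  refine norm_of_low (by norm_num) ha ?_
  have h' : a.2.1.1 2 < -39999 / 40001 := h
  norm_num
  linarith

/-- Near a point with finite first coordinate the coordinates have a continuously differentiable
version. -/
lemma exists_localCoord {a0 : M5} (h0 : a0.2.1.1 2 ≠ -1) :
    ∃ c : M5 → ℝ × ℂ × ℂ, ContMDiffAt I5 𝓘(ℝ, ℝ × ℂ × ℂ) 1 c a0 ∧ ∀ᶠ a in nhds a0,
      a.2.1.1 2 ≠ -1 ∧ Circle.exp (2 * π * (c a).1) = a.1 ∧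
      ∀ (β : Type) (g : ℝ → ℂ × ℂ → β), (∀ x, Periodic (fun z => g z x) 1) →
        (∀ z u v v', 57 ≤ ‖v‖ → 57 ≤ ‖v'‖ → g z (u, v) = g z (u, v')) →
        g (baseZ a.1) (ofS2 a.2.1, ofS2v a.2.2) = g (c a).1 (c a).2 := by
  obtain ⟨ζ, hζ, hζe⟩ := exists_localLift a0
  have hu : ∀ᶠ a : M5 in nhds a0, a.2.1.1 2 ≠ -1 :=
    (isOpen_coord2_ne.preimage (continuous_fst.comp continuous_snd)).mem_nhds h0
  have hu' : ContMDiffAt I5 𝓘(ℝ, ℂ) 1 (fun a : M5 => ofS2 a.2.1) a0 :=
    (contMDiffAt_ofS2 h0).comp a0 (contMDiff_fst.comp contMDiff_snd).contMDiffAt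
  have key : ∀ {a : M5} (β : Type) (g : ℝ → ℂ × ℂ → β), (∀ x, Periodic (fun z => g z x) 1) →
      Circle.exp (2 * π * ζ a) = a.1 → ∀ x, g (baseZ a.1) x = g (ζ a) x := by
    intro a β g hg ha x
    obtain ⟨k, hk⟩ := exists_int_of_exp_eq ((exp_two_pi_baseZ a.1).trans ha.symm)
    rw [hk]
    simpa using (hg x).int_mul k (ζ a)
  by_cases hv : a0.2.2.1 2 = -1
  · refine ⟨fun a => (ζ a, ofS2 a.2.1, 100),
      hζ.prodMk_space (hu'.prodMk_space contMDiffAt_const), ?_⟩
    have hvv : ∀ᶠ a : M5 in nhds a0, a.2.2.1 2 < -3248 / 3250 :=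
      (isOpen_lt (by fun_prop) continuous_const).mem_nhds (by rw [Set.mem_ofPred_eq, hv]; norm_num)
    filter_upwards [hu, hζe, hvv] with a ha he hva
    refine ⟨ha, he, fun β g hg hfar => ?_⟩
    rw [key β g hg he]
    refine hfar _ _ _ _ ?_ (by norm_num)
    unfold ofS2v
    split_ifs with hs'
    · norm_num
    · refine norm_of_low (by norm_num) hs' ?_
      norm_num
      linarith
  · refine ⟨fun a => (ζ a, ofS2 a.2.1, ofS2 a.2.2), hζ.prodMk_space (hu'.prodMk_space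
      ((contMDiffAt_ofS2 hv).comp a0 (contMDiff_snd.comp contMDiff_snd).contMDiffAt)), ?_⟩
    have hvv : ∀ᶠ a : M5 in nhds a0, a.2.2.1 2 ≠ -1 :=
      (isOpen_coord2_ne.preimage (continuous_snd.comp continuous_snd)).mem_nhds hv
    filter_upwards [hu, hζe, hvv] with a ha he hva
    refine ⟨ha, he, fun β g hg _ => ?_⟩
    rw [key β g hg he, ofS2v, if_neg hva]

lemma fU_farU (hs : ScaleOK s) {a : M5} (ha : a ∈ farU) :
    fU Wd s a = sqS2 a.2.1 ∧ fV Wd s a = toS2 0 := by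
  by_cases h : a.2.1.1 2 = -1
  · simp [fU, fV, h, sqSphere_south h]
  · have h2 := norm_of_farU h ha
    have e : fibG Wd s a = (ofS2 a.2.1 ^ 2, 0) := by
      rw [fibG, Gfin_big Wd hs (by linarith), F0_big h2]
    simp only [fU, fV, if_neg h, e, toS2_sq, toS2_ofS2 h, and_self]

lemma contMDiff_baseMap :
    ContMDiff I5 (𝓡 1) 1 fun a : M5 => Circle.exp (2 * π * B.Ph (baseZ a.1)) := by
  intro a0
  obtain ⟨ζ, hζ, he⟩ := exists_localLift a0
  have h1 : ContDiff ℝ 1 fun z : ℝ => 2 * π * B.Ph z := contDiff_const.mul B.contDiff_Ph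
  have h2 := (contMDiff_circleExp (m := 1)).contMDiffAt.comp a0
    (h1.contMDiff.contMDiffAt.comp a0 hζ)
  refine h2.congr_of_eventuallyEq ?_
  filter_upwards [he] with a ha
  obtain ⟨k, hk⟩ := exists_int_of_exp_eq ((exp_two_pi_baseZ a.1).trans ha.symm)
  show Circle.exp (2 * π * B.Ph (baseZ a.1)) = Circle.exp (2 * π * B.Ph (ζ a))
  have hper : Periodic (fun z => B.Ph z - z) 1 := fun z => by simp [B.Ph_add_one]
  have := hper.int_mul k (ζ a)
  simp only [mul_one] at this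
  rw [hk, show B.Ph (ζ a + k) = B.Ph (ζ a) + k by linarith, exp_add_int]

lemma contMDiff_fMap (hs : ScaleOK s)
    (hc : ContDiff ℝ 1 (fun p : ℝ × ℂ × ℂ => Gfin Wd s p.1 p.2)) :
    ContMDiff ((𝓡 1).prod ((𝓡 2).prod (𝓡 2))) ((𝓡 1).prod ((𝓡 2).prod (𝓡 2))) 1 (fMap Wd s) := by
  refine contMDiff_baseMap.prodMk (ContMDiff.prodMk (fun a0 => ?_) (fun a0 => ?_))
  all_goals by_cases hfar : a0 ∈ farU
  · refine ((contMDiff_sqSphere.comp (contMDiff_fst.comp contMDiff_snd)).contMDiffAt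
      (x := a0)).congr_of_eventuallyEq ?_
    filter_upwards [isOpen_farU.mem_nhds hfar] with a ha
    exact (fU_farU Wd hs ha).1
  · have h0 : a0.2.1.1 2 ≠ -1 := fun h => hfar (mem_farU h)
    obtain ⟨c, hcc, he⟩ := exists_localCoord h0
    refine (contMDiff_toS2.contMDiffAt.comp a0
      ((contDiff_fst.comp hc).contMDiff.contMDiffAt.comp a0 hcc)).congr_of_eventuallyEq ?_
    filter_upwards [he] with a ha
    simp only [fU, if_neg ha.1, fibG, comp_apply]
    exact congrArg toS2 (ha.2.2 ℂ (fun z x => (Gfin Wd s z x).1)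
      (fun x z => congrArg Prod.fst (Gfin_periodic Wd hs x z))
      fun z u v v' hv hv' => congrArg Prod.fst (Gfin_snd_far Wd z u hv hv'))
  · refine (contMDiffAt_const (c := toS2 0)).congr_of_eventuallyEq ?_
    filter_upwards [isOpen_farU.mem_nhds hfar] with a ha
    exact (fU_farU Wd hs ha).2
  · have h0 : a0.2.1.1 2 ≠ -1 := fun h => hfar (mem_farU h)
    obtain ⟨c, hcc, he⟩ := exists_localCoord h0
    refine (contMDiff_toS2.contMDiffAt.comp a0
      ((contDiff_snd.comp hc).contMDiff.contMDiffAt.comp a0 hcc)).congr_of_eventuallyEq ?_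
    filter_upwards [he] with a ha
    simp only [fV, if_neg ha.1, fibG, comp_apply]
    exact congrArg toS2 (ha.2.2 ℂ (fun z x => (Gfin Wd s z x).2)
      (fun x z => congrArg Prod.snd (Gfin_periodic Wd hs x z))
      fun z u v v' hv hv' => congrArg Prod.snd (Gfin_snd_far Wd z u hv hv'))

lemma fMap_toS2 (hs : ScaleOK s) (z : ℝ) (u v : ℂ) :
    fMap Wd s (Circle.exp (2 * π * z), toS2 u, toS2 v) =
      (Circle.exp (2 * π * B.Ph z), toS2 (Gfin Wd s z (u, v)).1,
        toS2 (Gfin Wd s z (u, v)).2) := by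
  obtain ⟨k, hk⟩ := exists_int_of_exp_eq (exp_two_pi_baseZ (Circle.exp (2 * π * z)))
  have hper : Periodic (fun z => B.Ph z - z) 1 := fun w => by simp [B.Ph_add_one]
  have h1 := hper.int_mul k z
  simp only [mul_one] at h1
  have h2 := (Gfin_periodic Wd hs (u, v)).int_mul k z
  simp only [mul_one] at h2
  simp only [fMap, fU, fV, fibG, if_neg (toS2_ne_south u), ofS2_toS2, ofS2v_toS2, hk, h2]
  rw [show B.Ph (z + k) = B.Ph z + k by linarith, exp_add_int]

lemma fMap_iterate (hs : ScaleOK s) (t : ℕ) (z : ℝ) (u v : ℂ) :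
    ((fMap Wd s)^[t] (Circle.exp (2 * π * z), toS2 u, toS2 v)) =
      (Circle.exp (2 * π * B.Ph^[t] z), toS2 (orb (B := B) (Gfin Wd s) t z (u, v)).1,
        toS2 (orb (B := B) (Gfin Wd s) t z (u, v)).2) := by
  induction t with
  | zero => rfl
  | succ t ih =>
    rw [Function.iterate_succ_apply', ih, fMap_toS2 Wd hs, Function.iterate_succ_apply']
    rfl

lemma fMap_infty (a : M5) (ha : a.2.1.1 2 = -1) :
    fMap Wd s a = (Circle.exp (2 * π * B.Ph (baseZ a.1)), a.2.1, toS2 0) := by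
  simp [fMap, fU, fV, ha]

/-- Projection to the first sphere. -/
def prU : C(M5, S2) := ⟨fun a => a.2.1, by fun_prop⟩

/-- Section of the projection. -/
def secU : C(S2, M5) := ⟨fun b => (1, b, toS2 0), by fun_prop⟩

theorem homotopic_fMap (hs : ScaleOK s)
    (hc : ContDiff ℝ 1 (fun p : ℝ × ℂ × ℂ => Gfin Wd s p.1 p.2))
    (hf : Continuous (fMap Wd s)) :
    (prU.comp ⟨fMap Wd s, hf⟩).Homotopic
      (sqS2.comp prU) := by
  obtain ⟨H, hH, hH0, hH1, hHper, hHfar, hHbig⟩ := exists_fst_homotopy Wd hs hc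
  let K : unitInterval × M5 → S2 := fun p =>
    if p.2.2.1.1 2 = -1 then p.2.2.1 else toS2 (H p.1 (baseZ p.2.1) (ofS2 p.2.2.1, ofS2v p.2.2.2))
  have hK : Continuous K := by
    refine continuous_iff_continuousAt.2 fun p0 => ?_
    by_cases hfar : p0.2 ∈ farU
    · refine (sqS2.continuous.comp (prU.continuous.comp continuous_snd)).continuousAt.congr ?_
      filter_upwards [(isOpen_farU.preimage continuous_snd).mem_nhds hfar] with p hp
      show sqS2 p.2.2.1 = K p
      by_cases h : p.2.2.1.1 2 = -1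
      · simp [K, h, sqSphere_south h]
      · simp only [K, if_neg h, hHbig _ _ (ofS2 p.2.2.1, ofS2v p.2.2.2) (norm_of_farU h hp),
          toS2_sq, toS2_ofS2 h]
    · have h0 : p0.2.2.1.1 2 ≠ -1 := fun h => hfar (mem_farU h)
      obtain ⟨c, hcc, he⟩ := exists_localCoord h0
      have hT : ContinuousAt (fun p : unitInterval × M5 => (((p.1 : ℝ)), c p.2)) p0 :=
        (continuous_subtype_val.comp continuous_fst).continuousAt.prodMk
          (ContinuousAt.comp hcc.continuousAt continuousAt_snd)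
      refine ((contMDiff_toS2.continuous.comp hH).continuousAt.comp hT).congr ?_
      filter_upwards [continuousAt_snd.eventually he] with p hp
      simp only [K, if_neg hp.1, comp_apply]
      exact (congrArg toS2 (hp.2.2 ℂ (H p.1) (fun x z => hHper _ z x)
        fun z u v v' hv hv' => hHfar _ z u v v' hv hv')).symm
  refine ⟨⟨⟨K, hK⟩, fun a => ?_, fun a => ?_⟩⟩
  · show K (0, a) = (fMap Wd s a).2.1
    simp only [K, fMap, fU, fibG, Set.Icc.coe_zero, hH0]
  · show K (1, a) = sqS2 a.2.1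
    by_cases h : a.2.1.1 2 = -1
    · simp [K, h, sqSphere_south h]
    · simp only [K, if_neg h, Set.Icc.coe_one, hH1, toS2_sq, toS2_ofS2 h]

end

end Vale.Agent.P103S
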