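import Mathlib

/-!
P103: the names used in the statement of the hand-in. The structures are Mathlib's standard ones,
named here only to keep the printed statement short.
-/

namespace Vale.Agent.P103S

noncomputable section

open scoped Manifold ContDiff

/-- The unit sphere of the Euclidean three-space. -/
abbrev Sphere2 : Type := Metric.sphere (0 : EuclideanSpace ℝ (Fin 3)) 1

/-- The five-manifold `S^1 × S^2 × S^2`. -/
abbrev Mfd : Type := Circle × Sphere2 × Sphere2

/-- Mathlib's topology of the manifold. -/
@[reducible] def mfdTopology : TopologicalSpace Mfd := inferInstance

/-- Mathlib's uniform structure of the manifold. -/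
@[reducible] def mfdUniformity : UniformSpace Mfd := inferInstance

/-- Continuous self-maps of the manifold. -/
@[reducible] def SelfMap : Type := @ContinuousMap Mfd Mfd mfdTopology mfdTopology

/-- The underlying function of a self-map. -/
@[reducible] def toFn (f : SelfMap) : Mfd → Mfd := @ContinuousMap.toFun Mfd Mfd mfdTopology mfdTopology f

/-- Mathlib's topology of the two sphere. -/
@[reducible] def sphereTopology : TopologicalSpace Sphere2 := inferInstance

/-- Mathlib's topology of the product of two spheres. -/
@[reducible] def pairTopology : TopologicalSpace (Sphere2 × Sphere2) :=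
  @instTopologicalSpaceProd Sphere2 Sphere2 sphereTopology sphereTopology

/-- The model space of the two sphere. -/
abbrev ModelE2 : Type := EuclideanSpace ℝ (Fin 2)

/-- The model space of the circle. -/
abbrev ModelE1 : Type := EuclideanSpace ℝ (Fin 1)

/-- The topology of the model plane. -/
@[reducible] def planeTopology : TopologicalSpace ModelE2 := inferInstance

/-- The topology of the model line. -/
@[reducible] def lineTopology : TopologicalSpace ModelE1 := inferInstance

/-- The model space of the product of two spheres. -/
abbrev ModelH4 : Type := ModelProd ModelE2 ModelE2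

/-- The model space of the manifold. -/
abbrev ModelH5 : Type := ModelProd ModelE1 ModelH4

/-- The vector space of the manifold model. -/
abbrev ModelE5 : Type := ModelE1 × ModelE2 × ModelE2

/-- The norm of the model vector space. -/
@[reducible] def modelNorm : NormedAddCommGroup ModelE5 := inferInstance

/-- The linear structure of the model vector space. -/
@[reducible] def modelSpace : @NormedSpace ℝ ModelE5 _ modelNorm.toSeminormedAddCommGroup :=
  inferInstance

/-- The topology of the model space of two spheres. -/
@[reducible] def pairModelTopology : TopologicalSpace ModelH4 :=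
  @instTopologicalSpaceModelProd ModelE2 planeTopology ModelE2 planeTopology

/-- The topology of the model space. -/
@[reducible] def modelTopology : TopologicalSpace ModelH5 :=
  @instTopologicalSpaceModelProd ModelE1 lineTopology ModelH4 pairModelTopology

/-- Mathlib's stereographic atlas of the two sphere. -/
@[reducible] def sphereAtlas : @ChartedSpace ModelE2 planeTopology Sphere2 sphereTopology :=
  @EuclideanSpace.instChartedSpaceSphere (EuclideanSpace ℝ (Fin 3)) _ _ 2 ⟨by simp⟩

/-- Mathlib's atlas of the circle. -/
@[reducible] def circleAtlas : @ChartedSpace ModelE1 lineTopology Circle _ := inferInstance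

/-- The product atlas of two spheres. -/
@[reducible] def pairAtlas : @ChartedSpace ModelH4 pairModelTopology (Sphere2 × Sphere2) pairTopology :=
  @prodChartedSpace ModelE2 planeTopology Sphere2 sphereTopology sphereAtlas ModelE2 planeTopology
    Sphere2 sphereTopology sphereAtlas

/-- The product atlas of the manifold. -/
@[reducible] def mfdAtlas : @ChartedSpace ModelH5 modelTopology Mfd mfdTopology :=
  @prodChartedSpace ModelE1 lineTopology Circle _ circleAtlas ModelH4 pairModelTopology
    (Sphere2 × Sphere2) pairTopology pairAtlas

/-- The boundaryless model of the circle. -/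
@[reducible] def lineModel : ModelWithCorners ℝ ModelE1 ModelE1 := 𝓡 1

/-- The boundaryless model of the two sphere. -/
@[reducible] def planeModel : ModelWithCorners ℝ ModelE2 ModelE2 := 𝓡 2

/-- The boundaryless model of two spheres. -/
@[reducible] def pairModel : ModelWithCorners ℝ (ModelE2 × ModelE2) ModelH4 :=
  planeModel.prod planeModel

/-- The boundaryless model of the manifold. -/
@[reducible] def mfdModel :
    @ModelWithCorners ℝ _ ModelE5 modelNorm modelSpace ModelH5 modelTopology :=
  lineModel.prod pairModel

/-- The self-map is of class `C^1`. -/
def IsC1 (f : SelfMap) : Prop :=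
  @ContMDiff ℝ _ ModelE5 modelNorm modelSpace ModelH5 modelTopology mfdModel Mfd mfdTopology mfdAtlas
    ModelE5 modelNorm modelSpace ModelH5 modelTopology mfdModel Mfd mfdTopology mfdAtlas 1 (toFn f)

/-- Topological entropy (Bowen's definition by dynamical covers, as in Mathlib). -/
def topEntropy (f : SelfMap) : EReal :=
  @Dynamics.coverEntropy Mfd mfdUniformity (toFn f) Set.univ

/-- Real singular homology as a functor. -/
@[reducible] def homFunctor (k : ℕ) : CategoryTheory.Functor TopCat.{0} (ModuleCat.{0} ℝ) :=
  (AlgebraicTopology.singularHomologyFunctor (ModuleCat.{0} ℝ) k).obj (ModuleCat.of ℝ ℝ)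

/-- The manifold as an object of the category of spaces. -/
@[reducible] def mfdObj : TopCat.{0} := @TopCat.of Mfd mfdTopology

/-- Real singular homology of the manifold. -/
@[reducible] def Hom5 (k : ℕ) : ModuleCat.{0} ℝ := (homFunctor k).obj mfdObj

/-- The self-map as a morphism of spaces. -/
@[reducible] def toMor (f : SelfMap) : mfdObj ⟶ mfdObj :=
  @TopCat.ofHom Mfd Mfd mfdTopology mfdTopology f

/-- The map induced by `f` on real singular homology. -/
def pushForward (k : ℕ) (f : SelfMap) : Module.End ℝ (Hom5 k) := ((homFunctor k).map (toMor f)).hom

end

end Vale.Agent.P103S
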