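import Vale.Agent.P103S.Profile

/-! P103: the map which replaces the first coarse period inside a finer window. -/

namespace Vale.Agent.P103S

noncomputable section

open Real

/-- Parameters of one refinement step: coarse rates `l < n`, new rates `l' < n'`, coarse scale
`s0`, new scale `s`, length `m` of the first coarse period and length `M` of the new period. -/
structure StepPar where
  /-- Coarse normal rate. -/
  l : ℝ
  /-- Coarse tangential rate. -/
  n : ℝ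
  /-- New normal rate. -/
  l' : ℝ
  /-- New tangential rate. -/
  n' : ℝ
  /-- Coarse scale. -/
  s0 : ℝ
  /-- New scale. -/
  s : ℝ
  /-- First coarse period. -/
  m : ℕ
  /-- New period. -/
  M : ℕ

/-- Standing assumptions on the parameters. -/
structure StepPar.Good (q : StepPar) : Prop where
  three_lt : 3 < q.l'
  lt₁ : q.l' < q.n'
  lt₂ : q.n' < q.l
  lt₃ : q.l < q.n
  le_max : q.n ≤ 13 / 4
  s0_nonneg : 0 ≤ q.s0
  s0_le : q.s0 ≤ 1 / 100
  s_pos : 0 < q.s
  s_le : q.s ≤ 1 / 1000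
  one_le : 1 ≤ q.m
  le : q.m ≤ q.M

/-- Step in `p = ‖U‖`, from `a * 10 / s` to `(a + 1/25) * 10 / s`. -/
def pstp (s a p : ℝ) : ℝ := stp (25 * (p * s / 10 - a))

/-- The phase correction. -/
def dlt (q : StepPar) (th : ℝ) : ℝ := phN q.l q.M (th + π) + π - phN q.l' q.M th

/-- Modulus of the new tangential output. -/
def newMu (q : StepPar) (p : ℝ) : ℝ :=
  q.s * rad (q.l' ^ q.M) q.s p + 6 * pstp q.s (84 / 100) p

/-- Phase of the new tangential output. -/
def newPhase (q : StepPar) (U : ℂ) : ℂ :=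
  En q.l' q.M (Complex.arg U) *
    Complex.exp (((pstp q.s (80 / 100) ‖U‖ * dlt q (Complex.arg U) : ℝ) : ℂ) * Complex.I)

/-- The carried tangential coordinate. -/
def newCarry (q : StepPar) (X : ℂ × ℂ) : ℂ :=
  (((1 - pstp q.s (84 / 100) ‖X.1‖) * q.s : ℝ) : ℂ) * sig q.n' q.M X.2

/-- The blend parameter to the old map. -/
def newEta (x : ℂ × ℂ) : ℝ := stp (‖x.1‖ - 80)

/-- Direction of the sweep. -/
def newDir (q : StepPar) (x : ℂ × ℂ) : ℂ :=
  ((1 - newEta x : ℝ) : ℂ) * (-(chart q.s x).1 / (‖(chart q.s x).1‖ : ℂ))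
    + ((newEta x : ℝ) : ℂ) * (x.1 / (‖x.1‖ : ℂ))

/-- First coordinate of the new map. -/
def newFst (q : StepPar) (x : ℂ × ℂ) : ℂ :=
  ((1 - pstp q.s (88 / 100) ‖(chart q.s x).1‖ : ℝ) : ℂ) *
      Complex.exp (newCarry q (chart q.s x) / ((q.l ^ (q.M - q.m) : ℝ) : ℂ))
    + ((pstp q.s (92 / 100) ‖(chart q.s x).1‖ *
        ((1 - newEta x) * 160 + newEta x * rad (q.l ^ q.m) q.s0 ‖x.1‖) : ℝ) : ℂ) *
      En q.l q.m (Complex.arg (newDir q x))

/-- Second coordinate of the new map. -/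
def newSnd (q : StepPar) (x : ℂ × ℂ) : ℂ :=
  ((1 - newEta x : ℝ) : ℂ) *
      (((newMu q ‖(chart q.s x).1‖ : ℂ) * newPhase q (chart q.s x).1 - (q.s : ℂ)
          + newCarry q (chart q.s x))
        / ((q.n ^ (q.M - q.m) : ℝ) : ℂ))
    + ((newEta x : ℝ) : ℂ) * sig q.n q.m x.2

/-- The new map for the first coarse period. -/
def newStep (q : StepPar) (x : ℂ × ℂ) : ℂ × ℂ := (newFst q x, newSnd q x)

/-- The old map. -/
def oldStep (q : StepPar) (x : ℂ × ℂ) : ℂ × ℂ := (gmap q.l q.s0 q.m x.1, sig q.n q.m x.2)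

/-- Composites of coarse normal maps over a total time. -/
inductive Flight (l s0 : ℝ) : ℕ → ℂ → ℂ → Prop where
  | refl (u : ℂ) : Flight l s0 0 u u
  | step {k : ℕ} {u w : ℂ} (m : ℕ) : Flight l s0 k u w → Flight l s0 (k + m) u (gmap l s0 m w)

variable {q : StepPar}

lemma flight_exp {l s0 : ℝ} (hl : 1 ≤ l) {k : ℕ} {u z : ℂ} (h : Flight l s0 k u z) {w : ℂ}
    (hu : u = Complex.exp w) (hw : l ^ k * ‖w‖ ≤ cz) :
    z = Complex.exp ((l ^ k : ℝ) * w) := by
  induction h with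
  | refl => simpa using hu
  | step m h ih =>
    rename_i k' u' w'
    have h1 : l ^ k' * ‖w‖ ≤ cz :=
      le_trans (mul_le_mul_of_nonneg_right (pow_le_pow_right₀ hl (Nat.le_add_right _ m))
        (norm_nonneg _)) hw
    have h0 : 0 ≤ l ^ k' := by positivity
    rw [ih hu h1, gmap_exp hl]
    · congr 1
      push_cast
      ring
    · rw [norm_mul, Complex.norm_real, Real.norm_of_nonneg h0]
      calc l ^ m * (l ^ k' * ‖w‖) = l ^ (k' + m) * ‖w‖ := by ring
        _ ≤ cz := hw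

lemma flight_unit {l s0 : ℝ} (hl : 1 ≤ l) (hs : 0 ≤ s0) {k : ℕ} {u z : ℂ}
    (h : Flight l s0 k u z) {t : ℝ} (hu : u = (t : ℂ)) (ht : t ∈ Set.Icc (0 : ℝ) 1) :
    ∃ t' ∈ Set.Icc (0 : ℝ) 1, z = (t' : ℂ) := by
  induction h with
  | refl => exact ⟨t, ht, hu⟩
  | step m h ih =>
    obtain ⟨a, ha, hw⟩ := ih hu
    exact ⟨rad (l ^ m) s0 a, ⟨rad_nonneg hs ha.1, rad_le_one (by positivity) ha.1 ha.2⟩,
      by rw [hw, gmap_ofReal hs ha.1]⟩

lemma flight_polar {l s0 : ℝ} (hs : 0 ≤ s0) {k : ℕ} {u z : ℂ} (h : Flight l s0 k u z)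
    {G th : ℝ} (hG : 0 ≤ G) (hu : u = (G : ℂ) * Complex.exp ((th : ℂ) * Complex.I)) :
    ∃ G' : ℝ, 0 ≤ G' ∧ z = (G' : ℂ) * En l k th := by
  induction h with
  | refl => exact ⟨G, hG, by rw [hu]; simp [En, phN]⟩
  | step m h ih =>
    rename_i k' u' w'
    obtain ⟨a, ha, hw⟩ := ih hu
    refine ⟨rad (l ^ m) s0 a, rad_nonneg hs ha, ?_⟩
    rw [hw, En, gmap_polar hs ha, En, En, Nat.add_comm k' m, phN_add]

lemma chart_fst_eq {s : ℝ} (hs : s ≠ 0) (x : ℂ × ℂ) :
    (chart s x).1 = (vbar x.2 - Lam x.1 + (s : ℂ)) / (s : ℂ) := by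
  have : (s : ℂ) ≠ 0 := Complex.ofReal_ne_zero.2 hs
  simp only [chart]
  field_simp

lemma norm_chart_fst {s : ℝ} (hs : 0 < s) (x : ℂ × ℂ) :
    ‖(chart s x).1‖ = ‖vbar x.2 - Lam x.1 + (s : ℂ)‖ / s := by
  rw [chart_fst_eq hs.ne', norm_div, Complex.norm_real, Real.norm_of_nonneg hs.le]

/-- The tangential coordinate is dominated by the normal one. -/
lemma norm_sub_chart_le {s : ℝ} (hs : 0 < s) (hs' : s ≤ 1 / 1000) (x : ℂ × ℂ) :
    ‖(vbar x.2 - Lam x.1 + (s : ℂ)) + x.1‖ ≤ 60 + 1 / 1000 := by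
  have h1 : ‖(vbar x.2 - Lam x.1 + (s : ℂ)) + x.1‖ ≤ ‖vbar x.2‖ + ‖Lam x.1 - x.1‖ + ‖(s : ℂ)‖ := by
    calc ‖(vbar x.2 - Lam x.1 + (s : ℂ)) + x.1‖ = ‖(vbar x.2 - (Lam x.1 - x.1)) + (s : ℂ)‖ := by
          congr 1; ring
      _ ≤ _ := (norm_add_le _ _).trans (add_le_add (norm_sub_le _ _) le_rfl)
  rw [Complex.norm_real, Real.norm_of_nonneg hs.le] at h1
  linarith [norm_vbar_le x.2, norm_Lam_sub x.1]

/-- A large coarse coordinate forces a large new coordinate. -/
lemma chart_fst_large {s : ℝ} (hs : 0 < s) (hs' : s ≤ 1 / 1000) {x : ℂ × ℂ} (hx : 80 ≤ ‖x.1‖) :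
    19 / s ≤ ‖(chart s x).1‖ := by
  rw [norm_chart_fst hs]
  refine div_le_div_of_nonneg_right ?_ hs.le
  have h := norm_sub_chart_le hs hs' x
  have h2 := norm_add_le ((vbar x.2 - Lam x.1 + (s : ℂ)) + x.1) (-(vbar x.2 - Lam x.1 + (s : ℂ)))
  rw [norm_neg, add_neg_cancel_comm] at h2
  linarith

/-- A small new coordinate forces a small coarse coordinate. -/
lemma chart_fst_small {s a : ℝ} (hs : 0 < s) (hs' : s ≤ 1 / 1000) {x : ℂ × ℂ}
    (hx : ‖(chart s x).1‖ ≤ a / s) : ‖x.1‖ ≤ a + 61 := by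
  rw [norm_chart_fst hs, div_le_div_iff_of_pos_right hs] at hx
  have h := norm_sub_chart_le hs hs' x
  have h2 := norm_add_le ((vbar x.2 - Lam x.1 + (s : ℂ)) + x.1) (-(vbar x.2 - Lam x.1 + (s : ℂ)))
  rw [norm_neg, add_neg_cancel_comm] at h2
  linarith

lemma pstp_eq_zero {s a p : ℝ} (hs : 0 < s) (h : p ≤ a * 10 / s) : pstp s a p = 0 := by
  refine stp_of_le ?_
  have := (le_div_iff₀ hs).1 h
  linarith

lemma pstp_eq_one {s a p : ℝ} (hs : 0 < s) (h : (a + 1 / 25) * 10 / s ≤ p) : pstp s a p = 1 := by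
  refine stp_of_ge ?_
  have := (div_le_iff₀ hs).1 h
  linarith

lemma pstp_mem (s a p : ℝ) : pstp s a p ∈ Set.Icc (0 : ℝ) 1 := stp_mem _

lemma newEta_of_le {x : ℂ × ℂ} (hx : ‖x.1‖ ≤ 80) : newEta x = 0 := stp_of_le (by linarith)

lemma StepPar.Good.bounds (hq : q.Good) : 1 ≤ q.l' ∧ 1 ≤ q.n' ∧ 3 ≤ q.l ∧ 3 ≤ q.n ∧
    q.l ≤ 13 / 4 ∧ q.l' ≤ 13 / 4 ∧ q.s ≤ 1 / 100 ∧ 0 < q.l ^ (q.M - q.m) ∧ 0 < q.n ^ (q.M - q.m) := by
  have h1 := hq.three_lt
  have h2 := hq.lt₁
  have h3 := hq.lt₂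
  have h4 := hq.lt₃
  have h5 := hq.le_max
  refine ⟨by linarith, by linarith, by linarith, by linarith, by linarith, by linarith,
    by linarith [hq.s_le], pow_pos (by linarith) _, pow_pos (by linarith) _⟩

lemma newStep_eq_old (hq : q.Good) {x : ℂ × ℂ} (hx : 81 ≤ ‖x.1‖) :
    newStep q x = oldStep q x := by
  have hs := hq.s_pos
  have hp := chart_fst_large hs hq.s_le (x := x) (by linarith)
  have he : newEta x = 1 := stp_of_ge (by linarith)
  have h19 : (10 : ℝ) / q.s ≤ ‖(chart q.s x).1‖ := le_trans (by gcongr; norm_num) hp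
  have h88 : pstp q.s (88 / 100) ‖(chart q.s x).1‖ = 1 :=
    pstp_eq_one hs (le_trans (by gcongr; norm_num) h19)
  have h92 : pstp q.s (92 / 100) ‖(chart q.s x).1‖ = 1 :=
    pstp_eq_one hs (le_trans (by gcongr; norm_num) h19)
  have hne : 0 < ‖x.1‖ := by linarith
  have hdir : Complex.arg (newDir q x) = Complex.arg x.1 := by
    rw [newDir, he]
    simp only [sub_self, Complex.ofReal_zero, zero_mul, zero_add, Complex.ofReal_one, one_mul]
    rw [div_eq_inv_mul, ← Complex.ofReal_inv, Complex.arg_real_mul _ (inv_pos.2 hne)]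
  refine Prod.ext ?_ ?_
  · show newFst q x = gmap q.l q.s0 q.m x.1
    simp [newFst, h88, h92, he, hdir, gmap]
  · show newSnd q x = _
    simp [newSnd, he, oldStep]

lemma newStep_inner (hq : q.Good) {x : ℂ × ℂ} (hx : ‖(chart q.s x).1‖ ≤ 8 / q.s) :
    newStep q x = lift q.l q.n q.s (q.M - q.m)
      (gmap q.l' q.s q.M (chart q.s x).1, sig q.n' q.M (chart q.s x).2) := by
  have hs := hq.s_pos
  have hz : ∀ a : ℝ, 80 / 100 ≤ a → pstp q.s a ‖(chart q.s x).1‖ = 0 := fun a ha =>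
    pstp_eq_zero hs (hx.trans (div_le_div_of_nonneg_right (by linarith) hs.le))
  have he : newEta x = 0 := newEta_of_le (by linarith [chart_fst_small hs hq.s_le hx])
  refine Prod.ext ?_ ?_
  · show newFst q x = _
    simp [newFst, newCarry, hz (88 / 100) (by norm_num), hz (92 / 100) (by norm_num),
      hz (84 / 100) (by norm_num), lift]
  · show newSnd q x = _
    simp [newSnd, newMu, newPhase, newCarry, he, hz (80 / 100) le_rfl, hz (84 / 100) (by norm_num),
      lift, gmap]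
    ring

lemma norm_newCarry_le (hq : q.Good) (X : ℂ × ℂ) : ‖newCarry q X‖ ≤ 40 * q.s := by
  have h := pstp_mem q.s (84 / 100) ‖X.1‖
  have hs := hq.s_pos
  rw [newCarry, norm_mul, Complex.norm_real, Real.norm_of_nonneg (mul_nonneg (by linarith [h.2]) hs.le)]
  calc _ ≤ 1 * q.s * 40 := by
        gcongr
        · linarith [h.1]
        · exact norm_sig_le hq.bounds.2.1 _
    _ = _ := by ring

lemma newMu_mem (hq : q.Good) {p : ℝ} (hp : 0 ≤ p) : newMu q p ∈ Set.Icc (0 : ℝ) 16 := by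
  have hs := hq.s_pos
  have h := pstp_mem q.s (84 / 100) p
  have h1 : 0 ≤ rad (q.l' ^ q.M) q.s p := rad_nonneg hs.le hp
  have h2 : q.s * rad (q.l' ^ q.M) q.s p ≤ 10 := by
    have := mul_le_mul_of_nonneg_left (rad_le_cap (be := q.l' ^ q.M) hs hq.bounds.2.2.2.2.2.2.1 hp) hs.le
    rwa [mul_div_cancel₀ _ hs.ne'] at this
  rw [newMu]
  exact ⟨add_nonneg (mul_nonneg hs.le h1) (by linarith [h.1]), by linarith [h.2]⟩

lemma norm_newPhase (q : StepPar) (U : ℂ) : ‖newPhase q U‖ = 1 := by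
  rw [newPhase, norm_mul, norm_En, Complex.norm_exp_ofReal_mul_I, one_mul]

/-- The tangential output at the end of the new period. -/
def newEnd (q : StepPar) (x : ℂ × ℂ) : ℂ :=
  (newMu q ‖(chart q.s x).1‖ : ℂ) * newPhase q (chart q.s x).1 - (q.s : ℂ) + newCarry q (chart q.s x)

lemma norm_newEnd_le (hq : q.Good) (x : ℂ × ℂ) : ‖newEnd q x‖ ≤ 17 := by
  have h1 := newMu_mem hq (norm_nonneg (chart q.s x).1)
  have h2 := norm_newCarry_le hq (chart q.s x)
  have hs := hq.s_pos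
  have hs' := hq.s_le
  refine (norm_add_le _ _).trans ((add_le_add (norm_sub_le _ _) le_rfl).trans ?_)
  rw [norm_mul, Complex.norm_real, Complex.norm_real, norm_newPhase, Real.norm_of_nonneg h1.1,
    Real.norm_of_nonneg hs.le, mul_one]
  linarith [h1.2]

lemma newSnd_eq (q : StepPar) (x : ℂ × ℂ) :
    newSnd q x = ((1 - newEta x : ℝ) : ℂ) * (newEnd q x / ((q.n ^ (q.M - q.m) : ℝ) : ℂ))
      + ((newEta x : ℝ) : ℂ) * sig q.n q.m x.2 := rfl

lemma newSnd_end (hq : q.Good) {x : ℂ × ℂ} (hx : ‖x.1‖ ≤ 80) :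
    ((q.n ^ (q.M - q.m) : ℝ) : ℂ) * (newStep q x).2 = newEnd q x := by
  show _ * newSnd q x = _
  rw [newSnd_eq, newEta_of_le hx]
  simp only [sub_zero, Complex.ofReal_one, one_mul, Complex.ofReal_zero, zero_mul, add_zero]
  rw [mul_div_cancel₀ _ (Complex.ofReal_ne_zero.2 hq.bounds.2.2.2.2.2.2.2.2.ne')]

lemma norm_newStep_snd_end (hq : q.Good) {x : ℂ × ℂ} (hx : ‖x.1‖ ≤ 80) :
    q.n ^ (q.M - q.m) * ‖(newStep q x).2‖ ≤ 17 := by
  have h := norm_newEnd_le hq x
  rw [← newSnd_end hq hx, norm_mul, Complex.norm_real,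
    Real.norm_of_nonneg hq.bounds.2.2.2.2.2.2.2.2.le] at h
  exact h

lemma exp_arg_div {U : ℂ} (hU : U ≠ 0) :
    Complex.exp ((Complex.arg U : ℂ) * Complex.I) = U / (‖U‖ : ℂ) := by
  rw [eq_div_iff (Complex.ofReal_ne_zero.2 (norm_ne_zero_iff.2 hU)), mul_comm,
    Complex.norm_mul_exp_arg_mul_I]

lemma En_arg_neg (l : ℝ) (a : ℕ) {U : ℂ} (hU : U ≠ 0) :
    En l a (Complex.arg (-U / (‖U‖ : ℂ))) = En l a (Complex.arg U + π) := by
  have e : En l 0 (Complex.arg U + π) = -U / (‖U‖ : ℂ) := by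
    simp only [En, phN, Function.iterate_zero, id_eq, Complex.ofReal_add, add_mul, Complex.exp_add,
      Complex.exp_pi_mul_I, exp_arg_div hU]
    ring
  rw [← e, En_arg_En, Nat.add_zero]

/-- The middle inputs end outside of the new box. -/
lemma newStep_middle (hq : q.Good) {x : ℂ × ℂ} (h₁ : 8 / q.s ≤ ‖(chart q.s x).1‖)
    (h₂ : ‖(chart q.s x).1‖ ≤ 10 / q.s) {z : ℂ}
    (hz : Flight q.l q.s0 (q.M - q.m) (newStep q x).1 z) :
    10 / q.s ≤ ‖(chart q.s (z, ((q.n ^ (q.M - q.m) : ℝ) : ℂ) * (newStep q x).2)).1‖ := by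
  have hs := hq.s_pos
  have hs' := hq.s_le
  obtain ⟨-, -, hl, -, -, -, hs100, hlk, -⟩ := hq.bounds
  have hx : ‖x.1‖ ≤ 80 := by linarith [chart_fst_small hs hs' h₂]
  rw [newSnd_end hq hx, norm_chart_fst hs]
  refine div_le_div_of_nonneg_right ?_ hs.le
  dsimp only
  rw [vbar_eq ((norm_newEnd_le hq x).trans (by norm_num))]
  set X := chart q.s x with hX
  set p := ‖X.1‖ with hp
  have he : newEta x = 0 := newEta_of_le hx
  have hU : X.1 ≠ 0 := norm_pos_iff.1 (lt_of_lt_of_le (by positivity) h₁)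
  have hrad : q.s * rad (q.l' ^ q.M) q.s p = 10 := by
    rw [rad_eq_cap hs hs100 (le_trans (by gcongr; norm_num) h₁), mul_div_cancel₀ _ hs.ne']
  have e : newEnd q x - Lam z + (q.s : ℂ)
      = (newMu q p : ℂ) * newPhase q X.1 + (newCarry q X - Lam z) := by
    rw [newEnd]; ring
  rw [e]
  have hf : (newStep q x).1 = newFst q x := rfl
  rw [hf] at hz
  rcases le_or_gt p (88 / 10 / q.s) with c1 | c1
  · have h88 : pstp q.s (88 / 100) p = 0 := pstp_eq_zero hs (c1.trans_eq (by ring))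
    have h92 : pstp q.s (92 / 100) p = 0 :=
      pstp_eq_zero hs (c1.trans (by gcongr; norm_num))
    have hfst : newFst q x = Complex.exp (newCarry q X / ((q.l ^ (q.M - q.m) : ℝ) : ℂ)) := by
      rw [newFst, ← hX, ← hp, h88, h92]
      simp
    have hc := norm_newCarry_le hq X
    have hz' := flight_exp (by linarith) hz hfst (by
      rw [norm_div, Complex.norm_real, Real.norm_of_nonneg hlk.le, mul_div_cancel₀ _ hlk.ne', cz]
      linarith)
    rw [mul_div_cancel₀ _ (Complex.ofReal_ne_zero.2 hlk.ne')] at hz'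
    rw [hz', Lam_exp (by rw [cz]; linarith), sub_self, add_zero, norm_mul, norm_newPhase,
      mul_one, Complex.norm_real]
    refine le_trans ?_ (le_abs_self _)
    have := (pstp_mem q.s (84 / 100) p).1
    rw [newMu]
    linarith
  have h84 : pstp q.s (84 / 100) p = 1 := pstp_eq_one hs (le_trans (by gcongr; norm_num) c1.le)
  have hmu : newMu q p = 16 := by rw [newMu, h84, hrad]; norm_num
  have hcar : newCarry q X = 0 := by rw [newCarry, ← hp, h84]; simp
  rw [hmu, hcar, zero_sub]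
  rcases le_or_gt p (92 / 10 / q.s) with c2 | c2
  · have h92 : pstp q.s (92 / 100) p = 0 := pstp_eq_zero hs (c2.trans_eq (by ring))
    have hb := pstp_mem q.s (88 / 100) p
    have hfst : newFst q x = ((1 - pstp q.s (88 / 100) p : ℝ) : ℂ) := by
      rw [newFst, ← hX, ← hp, h92, hcar]
      simp
    obtain ⟨t, ht, rfl⟩ := flight_unit (by linarith) hq.s0_nonneg hz hfst
      ⟨by linarith [hb.2], by linarith [hb.1]⟩
    have h3 := norm_Lam_sub (t : ℂ)
    have h4 := norm_le_norm_add_norm_sub' (Lam (t : ℂ)) (t : ℂ)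
    rw [Complex.norm_real, Real.norm_of_nonneg ht.1] at h4
    have h5 : ‖((16 : ℝ) : ℂ) * newPhase q X.1‖ = 16 := by
      rw [norm_mul, norm_newPhase]; norm_num
    have h6 := norm_sub_norm_le (((16 : ℝ) : ℂ) * newPhase q X.1) (Lam (t : ℂ))
    rw [← sub_eq_add_neg]
    linarith [ht.2]
  have h88 : pstp q.s (88 / 100) p = 1 := pstp_eq_one hs (le_trans (by gcongr; norm_num) c2.le)
  have h80 : pstp q.s (80 / 100) p = 1 := pstp_eq_one hs (le_trans (by gcongr; norm_num) c2.le)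
  set th := Complex.arg X.1 + π with hth
  have hphase : newPhase q X.1 = -En q.l q.M th := by
    rw [newPhase, ← hp, h80, one_mul, En, ← Complex.exp_add, ← add_mul, ← Complex.ofReal_add,
      dlt, ← hth, show phN q.l' q.M (Complex.arg X.1) + (phN q.l q.M th + π
        - phN q.l' q.M (Complex.arg X.1)) = phN q.l q.M th + π by ring,
      Complex.ofReal_add, add_mul, Complex.exp_add, Complex.exp_pi_mul_I, En]
    ring
  set G := pstp q.s (92 / 100) p * 160 with hG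
  have hfst : newFst q x = (G : ℂ) * En q.l q.m th := by
    have hdir : newDir q x = -X.1 / (‖X.1‖ : ℂ) := by
      rw [newDir, he, ← hX]
      simp [neg_div]
    rw [newFst, ← hX, ← hp, h88, he, hdir, En_arg_neg _ _ hU, hG]
    simp [hth]
  have hG0 : 0 ≤ G := mul_nonneg (pstp_mem _ _ _).1 (by norm_num)
  rw [En] at hfst
  obtain ⟨G', hG', rfl⟩ := flight_polar hq.s0_nonneg hz hG0 hfst
  have hE : En q.l (q.M - q.m) (phN q.l q.m th) = En q.l q.M th := by
    rw [En, En, ← phN_add, Nat.sub_add_cancel hq.le]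
  rw [hE, hphase]
  set E := En q.l q.M th with hEdef
  have h3 := norm_Lam_sub ((G' : ℂ) * E)
  have h4 : ((16 : ℝ) : ℂ) * -E + -Lam ((G' : ℂ) * E)
      = -((((16 + G' : ℝ)) : ℂ) * E) - (Lam ((G' : ℂ) * E) - (G' : ℂ) * E) := by push_cast; ring
  rw [h4]
  refine le_trans ?_ (norm_sub_norm_le _ _)
  rw [norm_neg, norm_mul, hEdef, norm_En, mul_one, Complex.norm_real,
    Real.norm_of_nonneg (by linarith), ← hEdef]
  linarith

/-- The outer inputs leave the coarse core at once. -/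
lemma newStep_outer (hq : q.Good) {x : ℂ × ℂ} (h : 10 / q.s ≤ ‖(chart q.s x).1‖)
    (hx : ‖x.1‖ ≤ 100) : 160 ≤ ‖(newStep q x).1‖ := by
  have hs := hq.s_pos
  have h88 : pstp q.s (88 / 100) ‖(chart q.s x).1‖ = 1 :=
    pstp_eq_one hs (le_trans (by gcongr; norm_num) h)
  have h92 : pstp q.s (92 / 100) ‖(chart q.s x).1‖ = 1 :=
    pstp_eq_one hs (le_trans (by gcongr; norm_num) h)
  show 160 ≤ ‖newFst q x‖
  have he := stp_mem (‖x.1‖ - 80)
  change newEta x ∈ Set.Icc (0 : ℝ) 1 at he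
  have hc : 160 ≤ (1 - newEta x) * 160 + newEta x * rad (q.l ^ q.m) q.s0 ‖x.1‖ := by
    rcases le_or_gt ‖x.1‖ 80 with c | c
    · rw [newEta_of_le c]; norm_num
    · rw [rad_eq_two_mul hq.s0_nonneg (by linarith)
        (le_trans (mul_le_mul hx hq.s0_le hq.s0_nonneg (by norm_num)) (by norm_num))]
      nlinarith [mul_nonneg he.1 (by linarith : (0 : ℝ) ≤ 2 * ‖x.1‖ - 160)]
  rw [newFst, h88, h92]
  simp only [sub_self, Complex.ofReal_zero, zero_mul, zero_add, one_mul]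
  rw [norm_mul, norm_En, mul_one, Complex.norm_real]
  exact hc.trans (le_abs_self _)

lemma norm_exp_carry (hq : q.Good) (X : ℂ × ℂ) :
    ‖newCarry q X / ((q.l ^ (q.M - q.m) : ℝ) : ℂ)‖ ≤ 1 / 25 ∧
      ‖Complex.exp (newCarry q X / ((q.l ^ (q.M - q.m) : ℝ) : ℂ))‖ ≤ 2 := by
  obtain ⟨-, -, hl, -, -, -, -, hlk, -⟩ := hq.bounds
  have h1 : ‖newCarry q X / ((q.l ^ (q.M - q.m) : ℝ) : ℂ)‖ ≤ 1 / 25 := by
    rw [norm_div, Complex.norm_real, Real.norm_of_nonneg hlk.le]
    refine (div_le_self (norm_nonneg _) (one_le_pow₀ (by linarith))).trans ?_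
    linarith [norm_newCarry_le hq X, hq.s_le]
  refine ⟨h1, (Complex.norm_exp_le_exp_norm _).trans ((Real.exp_le_exp.2 h1).trans ?_)⟩
  linarith [Real.exp_bound_div_one_sub_of_interval (by norm_num : (0 : ℝ) ≤ 1 / 25)
    (by norm_num : (1 : ℝ) / 25 < 1)]

lemma rad_old_le (hq : q.Good) {u : ℂ} (hx : ‖u‖ ≤ 82) :
    rad (q.l ^ q.m) q.s0 ‖u‖ ∈ Set.Icc (0 : ℝ) 328 :=
  ⟨rad_nonneg hq.s0_nonneg (norm_nonneg _),
    (rad_le hq.s0_nonneg hq.s0_le (norm_nonneg _)).trans (max_le (by norm_num) (by linarith))⟩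

lemma coef_mem (hq : q.Good) {x : ℂ × ℂ} (hx : ‖x.1‖ ≤ 82) :
    (1 - newEta x) * 160 + newEta x * rad (q.l ^ q.m) q.s0 ‖x.1‖ ∈ Set.Icc (0 : ℝ) 328 := by
  have he := stp_mem (‖x.1‖ - 80)
  change newEta x ∈ Set.Icc (0 : ℝ) 1 at he
  have hr := rad_old_le hq hx
  have h1 := mul_nonneg he.1 hr.1
  have h2 := mul_le_mul_of_nonneg_left hr.2 he.1
  constructor <;> linarith [he.1, he.2]

lemma norm_newStep_le (hq : q.Good) {x : ℂ × ℂ} (hx : ‖x.1‖ ≤ 82) :
    ‖(newStep q x).1‖ ≤ 400 ∧ ‖(newStep q x).2‖ ≤ 57 := by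
  obtain ⟨-, -, -, hn, -, -, -, -, hnk⟩ := hq.bounds
  have he := stp_mem (‖x.1‖ - 80)
  change newEta x ∈ Set.Icc (0 : ℝ) 1 at he
  constructor
  · show ‖newFst q x‖ ≤ 400
    have hb := pstp_mem q.s (88 / 100) ‖(chart q.s x).1‖
    have hc := pstp_mem q.s (92 / 100) ‖(chart q.s x).1‖
    have hr := coef_mem hq hx
    refine (norm_add_le _ _).trans ?_
    rw [norm_mul, norm_mul, norm_En, mul_one, Complex.norm_real, Complex.norm_real,
      Real.norm_of_nonneg (by linarith [hb.2] : (0 : ℝ) ≤ 1 - pstp q.s (88 / 100) ‖(chart q.s x).1‖),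
      Real.norm_of_nonneg (mul_nonneg hc.1 hr.1)]
    have h1 := mul_le_mul (show (1 : ℝ) - pstp q.s (88 / 100) ‖(chart q.s x).1‖ ≤ 1 by linarith [hb.1])
      (norm_exp_carry hq (chart q.s x)).2 (norm_nonneg _) zero_le_one
    have h2 := mul_le_mul hc.2 hr.2 hr.1 zero_le_one
    linarith
  · show ‖newSnd q x‖ ≤ 57
    rw [newSnd_eq]
    refine (norm_add_le _ _).trans ?_
    rw [norm_mul, norm_mul, norm_div, Complex.norm_real, Complex.norm_real, Complex.norm_real,
      Real.norm_of_nonneg hnk.le, Real.norm_of_nonneg (by linarith [he.2] : (0 : ℝ) ≤ 1 - newEta x),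
      Real.norm_of_nonneg he.1]
    have h1 : ‖newEnd q x‖ / q.n ^ (q.M - q.m) ≤ 17 :=
      (div_le_self (norm_nonneg _) (one_le_pow₀ (by linarith))).trans (norm_newEnd_le hq x)
    have h2 := mul_le_mul_of_nonneg_left h1 (by linarith [he.2] : (0 : ℝ) ≤ 1 - newEta x)
    have h3 := mul_le_mul_of_nonneg_left (norm_sig_le (m := q.m) (by linarith : (1 : ℝ) ≤ q.n) x.2) he.1
    linarith [he.1, he.2]

lemma norm_oldStep_le (hq : q.Good) {x : ℂ × ℂ} (hx : ‖x.1‖ ≤ 82) :
    ‖(oldStep q x).1‖ ≤ 400 ∧ ‖(oldStep q x).2‖ ≤ 57 := by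
  obtain ⟨-, -, -, hn, -⟩ := hq.bounds
  refine ⟨?_, (norm_sig_le (by linarith) _).trans (by norm_num)⟩
  show ‖gmap q.l q.s0 q.m x.1‖ ≤ 400
  rw [norm_gmap hq.s0_nonneg]
  linarith [(rad_old_le hq hx).2]

lemma contDiff_expI : ContDiff ℝ 1 fun t : ℝ => Complex.exp ((t : ℂ) * Complex.I) :=
  (Complex.ofRealCLM.contDiff.mul contDiff_const).cexp

lemma contDiff_dlt (q : StepPar) : ContDiff ℝ 1 (dlt q) :=
  ((((contDiff_phN q.l q.M).comp (contDiff_id.add contDiff_const)).add contDiff_const).sub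
    (contDiff_phN q.l' q.M))

lemma dlt_periodic (q : StepPar) : Function.Periodic (dlt q) (2 * π) := by
  intro th
  simp only [dlt, add_right_comm th (2 * π) π, phN_add_two_pi]
  ring

lemma contDiff_newEta : ContDiff ℝ 1 newEta := by
  refine contDiff_iff_contDiffAt.2 fun x => ?_
  by_cases hu : x.1 = 0
  · refine (contDiffAt_const (c := (0 : ℝ))).congr_of_eventuallyEq ?_
    filter_upwards [continuous_fst.norm.continuousAt.eventually_lt continuousAt_const
      (show ‖x.1‖ < 80 by simp [hu])] with y hy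
    exact newEta_of_le hy.le
  · exact contDiff_stp.contDiffAt.comp x ((contDiffAt_fst.norm ℝ hu).sub contDiffAt_const)

lemma contDiff_radNorm (be s : ℝ) : ContDiff ℝ 1 fun x : ℂ × ℂ => rad be s ‖x.1‖ := by
  refine contDiff_iff_contDiffAt.2 fun x => ?_
  by_cases hu : x.1 = 0
  · refine (contDiffAt_const (c := (0 : ℝ))).congr_of_eventuallyEq ?_
    filter_upwards [continuous_fst.norm.continuousAt.eventually_lt continuousAt_const
      (show ‖x.1‖ < 1 / 4 by simp [hu])] with y hy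
    exact rad_eq_zero (norm_nonneg _) hy.le
  · exact contDiff_rad.contDiffAt.comp x (contDiffAt_fst.norm ℝ hu)

lemma contDiff_U (q : StepPar) : ContDiff ℝ 1 fun x : ℂ × ℂ => (chart q.s x).1 :=
  contDiff_fst.comp contDiff_chart

/-- The two directions are never antipodal. -/
lemma norm_newDir_ge (hq : q.Good) {x : ℂ × ℂ} (hU : (chart q.s x).1 ≠ 0) :
    1 / 2 ≤ ‖newDir q x‖ := by
  rcases le_or_gt ‖x.1‖ 80 with c | c
  · rw [newDir, newEta_of_le c]
    simp [norm_ne_zero_iff.2 hU]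
    norm_num
  have hs := hq.s_pos
  have he := stp_mem (‖x.1‖ - 80)
  change newEta x ∈ Set.Icc (0 : ℝ) 1 at he
  have hW := norm_sub_chart_le hs hq.s_le x
  set U := (chart q.s x).1 with hUdef
  set u := x.1 with hudef
  have hup : 0 < ‖u‖ := by linarith
  have hUp : 0 < ‖U‖ := norm_pos_iff.2 hU
  have e : vbar x.2 - Lam u + (q.s : ℂ) = (q.s : ℂ) * U := by
    rw [hUdef, chart_fst_eq hs.ne', mul_div_cancel₀ _ (Complex.ofReal_ne_zero.2 hs.ne')]
  rw [e] at hW
  have hdot : (q.s * U.re + u.re) * u.re + (q.s * U.im + u.im) * u.im ≤ ‖u‖ * ‖u‖ := by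
    have h1 := Complex.re_le_norm (((q.s : ℂ) * U + u) * (starRingEnd ℂ) u)
    rw [norm_mul, Complex.norm_conj] at h1
    rw [Complex.mul_re, Complex.conj_re, Complex.conj_im, Complex.add_re, Complex.add_im,
      Complex.re_ofReal_mul, Complex.im_ofReal_mul] at h1
    nlinarith
  have hu2 : ‖u‖ * ‖u‖ = u.re * u.re + u.im * u.im := Complex.norm_mul_self_eq_normSq u
  have hU2 : ‖U‖ * ‖U‖ = U.re * U.re + U.im * U.im := Complex.norm_mul_self_eq_normSq U
  have hneg : U.re * u.re + U.im * u.im ≤ 0 := by nlinarith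
  set a := (1 - newEta x) / ‖U‖ with ha
  set b := newEta x / ‖u‖ with hb
  have ha0 : 0 ≤ a := div_nonneg (by linarith [he.2]) hUp.le
  have hb0 : 0 ≤ b := div_nonneg he.1 hup.le
  have hd : newDir q x = (b : ℂ) * u - (a : ℂ) * U := by
    rw [newDir, ← hUdef, ← hudef, ha, hb]
    push_cast
    ring
  have h1 : (1 - newEta x) = a * ‖U‖ := by rw [ha, div_mul_cancel₀ _ hUp.ne']
  have h2 : newEta x = b * ‖u‖ := by rw [hb, div_mul_cancel₀ _ hup.ne']
  have key : (1 / 2) ^ 2 ≤ ‖newDir q x‖ ^ 2 := by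
    rw [Complex.sq_norm, Complex.normSq_apply, hd]
    simp only [Complex.sub_re, Complex.sub_im, Complex.re_ofReal_mul, Complex.im_ofReal_mul]
    nlinarith [mul_nonpos_iff.2 (Or.inl ⟨mul_nonneg ha0 hb0, hneg⟩), congrArg (a * a * ·) hU2,
      congrArg (b * b * ·) hu2, sq_nonneg (a * ‖U‖ - b * ‖u‖)]
  exact (sq_le_sq₀ (by norm_num) (norm_nonneg _)).1 key

lemma contDiffAt_newDir {x : ℂ × ℂ} (hU : (chart q.s x).1 ≠ 0) :
    ContDiffAt ℝ 1 (newDir q) x := by
  have h1 : ContDiffAt ℝ 1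
      (fun y => -(chart q.s y).1 / (‖(chart q.s y).1‖ : ℂ)) x := by
    simp only [div_eq_mul_inv]
    exact (contDiff_U q).contDiffAt.neg.mul
      ((Complex.ofRealCLM.contDiff.contDiffAt.comp x ((contDiff_U q).contDiffAt.norm ℝ hU)).inv
        (Complex.ofReal_ne_zero.2 (norm_ne_zero_iff.2 hU)))
  by_cases hu : x.1 = 0
  · refine h1.congr_of_eventuallyEq ?_
    filter_upwards [continuous_fst.norm.continuousAt.eventually_lt continuousAt_const
      (show ‖x.1‖ < 80 by simp [hu])] with y hy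
    simp [newDir, newEta_of_le hy.le]
  have h2 : ContDiffAt ℝ 1 (fun y : ℂ × ℂ => y.1 / (‖y.1‖ : ℂ)) x := by
    simp only [div_eq_mul_inv]
    exact contDiffAt_fst.mul
      ((Complex.ofRealCLM.contDiff.contDiffAt.comp x (contDiffAt_fst.norm ℝ hu)).inv
        (Complex.ofReal_ne_zero.2 (norm_ne_zero_iff.2 hu)))
  have he := contDiff_newEta.contDiffAt (x := x)
  exact ((Complex.ofRealCLM.contDiff.contDiffAt.comp x (contDiffAt_const.sub he)).mul h1).add
    ((Complex.ofRealCLM.contDiff.contDiffAt.comp x he).mul h2)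

lemma newStep_eventually_inner (hq : q.Good) {x : ℂ × ℂ} (hx : ‖(chart q.s x).1‖ < 8 / q.s) :
    newStep q =ᶠ[nhds x] fun y => lift q.l q.n q.s (q.M - q.m)
      (gmap q.l' q.s q.M (chart q.s y).1, sig q.n' q.M (chart q.s y).2) := by
  filter_upwards [(contDiff_U q).continuous.norm.continuousAt.eventually_lt continuousAt_const hx]
    with y hy
  exact newStep_inner hq hy.le

lemma contDiff_newStep (hq : q.Good) : ContDiff ℝ 1 (newStep q) := by
  refine contDiff_iff_contDiffAt.2 fun x => ?_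
  rcases lt_or_ge ‖(chart q.s x).1‖ (8 / q.s) with c | c
  · exact ((contDiff_lift _).comp ((contDiff_gmap.comp (contDiff_U q)).prodMk
      (contDiff_sig.comp (contDiff_snd.comp contDiff_chart)))).contDiffAt.congr_of_eventuallyEq
      (newStep_eventually_inner hq c)
  have hs := hq.s_pos
  have hU : (chart q.s x).1 ≠ 0 := norm_pos_iff.1 (lt_of_lt_of_le (by positivity) c)
  have hp : ContDiffAt ℝ 1 (fun y => ‖(chart q.s y).1‖) x := (contDiff_U q).contDiffAt.norm ℝ hU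
  have hst : ∀ a, ContDiffAt ℝ 1 (fun y => pstp q.s a ‖(chart q.s y).1‖) x := fun a =>
    contDiff_stp.contDiffAt.comp x
      (contDiffAt_const.mul (((hp.mul contDiffAt_const).div_const 10).sub contDiffAt_const))
  have hof : ∀ {f : ℂ × ℂ → ℝ}, ContDiffAt ℝ 1 f x → ContDiffAt ℝ 1 (fun y => (f y : ℂ)) x :=
    fun h => Complex.ofRealCLM.contDiff.contDiffAt.comp x h
  have hcar : ContDiffAt ℝ 1 (fun y => newCarry q (chart q.s y)) x :=
    (hof ((contDiffAt_const.sub (hst _)).mul contDiffAt_const)).mul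
      (contDiff_sig.comp (contDiff_snd.comp contDiff_chart)).contDiffAt
  have he := contDiff_newEta.contDiffAt (x := x)
  have hd := contDiffAt_newDir hU
  have hd0 : newDir q x ≠ 0 := norm_pos_iff.1 (by linarith [norm_newDir_ge hq hU])
  have hE : ContDiffAt ℝ 1 (fun y => En q.l q.m (Complex.arg (newDir q y))) x :=
    (contDiffAt_comp_arg (En_periodic _ _) (contDiff_En _ _) hd0).comp x hd
  have hUat := (contDiff_U q).contDiffAt (x := x)
  have hph : ContDiffAt ℝ 1 (fun y => newPhase q (chart q.s y).1) x :=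
    (ContDiffAt.comp (f := fun y => (chart q.s y).1) x
      (contDiffAt_comp_arg (En_periodic q.l' q.M) (contDiff_En _ _) hU) hUat).mul
      (contDiff_expI.contDiffAt.comp x ((hst (80 / 100)).mul (ContDiffAt.comp
        (f := fun y => (chart q.s y).1) x
        (contDiffAt_comp_arg (dlt_periodic q) (contDiff_dlt q) hU) hUat)))
  have hmu : ContDiffAt ℝ 1 (fun y => newMu q ‖(chart q.s y).1‖) x :=
    (contDiffAt_const.mul (contDiff_rad.contDiffAt.comp x hp)).add (contDiffAt_const.mul (hst _))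
  refine ContDiffAt.prodMk ?_ ?_
  · exact ((hof (contDiffAt_const.sub (hst _))).mul (hcar.div_const _).cexp).add
      ((hof ((hst _).mul (((contDiffAt_const.sub he).mul contDiffAt_const).add
        (he.mul (contDiff_radNorm _ _).contDiffAt)))).mul hE)
  · exact ((hof (contDiffAt_const.sub he)).mul
      (((((hof hmu).mul hph).sub contDiffAt_const).add hcar).div_const _)).add
      ((hof he).mul (contDiff_sig.comp contDiff_snd).contDiffAt)

lemma contDiff_oldStep : ContDiff ℝ 1 (oldStep q) :=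
  (contDiff_gmap.comp contDiff_fst).prodMk (contDiff_sig.comp contDiff_snd)

section ledger

variable {E F : Type*} [NormedAddCommGroup E] [NormedSpace ℝ E]
  [NormedAddCommGroup F] [NormedSpace ℝ F] {f : E → ℝ} {g : E → ℂ} {x : E} {K L a b : ℝ}

lemma db_of_deriv {P : ℝ → F} (hd : Differentiable ℝ P) {t K : ℝ} (h : ‖deriv P t‖ ≤ K) :
    DB P t K := ⟨hd t, by rwa [← norm_deriv_eq_norm_fderiv]⟩

lemma db_clm (T : E →L[ℝ] F) (x : E) {K : ℝ} (h : ‖T‖ ≤ K) : DB T x K :=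
  ⟨T.differentiableAt, by rwa [T.fderiv]⟩

lemma db_norm {y : ℂ} (hy : y ≠ 0) : DB (fun z : ℂ => ‖z‖) y 1 :=
  ⟨(contDiffAt_norm ℝ hy (n := 1)).differentiableAt (by simp),
    by simpa using norm_fderiv_le_of_lipschitz ℝ lipschitzWith_one_norm (x₀ := y)⟩

lemma db_ofReal (hf : DB f x K) : DB (fun y => (f y : ℂ)) x K := by
  simpa [Function.comp_def] using
    (db_clm Complex.ofRealCLM (f x) Complex.ofRealCLM_norm.le).comp hf

lemma db_rmul (hf : DB f x K) (hg : DB g x L) (ha : |f x| ≤ a) (hb : ‖g x‖ ≤ b) :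
    DB (fun y => (f y : ℂ) * g y) x (a * L + K * b) := by
  simpa [Complex.real_smul] using hf.smul hg ha hb

lemma db_mulR {f₁ f₂ : E → ℝ} (hf : DB f₁ x K) (hg : DB f₂ x L) (ha : |f₁ x| ≤ a)
    (hb : |f₂ x| ≤ b) : DB (fun y => f₁ y * f₂ y) x (a * L + K * b) :=
  hf.smul hg ha (by rwa [Real.norm_eq_abs])

lemma db_one_sub (hf : DB f x K) : DB (fun y => 1 - f y) x K :=
  ((DB.const (1 : ℝ) x le_rfl).sub hf).mono (zero_add K).le

lemma db_divR (c : ℝ) (hc : 0 < c) (hg : DB g x L) : DB (fun y => g y / (c : ℂ)) x (L / c) := by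
  have e : (fun y => g y / (c : ℂ)) = fun y => ((c⁻¹ : ℝ) : ℂ) * g y := by
    funext y
    push_cast
    ring
  rw [e]
  refine (db_rmul (DB.const c⁻¹ x le_rfl) hg (abs_of_nonneg (inv_nonneg.2 hc.le)).le le_rfl).mono ?_
  rw [zero_mul, add_zero, inv_mul_eq_div]

lemma hasDerivAt_expI {φ : ℝ → ℝ} {t d : ℝ} (h : HasDerivAt φ d t) :
    HasDerivAt (fun u => Complex.exp ((φ u : ℂ) * Complex.I))
      (Complex.exp ((φ t : ℂ) * Complex.I) * ((d : ℂ) * Complex.I)) t :=
  (h.ofReal_comp.mul_const Complex.I).cexp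

lemma db_expI (hf : DB f x K) : DB (fun y => Complex.exp ((f y : ℂ) * Complex.I)) x K := by
  have h : DB (fun t : ℝ => Complex.exp ((t : ℂ) * Complex.I)) (f x) 1 := by
    refine db_of_deriv (contDiff_expI.differentiable (by simp)) ?_
    rw [(hasDerivAt_expI (φ := fun t => t) (hasDerivAt_id' (f x))).deriv, norm_mul,
      Complex.norm_exp_ofReal_mul_I]
    simp
  simpa [Function.comp_def] using h.comp hf

lemma db_cexp (hg : DB g x L) (hb : ‖Complex.exp (g x)‖ ≤ b) :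
    DB (fun y => Complex.exp (g y)) x (b * L) := by
  have h := hg.1.hasFDerivAt.cexp
  refine ⟨h.differentiableAt, ?_⟩
  rw [h.fderiv, norm_smul]
  exact mul_le_mul hb hg.2 (norm_nonneg _) ((norm_nonneg _).trans hb)

end ledger

lemma db_pstp {s a p : ℝ} (hs : 0 ≤ s) : DB (pstp s a) p (15 / 4 * s) := by
  have h : HasDerivAt (fun p => 25 * (p * s / 10 - a)) (5 / 2 * s) p :=
    ((((hasDerivAt_id' p).mul_const s).div_const 10).sub_const a).const_mul 25 |>.congr_deriv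
      (by ring)
  have h2 := ((contDiff_stp.differentiable (by simp)) _).hasDerivAt.comp p h
  refine db_of_deriv ((contDiff_stp.differentiable (by simp)).comp (by fun_prop)) ?_
  rw [h2.deriv, norm_mul,
    Real.norm_eq_abs, Real.norm_of_nonneg (by positivity : (0 : ℝ) ≤ 5 / 2 * s)]
  calc _ ≤ 3 / 2 * (5 / 2 * s) := mul_le_mul_of_nonneg_right (abs_deriv_stp _) (by positivity)
    _ = _ := by ring

lemma db_newEta (x : ℂ × ℂ) : DB newEta x (3 / 2) := by
  by_cases hu : x.1 = 0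
  · refine (DB.const (0 : ℝ) x (by norm_num)).congr ?_
    filter_upwards [continuous_fst.norm.continuousAt.eventually_lt continuousAt_const
      (show ‖x.1‖ < 80 by simp [hu])] with y hy
    exact newEta_of_le hy.le
  · have h1 : DB (fun y : ℂ × ℂ => ‖y.1‖ - 80) x 1 :=
      (((db_norm hu).comp (db_clm (ContinuousLinearMap.fst ℝ ℂ ℂ) x
        (ContinuousLinearMap.norm_fst_le ..))).sub (DB.const (80 : ℝ) x le_rfl)).mono (by norm_num)
    exact ((db_of_deriv (contDiff_stp.differentiable (by simp))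
      (abs_deriv_stp _)).comp h1).mono (by norm_num)

lemma db_radNorm {be s : ℝ} (hbe : 1 ≤ be) (hs : 0 ≤ s) (hs' : s ≤ 1 / 100) (x : ℂ × ℂ) :
    DB (fun y : ℂ × ℂ => rad be s ‖y.1‖) x (200 * be) := by
  by_cases hu : x.1 = 0
  · refine (DB.const (0 : ℝ) x (by positivity)).congr ?_
    filter_upwards [continuous_fst.norm.continuousAt.eventually_lt continuousAt_const
      (show ‖x.1‖ < 1 / 4 by simp [hu])] with y hy
    exact rad_eq_zero (norm_nonneg _) hy.le
  · have h1 : DB (fun y : ℂ × ℂ => ‖y.1‖) x 1 :=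
      ((db_norm hu).comp (db_clm (ContinuousLinearMap.fst ℝ ℂ ℂ) x
        (ContinuousLinearMap.norm_fst_le ..))).mono (by norm_num)
    have h2 : DB (rad be s) ‖x.1‖ (200 * be) :=
      db_of_deriv (contDiff_rad.differentiable (by simp))
        (abs_deriv_rad hbe hs hs' (norm_nonneg _))
    exact (DB.comp (f := fun y : ℂ × ℂ => ‖y.1‖) h2 h1).mono (mul_one _).le

lemma div_ofReal_norm {U : ℂ} (hU : U ≠ 0) : U / (‖U‖ : ℂ) = En 3 0 (Complex.arg U) := by
  rw [← exp_arg_div hU]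
  simp [En, phN]

lemma db_dir {x : ℂ} (hx : x ≠ 0) : DB (fun y : ℂ => y / (‖y‖ : ℂ)) x (1 / ‖x‖) := by
  refine ((db_comp_arg (En_periodic 3 0) ((contDiff_En 3 0).differentiable (by simp))
    (fun t => ?_) hx).congr ?_)
  · simpa using norm_deriv_En (l := 3) le_rfl (by norm_num) 0 t
  · filter_upwards [isOpen_ne.mem_nhds hx] with y hy
    exact div_ofReal_norm hy

lemma pow_budget (hq : q.Good) :
    q.l' ^ q.M ≤ q.l ^ q.M ∧ q.n' ^ q.M ≤ q.l ^ q.M ∧ (2 : ℝ) ^ q.M ≤ q.l ^ q.M ∧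
    1 ≤ q.l ^ q.M ∧ q.l ^ q.m ≤ q.n ^ q.m ∧ 1 ≤ q.n ^ q.m ∧
    q.l ^ q.M / q.l ^ (q.M - q.m) ≤ q.n ^ q.m ∧ q.l ^ q.M / q.n ^ (q.M - q.m) ≤ q.n ^ q.m := by
  obtain ⟨hl', hn', hl, hn, -, -, -, hlk, hnk⟩ := hq.bounds
  have h1 := hq.lt₁
  have h2 := hq.lt₂
  have hln := hq.lt₃.le
  have e : q.l ^ q.M = q.l ^ (q.M - q.m) * q.l ^ q.m := by
    rw [← pow_add, Nat.sub_add_cancel hq.le]
  have hm : q.l ^ q.m ≤ q.n ^ q.m := pow_le_pow_left₀ (by linarith) hln _
  have hk : q.l ^ (q.M - q.m) ≤ q.n ^ (q.M - q.m) := pow_le_pow_left₀ (by linarith) hln _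
  refine ⟨pow_le_pow_left₀ (by linarith) (by linarith) _, pow_le_pow_left₀ (by linarith) h2.le _,
    pow_le_pow_left₀ (by norm_num) (by linarith) _, one_le_pow₀ (by linarith), hm,
    one_le_pow₀ (by linarith), ?_, ?_⟩
  · rw [e, mul_div_cancel_left₀ _ hlk.ne']
    exact hm
  · rw [div_le_iff₀ hnk, e, mul_comm (q.n ^ q.m)]
    exact mul_le_mul hk hm (by positivity) hnk.le

lemma abs_dlt_le (hq : q.Good) (t : ℝ) : |dlt q t| ≤ 14 * q.l ^ q.M := by
  obtain ⟨-, -, hl, -, hlu, hl'u, -⟩ := hq.bounds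
  obtain ⟨-, -, h2, -⟩ := pow_budget hq
  have a1 := abs_le.1 (abs_phN_sub (l := q.l) (by linarith) hlu q.M (t + π))
  have a2 := abs_le.1 (abs_phN_sub (l := q.l') (by linarith [hq.three_lt]) hl'u q.M t)
  have hp : (2 : ℝ) ^ q.M * π ≤ 2 ^ q.M * 4 :=
    mul_le_mul_of_nonneg_left Real.pi_le_four (by positivity)
  have hp0 : 0 ≤ (2 : ℝ) ^ q.M * π := by positivity
  have : (1 : ℝ) ≤ 2 ^ q.M := one_le_pow₀ one_le_two
  rw [mul_add] at a1
  rw [dlt, abs_le]
  constructor <;> linarith [Real.pi_le_four, Real.pi_pos]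

lemma norm_deriv_dlt (hq : q.Good) (t : ℝ) : ‖deriv (dlt q) t‖ ≤ 2 * q.l ^ q.M := by
  obtain ⟨-, -, hl, -, hlu, hl'u, -⟩ := hq.bounds
  obtain ⟨h1, -⟩ := pow_budget hq
  have hd := fun l => (contDiff_phN l q.M).differentiable (by simp)
  have h : HasDerivAt (dlt q) (deriv (phN q.l q.M) (t + π) - deriv (phN q.l' q.M) t) t :=
    (((hd q.l (t + π)).hasDerivAt.comp_add_const t π).add_const π).sub (hd q.l' t).hasDerivAt
  rw [h.deriv, Real.norm_eq_abs]
  refine (abs_sub _ _).trans ?_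
  linarith [abs_deriv_phN hl hlu q.M (t + π), abs_deriv_phN hq.three_lt.le hl'u q.M t]

lemma db_U (hq : q.Good) (x : ℂ × ℂ) : DB (fun y => (chart q.s y).1) x (40 / q.s) :=
  ((db_clm (ContinuousLinearMap.fst ℝ ℂ ℂ) _ (ContinuousLinearMap.norm_fst_le ..)).comp
    (db_chart hq.s_pos x)).mono (one_mul _).le

lemma db_newDir (hq : q.Good) {x : ℂ × ℂ} (hU : 8 / q.s ≤ ‖(chart q.s x).1‖) :
    DB (newDir q) x 10 := by
  have hs := hq.s_pos
  have hp : 0 < ‖(chart q.s x).1‖ := lt_of_lt_of_le (by positivity) hU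
  have hU0 : (chart q.s x).1 ≠ 0 := norm_pos_iff.1 hp
  have he0 : DB (fun y => -(chart q.s y).1 / (‖(chart q.s y).1‖ : ℂ)) x 5 := by
    have h := ((DB.const (0 : ℂ) x le_rfl).sub (DB.comp (f := fun y => (chart q.s y).1) (db_dir hU0) (db_U hq x))).mono (L := 5) (by
      rw [zero_add, div_mul_div_comm, one_mul, div_le_iff₀ (by positivity)]
      rw [div_le_iff₀ hs] at hU
      nlinarith)
    simpa [Function.comp_def, neg_div] using h
  have hn : ∀ z : ℂ, z ≠ 0 → ‖z / (‖z‖ : ℂ)‖ = 1 := fun z hz => by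
    rw [div_ofReal_norm hz, norm_En]
  rcases lt_or_ge ‖x.1‖ 2 with c | c
  · refine (he0.congr ?_).mono (by norm_num)
    filter_upwards [continuous_fst.norm.continuousAt.eventually_lt continuousAt_const c] with y hy
    simp [newDir, newEta_of_le (by linarith : ‖y.1‖ ≤ 80)]
  have hu : x.1 ≠ 0 := norm_pos_iff.1 (by linarith)
  have hf : DB (fun y : ℂ × ℂ => y.1 / (‖y.1‖ : ℂ)) x 1 :=
    ((db_dir hu).comp (db_clm (ContinuousLinearMap.fst ℝ ℂ ℂ) x
      (ContinuousLinearMap.norm_fst_le ..))).mono (by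
        rw [mul_one, div_le_one (by linarith : (0 : ℝ) < ‖x.1‖)]; linarith)
  have he := stp_mem (‖x.1‖ - 80)
  change newEta x ∈ Set.Icc (0 : ℝ) 1 at he
  exact ((db_rmul (db_one_sub (db_newEta x)) he0 (a := 1) (b := 1)
    (abs_le.2 ⟨by linarith [he.2], by linarith [he.1]⟩) (by rw [neg_div, norm_neg, hn _ hU0])).add
    (db_rmul (db_newEta x) hf (a := 1) (b := 1)
      (abs_le.2 ⟨by linarith [he.1], he.2⟩) (hn _ hu).le)).mono (by norm_num)

/-- The ledger away from the inner zone. -/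
lemma db_newStep_generic (hq : q.Good) {x : ℂ × ℂ} (hU : 8 / q.s ≤ ‖(chart q.s x).1‖)
    (hx : ‖x.1‖ ≤ 82) : DB (newStep q) x (60000 * q.n ^ q.m) := by
  obtain ⟨hl'1, hn'1, hl, hn, hlu, hl'u, hs100, hlk, hnk⟩ := hq.bounds
  obtain ⟨hA1, hA2, -, hA, hm, hN, hK1, hK2⟩ := pow_budget hq
  have hs := hq.s_pos
  have hs' := hq.s_le
  set A := q.l ^ q.M with hAdef
  set N := q.n ^ q.m with hNdef
  have hp : 0 < ‖(chart q.s x).1‖ := lt_of_lt_of_le (by positivity) hU
  have hU0 : (chart q.s x).1 ≠ 0 := norm_pos_iff.1 hp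
  have hUd := db_U hq x
  have hpd : DB (fun y => ‖(chart q.s y).1‖) x (40 / q.s) :=
    (DB.comp (f := fun y => (chart q.s y).1) (db_norm hU0) hUd).mono (one_mul _).le
  have hst : ∀ a, DB (fun y => pstp q.s a ‖(chart q.s y).1‖) x 150 := fun a =>
    ((db_pstp hs.le).comp hpd).mono (by field_simp; norm_num)
  have hb : ∀ a, |pstp q.s a ‖(chart q.s x).1‖| ≤ 1 := fun a =>
    abs_le.2 ⟨by linarith [(pstp_mem q.s a ‖(chart q.s x).1‖).1], (pstp_mem _ _ _).2⟩
  have hb' : ∀ a, |1 - pstp q.s a ‖(chart q.s x).1‖| ≤ 1 := fun a =>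
    abs_le.2 ⟨by linarith [(pstp_mem q.s a ‖(chart q.s x).1‖).2],
      by linarith [(pstp_mem q.s a ‖(chart q.s x).1‖).1]⟩
  -- the carried coordinate
  have hfac : DB (fun y => (1 - pstp q.s (84 / 100) ‖(chart q.s y).1‖) * q.s) x (150 * q.s) :=
    (db_mulR (db_one_sub (hst _)) (DB.const q.s x le_rfl) (hb' _) (abs_of_pos hs).le).mono
      (by linarith)
  have hsig : DB (fun y => sig q.n' q.M (chart q.s y).2) x (800 * A / q.s) :=
    ((db_sig hn'1 _).comp (((db_clm (ContinuousLinearMap.snd ℝ ℂ ℂ) _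
      (ContinuousLinearMap.norm_snd_le ..)).comp (db_chart hs x)))).mono (by
        rw [show 20 * q.n' ^ q.M * (1 * (40 / q.s)) = 800 * q.n' ^ q.M / q.s by ring]
        gcongr)
  have hcar : DB (fun y => newCarry q (chart q.s y)) x (806 * A) :=
    (db_rmul hfac hsig (a := q.s) (by
      rw [abs_mul, abs_of_pos hs]; exact mul_le_of_le_one_left hs.le (hb' _))
      (norm_sig_le hn'1 _)).mono (by
        rw [mul_div_cancel₀ _ hs.ne']; linarith)
  -- first coordinate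
  have hexp : DB (fun y => Complex.exp (newCarry q (chart q.s y)
      / ((q.l ^ (q.M - q.m) : ℝ) : ℂ))) x (1612 * N) :=
    (db_cexp (db_divR _ hlk hcar) (norm_exp_carry hq _).2).mono (by
      rw [mul_div_assoc]; linarith)
  have hfst1 : DB (fun y => ((1 - pstp q.s (88 / 100) ‖(chart q.s y).1‖ : ℝ) : ℂ) *
      Complex.exp (newCarry q (chart q.s y) / ((q.l ^ (q.M - q.m) : ℝ) : ℂ))) x (1912 * N) :=
    (db_rmul (db_one_sub (hst _)) hexp (hb' _) (norm_exp_carry hq _).2).mono (by linarith)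
  have he := stp_mem (‖x.1‖ - 80)
  change newEta x ∈ Set.Icc (0 : ℝ) 1 at he
  have he1 : |newEta x| ≤ 1 := abs_le.2 ⟨by linarith [he.1], he.2⟩
  have he2 : |1 - newEta x| ≤ 1 := abs_le.2 ⟨by linarith [he.2], by linarith [he.1]⟩
  have hr := rad_old_le hq hx
  have hrd : DB (fun y : ℂ × ℂ => rad (q.l ^ q.m) q.s0 ‖y.1‖) x (200 * N) :=
    (db_radNorm (one_le_pow₀ (by linarith)) hq.s0_nonneg hq.s0_le x).mono (by linarith)
  have hcoef : DB (fun y => (1 - newEta y) * 160 + newEta y * rad (q.l ^ q.m) q.s0 ‖y.1‖) x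
      (932 * N) :=
    ((db_mulR (db_one_sub (db_newEta x)) (DB.const (160 : ℝ) x le_rfl) he2
      (by norm_num : |(160 : ℝ)| ≤ 160)).add
      (db_mulR (db_newEta x) hrd he1 (b := 328)
        (abs_le.2 ⟨by linarith [hr.1], hr.2⟩))).mono (by linarith)
  have hc := coef_mem hq hx
  have hc' : |(1 - newEta x) * 160 + newEta x * rad (q.l ^ q.m) q.s0 ‖x.1‖| ≤ 328 :=
    abs_le.2 ⟨by linarith [hc.1], hc.2⟩
  have hd := norm_newDir_ge hq hU0
  have hd0 : newDir q x ≠ 0 := norm_pos_iff.1 (by linarith)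
  have hE : DB (fun y => En q.l q.m (Complex.arg (newDir q y))) x (20 * N) :=
    ((db_comp_arg (En_periodic _ _) ((contDiff_En _ _).differentiable (by simp))
      (norm_deriv_En hl hlu q.m) hd0).comp (db_newDir hq hU)).mono (by
        rw [div_mul_eq_mul_div, div_le_iff₀ (by linarith : 0 < ‖newDir q x‖)]
        nlinarith [mul_le_mul_of_nonneg_left hd (by linarith : (0 : ℝ) ≤ 20 * N)])
  have hfst2 : DB (fun y => ((pstp q.s (92 / 100) ‖(chart q.s y).1‖ *
      ((1 - newEta y) * 160 + newEta y * rad (q.l ^ q.m) q.s0 ‖y.1‖) : ℝ) : ℂ) *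
      En q.l q.m (Complex.arg (newDir q y))) x (57000 * N) :=
    (db_rmul (db_mulR (hst _) hcoef (hb _) hc') hE (a := 328) (by
      rw [abs_mul]; exact (mul_le_of_le_one_left (abs_nonneg _) (hb _)).trans hc')
      (norm_En _ _ _).le).mono (by linarith)
  -- second coordinate
  have harg : ∀ {K : ℝ}, 0 ≤ K → K / ‖(chart q.s x).1‖ * (40 / q.s) ≤ 5 * K := by
    intro K hK
    rw [div_mul_div_comm, div_le_iff₀ (by positivity)]
    rw [div_le_iff₀ hs] at hU
    nlinarith [mul_le_mul_of_nonneg_left hU hK]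
  have hdl : DB (fun y => dlt q (Complex.arg (chart q.s y).1)) x (10 * A) :=
    (DB.comp (f := fun y => (chart q.s y).1) (db_comp_arg (dlt_periodic q)
      ((contDiff_dlt q).differentiable (by simp)) (norm_deriv_dlt hq) hU0) hUd).mono ((harg (by linarith)).trans (by linarith))
  have hEU : DB (fun y => En q.l' q.M (Complex.arg (chart q.s y).1)) x (5 * A) :=
    (DB.comp (f := fun y => (chart q.s y).1) (db_comp_arg (En_periodic _ _)
      ((contDiff_En _ _).differentiable (by simp))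
      (fun t => (norm_deriv_En hq.three_lt.le hl'u q.M t).trans hA1) hU0) hUd).mono
        (harg (by linarith))
  have hph : DB (fun y => newPhase q (chart q.s y).1) x (2115 * A) :=
    (hEU.mul (db_expI (db_mulR (hst (80 / 100)) hdl (hb _) (abs_dlt_le hq _)))
      (norm_En _ _ _).le (Complex.norm_exp_ofReal_mul_I _).le).mono (by linarith)
  have hradp : DB (fun y => rad (q.l' ^ q.M) q.s ‖(chart q.s y).1‖) x (8000 * A / q.s) :=
    (DB.comp (f := fun y => ‖(chart q.s y).1‖) (db_of_deriv (contDiff_rad.differentiable (by simp))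
      (abs_deriv_rad (one_le_pow₀ hl'1) hs.le hs100 hp.le)) hpd).mono (by
        rw [show 200 * q.l' ^ q.M * (40 / q.s) = 8000 * q.l' ^ q.M / q.s by ring]
        gcongr)
  have hmu : DB (fun y => newMu q ‖(chart q.s y).1‖) x (8900 * A) :=
    ((db_mulR (DB.const q.s x le_rfl) hradp (abs_of_pos hs).le le_rfl).add
      (db_mulR (DB.const (6 : ℝ) x le_rfl) (hst (84 / 100)) (by norm_num : |(6 : ℝ)| ≤ 6)
        (hb _))).mono (by rw [mul_div_cancel₀ _ hs.ne']; linarith)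
  have hm16 := newMu_mem hq hp.le
  have hend : DB (newEnd q) x (44000 * A) :=
    (((db_rmul hmu hph (a := 16) (abs_le.2 ⟨by linarith [hm16.1], hm16.2⟩)
      (norm_newPhase q _).le).sub (DB.const (q.s : ℂ) x le_rfl)).add hcar).mono (by linarith)
  have hendk : DB (fun y => newEnd q y / ((q.n ^ (q.M - q.m) : ℝ) : ℂ)) x (44000 * N) :=
    (db_divR _ hnk hend).mono (by rw [mul_div_assoc]; linarith)
  have hb17 : ‖newEnd q x / ((q.n ^ (q.M - q.m) : ℝ) : ℂ)‖ ≤ 17 := by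
    rw [norm_div, Complex.norm_real, Real.norm_of_nonneg hnk.le]
    exact (div_le_self (norm_nonneg _) (one_le_pow₀ (by linarith))).trans (norm_newEnd_le hq x)
  have hsn : DB (fun y : ℂ × ℂ => sig q.n q.m y.2) x (20 * N) :=
    ((db_sig (by linarith) _).comp (db_clm (ContinuousLinearMap.snd ℝ ℂ ℂ) x
      (ContinuousLinearMap.norm_snd_le ..))).mono (mul_one _).le
  have hsnd : DB (newSnd q) x (45000 * N) :=
    ((db_rmul (db_one_sub (db_newEta x)) hendk he2 hb17).add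
      (db_rmul (db_newEta x) hsn he1 (norm_sig_le (by linarith) _))).mono (by linarith)
  exact (hfst1.add hfst2).prodMk hsnd (by linarith) (by linarith)

/-- The derivative ledger of one step. -/
lemma exists_db_newStep : ∃ K : ℝ, 0 ≤ K ∧ ∀ q : StepPar, q.Good → ∀ x : ℂ × ℂ, ‖x.1‖ ≤ 82 →
    DB (newStep q) x (K * q.n ^ q.m) ∧ DB (oldStep q) x (K * q.n ^ q.m) := by
  refine ⟨60000, by norm_num, fun q hq x hx => ?_⟩
  obtain ⟨hl'1, hn'1, hl, hn, hlu, hl'u, hs100, hlk, -⟩ := hq.bounds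
  obtain ⟨hA1, hA2, -, hA, hm, hN, hK1, -⟩ := pow_budget hq
  have hs := hq.s_pos
  have hfst := db_clm (ContinuousLinearMap.fst ℝ ℂ ℂ)
  have hsnd := db_clm (ContinuousLinearMap.snd ℝ ℂ ℂ)
  refine ⟨?_, ?_⟩
  · rcases le_or_gt (8 / q.s) ‖(chart q.s x).1‖ with c | c
    · exact db_newStep_generic hq c hx
    refine DB.congr ?_ (newStep_eventually_inner hq c)
    have hg := (db_gmap (m := q.M) hq.three_lt.le hl'u hs.le hs100 _).comp (db_U hq x)
    have hsg := (db_sig (m := q.M) hn'1 _).comp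
      ((hsnd (chart q.s x) (ContinuousLinearMap.norm_snd_le ..)).comp (db_chart hs x))
    have hpair := hg.prodMk hsg (M := 12000 * q.l ^ q.M / q.s)
      (by rw [show 300 * q.l' ^ q.M * (40 / q.s) = 12000 * q.l' ^ q.M / q.s by ring]; gcongr)
      (by
        rw [show 20 * q.n' ^ q.M * (1 * (40 / q.s)) = 800 * q.n' ^ q.M / q.s by ring]
        gcongr
        norm_num)
    refine ((db_lift (by linarith) hq.lt₃.le hs hq.s_le (q.M - q.m)
      ((norm_sig_le hn'1 _).trans (by norm_num))).comp hpair).mono ?_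
    rw [show 3 * q.s / q.l ^ (q.M - q.m) * (12000 * q.l ^ q.M / q.s)
      = 36000 * (q.l ^ q.M / q.l ^ (q.M - q.m)) by field_simp; ring]
    linarith
  · exact ((db_gmap hl hlu hq.s0_nonneg hq.s0_le _).comp
      (hfst x (ContinuousLinearMap.norm_fst_le ..))).prodMk
      ((db_sig (by linarith) _).comp (hsnd x (ContinuousLinearMap.norm_snd_le ..)))
      (by linarith) (by linarith)

end

end Vale.Agent.P103S
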