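import Vale.Agent.P103S.TowerDefs

/-! P103: the invariants of the tower. -/

namespace Vale.Agent.P103S

noncomputable section

open Real Finset Function

variable {B : Base} {mmin : ℕ → ℕ} (Wd : Windows B mmin) (s : ℕ → ℝ)

section basic

lemma ScaleOK.nonneg {s : ℕ → ℝ} (hs : ScaleOK s) (j : ℕ) : 0 ≤ s j := by
  cases j with
  | zero => simp [hs.zero]
  | succ j => exact (hs.pos j).le

lemma ScaleOK.le' {s : ℕ → ℝ} (hs : ScaleOK s) (j : ℕ) : s j ≤ 1 / 100 := by
  cases j with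
  | zero => rw [hs.zero]; norm_num
  | succ j => linarith [hs.le j]

lemma orb_add {G : ℝ → ℂ × ℂ → ℂ × ℂ} (a b : ℕ) (z : ℝ) (x : ℂ × ℂ) :
    orb (B := B) G (a + b) z x = orb (B := B) G a (B.Ph^[b] z) (orb (B := B) G b z x) := by
  induction a with
  | zero => simp [orb]
  | succ a ih =>
    rw [Nat.succ_add]
    show G _ _ = G _ _
    rw [ih, Function.iterate_add_apply]

lemma orb_congr {G G' : ℝ → ℂ × ℂ → ℂ × ℂ} {n : ℕ} {z : ℝ}
    (h : ∀ t < n, ∀ y, G (B.Ph^[t] z) y = G' (B.Ph^[t] z) y) (x : ℂ × ℂ) :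
    orb (B := B) G n z x = orb (B := B) G' n z x := by
  induction n with
  | zero => rfl
  | succ n ih =>
    show G _ _ = G' _ _
    rw [ih fun t ht => h t (ht.trans (Nat.lt_succ_self n)), h n (Nat.lt_succ_self n)]

lemma coord_succ (j : ℕ) (x : ℂ × ℂ) : coord s (j + 1) x = chart (s (j + 1)) (coord s j x) := rfl

lemma m_mono (j : ℕ) : Wd.m j ≤ Wd.m (j + 1) := by
  obtain ⟨k, -, hk⟩ := Wd.entry (j + 2) 0
  set z := B.Ph^[k] 0
  have h1 := Wd.period_first (j := j + 1) (z := z) (by rw [hk]; exact one_ne_zero)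
  exact Wd.m_le_of_period h1

lemma par_good {j M : ℕ} (hs : ScaleOK s) (hM : Wd.m j ≤ M) : (par Wd s j M).Good where
  three_lt := three_lt_lam _
  lt₁ := lam_lt_nu _
  lt₂ := nu_succ_lt_lam _
  lt₃ := lam_lt_nu _
  le_max := nu_le _
  s0_nonneg := hs.nonneg j
  s0_le := hs.le' j
  s_pos := hs.pos j
  s_le := hs.le j
  one_le := Wd.one_le_m j
  le := hM

lemma one_le_lam (j : ℕ) : 1 ≤ lam j := by linarith [three_lt_lam j]

lemma one_le_nu (j : ℕ) : 1 ≤ nu j := by linarith [three_lt_nu j]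

end basic

variable {s}

section support

lemma coord_small {j : ℕ} (hs : ScaleOK s) {x : ℂ × ℂ}
    (h : ‖(coord s (j + 1) x).1‖ ≤ 10 / s (j + 1)) : ‖(coord s j x).1‖ ≤ 71 := by
  have := chart_fst_small (a := 10) (hs.pos j) (hs.le j) h
  linarith

lemma coord_large {j : ℕ} (hs : ScaleOK s) {x : ℂ × ℂ} (h : 80 ≤ ‖(coord s j x).1‖) :
    19 / s (j + 1) ≤ ‖(coord s (j + 1) x).1‖ :=
  chart_fst_large (hs.pos j) (hs.le j) h

lemma big_div {j : ℕ} (hs : ScaleOK s) {c : ℝ} (hc : 1 ≤ c) : 1000 ≤ c / s (j + 1) := by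
  rw [le_div_iff₀ (hs.pos j)]
  nlinarith [hs.le j, hs.pos j]

lemma coord_large_le {i j : ℕ} (hs : ScaleOK s) (hij : i ≤ j) {x : ℂ × ℂ}
    (h : 81 ≤ ‖(coord s i x).1‖) : 81 ≤ ‖(coord s j x).1‖ := by
  induction hij with
  | refl => exact h
  | @step k _ ih =>
    have h1 := coord_large (j := k) hs (le_trans (by norm_num) ih)
    linarith [big_div hs (c := 19) (by norm_num) (j := k)]

lemma corr_eq_zero_of_w {j : ℕ} {z : ℝ} {x : ℂ × ℂ} (h : Wd.w (j + 1) z = 0) :
    corr Wd s j (z, x) = 0 := by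
  simp [corr, yMix, Wd.ret_eq_zero_of_window (j + 1) _ h]

lemma corr_eq_zero_of_large {j : ℕ} (hs : ScaleOK s) {z : ℝ} {x : ℂ × ℂ}
    (h : 81 ≤ ‖(coord s j x).1‖) : corr Wd s j (z, x) = 0 := by
  have hsum : ∑ M ∈ Finset.Icc 1 (Wd.Mx (j + 1)), Wd.ret (j + 1) M z •
      (newStep (par Wd s j M) (coord s j x) - yOld Wd s j (coord s j x)) = 0 := by
    refine Finset.sum_eq_zero fun M hM => ?_
    rcases eq_or_ne (Wd.ret (j + 1) M z) 0 with h0 | h0
    · simp [h0]
    · have hm := (Wd.ret_ne_zero (Finset.mem_Icc.1 hM).1 h0).2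
      rw [newStep_eq_old (par_good Wd s hs hm) h]
      simp [oldStep, yOld, par]
  simp only [corr, yMix, hsum, add_zero, sub_self]

lemma w_succ_zero {j : ℕ} {z : ℝ} (h : Wd.w j z ≠ 1) : Wd.w (j + 1) z = 0 :=
  by_contra fun hne => h (Wd.nested j z hne).2.1

lemma w_eq_zero_of_le {i j : ℕ} (hij : i ≤ j) {z : ℝ} (h : Wd.w i z = 0) : Wd.w j z = 0 := by
  induction hij with
  | refl => exact h
  | step _ ih => exact w_succ_zero Wd (by rw [ih]; exact zero_ne_one)

/-- Finer corrections vanish away from the window. -/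
lemma Gfin_eq_of_w {J : ℕ} {z : ℝ} (h : Wd.w (J + 1) z = 0) (x : ℂ × ℂ) :
    Gfin Wd s z x = Gtr Wd s J z x := by
  rw [Gfin, Gtr, tsum_eq_sum]
  intro i hi
  exact corr_eq_zero_of_w Wd (w_eq_zero_of_le Wd
    (by simpa using Nat.succ_le_succ (le_of_not_gt (fun hlt => hi (Finset.mem_range.2 hlt)))) h)

/-- Finer corrections vanish outside of the core. -/
lemma Gfin_eq_of_large {J : ℕ} (hs : ScaleOK s) {z : ℝ} {x : ℂ × ℂ}
    (h : 81 ≤ ‖(coord s J x).1‖) : Gfin Wd s z x = Gtr Wd s J z x := by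
  rw [Gfin, Gtr, tsum_eq_sum]
  intro i hi
  exact corr_eq_zero_of_large Wd hs
    (coord_large_le hs (le_of_not_gt (fun hlt => hi (Finset.mem_range.2 hlt))) h)

lemma Gtr_succ (j : ℕ) (z : ℝ) (x : ℂ × ℂ) :
    Gtr Wd s (j + 1) z x = Gtr Wd s j z x + corr Wd s j (z, x) := by
  simp [Gtr, Finset.sum_range_succ, add_assoc]

lemma Gtr_succ_of_w {j : ℕ} {z : ℝ} (h : Wd.w (j + 1) z = 0) (x : ℂ × ℂ) :
    Gtr Wd s (j + 1) z x = Gtr Wd s j z x := by
  rw [Gtr_succ, corr_eq_zero_of_w Wd h, add_zero]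

lemma Gtr_succ_of_large {j : ℕ} (hs : ScaleOK s) {z : ℝ} {x : ℂ × ℂ}
    (h : 81 ≤ ‖(coord s j x).1‖) : Gtr Wd s (j + 1) z x = Gtr Wd s j z x := by
  rw [Gtr_succ, corr_eq_zero_of_large Wd hs h, add_zero]

end support

section exact

lemma period_zero {M : ℕ} {z : ℝ} (h : Wd.Period 0 M z) : M = 1 := by
  obtain ⟨hM, -, -, hz, -⟩ := h
  by_contra hne
  have := hz 1 one_pos (by omega)
  rw [Wd.w_zero] at this
  exact one_ne_zero this

lemma Lseg_first (hs : ScaleOK s) (j : ℕ) (Y : ℂ × ℂ) :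
    Lseg s Wd.m j (Wd.m j) Y = Lft s Wd.m j Y := by
  cases j <;> rfl

lemma F0_small {x : ℂ × ℂ} (h : ‖x.1‖ ≤ 100) :
    F0 x = (gmap (lam 0) 0 1 x.1, sig (nu 0) 1 x.2) := by
  have hb : bBig ‖x.1‖ = 0 := stp_of_le (by linarith)
  simp [F0, f0u, hb, gmap, En, phN, ph]

/-- The truncated map on a good window is the lifted product map. -/
theorem window_formula (hs : ScaleOK s) : ∀ (j M : ℕ) (z : ℝ) (x : ℂ × ℂ), Wd.Period j M z →
    ‖(coord s j x).1‖ ≤ dom s j →
    Gtr Wd s j z x = Lseg s Wd.m j M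
      (gmap (lam j) (s j) M (coord s j x).1, sig (nu j) M (coord s j x).2)
  | 0, M, z, x, hp, hx => by
    rw [period_zero Wd hp, hs.zero]
    simp [Gtr, Lseg, coord, F0_small (x := x) hx]
  | j + 1, M, z, x, hp, hx => by
    have hm := Wd.m_le_of_period hp
    have hq := par_good Wd s hs hm
    have hf := Wd.period_first (j := j) (z := z) (by rw [hp.2.1]; exact one_ne_zero)
    have hU : ‖(coord s (j + 1) x).1‖ ≤ 10 / s (j + 1) :=
      hx.trans (by show 8 / s (j + 1) ≤ _; gcongr; exacts [(hs.pos j).le, by norm_num])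
    have hsm := coord_small hs hU
    have hd : ‖(coord s j x).1‖ ≤ dom s j := by
      cases j with
      | zero => show _ ≤ (100 : ℝ); linarith
      | succ j => show _ ≤ 8 / s (j + 1); linarith [big_div hs (c := 8) (by norm_num) (j := j)]
    have ih := window_formula hs j (Wd.m j) z x hf hd
    obtain ⟨hMx, hret⟩ := Wd.ret_of_period hp
    have hy : yMix Wd s j z (coord s j x) = newStep (par Wd s j M) (coord s j x) := by
      rw [yMix, Finset.sum_eq_single M]
      · rw [hret M hp.1, if_pos rfl, one_smul, add_sub_cancel]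
      · intro N hN hNM
        rw [hret N (Finset.mem_Icc.1 hN).1, if_neg hNM, zero_smul]
      · intro hN
        exact absurd (Finset.mem_Icc.2 ⟨hp.1, hMx⟩) hN
    rw [Gtr_succ, ih, Lseg_first Wd hs]
    show Lft s Wd.m j (yOld Wd s j (coord s j x)) + _ = _
    rw [corr, hy, newStep_inner hq (by exact hx), add_sub_cancel]
    rfl

end exact

section shadow

/-- The box of level `j` (no condition at level zero). -/
def BoxL (s : ℕ → ℝ) (j : ℕ) (Y : ℂ × ℂ) : Prop := j = 0 ∨ Y ∈ box (s j)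

lemma boxL_lift (hs : ScaleOK s) {j k : ℕ} {Y : ℂ × ℂ} (hY : Y ∈ box (s (j + 1))) :
    BoxL s j (lift (lam j) (nu j) (s (j + 1)) k Y) := by
  cases j with
  | zero => exact Or.inl rfl
  | succ j =>
    exact Or.inr (lift_mem_box (one_le_lam _) (one_le_nu _) (hs.pos _) (hs.le _) (hs.pos _)
      (hs.le' _) k hY)

lemma boxL_prod (hs : ScaleOK s) (j M : ℕ) (u v : ℂ) :
    BoxL s j (gmap (lam j) (s j) M u, sig (nu j) M v) := by
  cases j with
  | zero => exact Or.inl rfl
  | succ j =>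
    refine Or.inr ⟨?_, (norm_sig_le (one_le_nu _) v).trans (by norm_num)⟩
    rw [norm_gmap (hs.nonneg _)]
    exact rad_le_cap (hs.pos _) (hs.le' _) (norm_nonneg _)

lemma ctr_nonneg (hs : ScaleOK s) (j : ℕ) : 0 ≤ ctr s j :=
  Finset.prod_nonneg fun i _ => mul_nonneg (by norm_num) (hs.pos i).le

/-- One good coarse period maps lifted states to lifted states. -/
lemma lift_advance (hs : ScaleOK s) {j k d : ℕ} (hd : d ≤ k) {Y : ℂ × ℂ}
    (hY : Y ∈ box (s (j + 1))) :
    gmap (lam j) (s j) d (lift (lam j) (nu j) (s (j + 1)) k Y).1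
      = (lift (lam j) (nu j) (s (j + 1)) (k - d) Y).1 ∧
    sig (nu j) d (lift (lam j) (nu j) (s (j + 1)) k Y).2
      = (lift (lam j) (nu j) (s (j + 1)) (k - d) Y).2 ∧
    ‖(lift (lam j) (nu j) (s (j + 1)) k Y).1‖ ≤ dom s j := by
  have hl := one_le_lam j
  have hn := one_le_nu j
  have hpos := hs.pos j
  have hle := hs.le j
  obtain ⟨hY1, hY2⟩ := hY
  have hsY : s (j + 1) * ‖Y.2‖ ≤ cz := by
    unfold cz
    nlinarith [norm_nonneg Y.2]
  have hnorm : ‖(s (j + 1) : ℂ) * Y.2‖ = s (j + 1) * ‖Y.2‖ := by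
    rw [norm_mul, Complex.norm_real, Real.norm_of_nonneg hpos.le]
  have hlk : (0:ℝ) < lam j ^ k := by positivity
  have hnk : (0:ℝ) < nu j ^ k := pow_pos (by linarith) k
  have hw : ‖(s (j + 1) : ℂ) * Y.2 / ((lam j ^ k : ℝ) : ℂ)‖ = s (j + 1) * ‖Y.2‖ / lam j ^ k := by
    rw [norm_div, hnorm, Complex.norm_real, Real.norm_of_nonneg hlk.le]
  have hk : lam j ^ k = lam j ^ d * lam j ^ (k - d) := by rw [← pow_add, Nat.add_sub_cancel' hd]
  have hk' : nu j ^ k = nu j ^ d * nu j ^ (k - d) := by rw [← pow_add, Nat.add_sub_cancel' hd]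
  refine ⟨?_, ?_, ?_⟩
  · show gmap _ _ d (Complex.exp _) = Complex.exp _
    rw [gmap_exp hl]
    · congr 1
      rw [hk, Complex.ofReal_mul]
      have h1 : ((lam j ^ d : ℝ) : ℂ) ≠ 0 := Complex.ofReal_ne_zero.2 (by positivity)
      field_simp
    · rw [hw, mul_div_assoc', div_le_iff₀ hlk]
      calc lam j ^ d * (s (j + 1) * ‖Y.2‖) ≤ lam j ^ k * cz := by
            gcongr
        _ = cz * lam j ^ k := mul_comm _ _
  · show sig _ d (_ / _) = _ / _
    have hv : ‖(s (j + 1) : ℂ) * (Y.1 - 1) + (s (j + 1) : ℂ) * Y.2‖ ≤ 20 := by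
      refine (norm_add_le _ _).trans ?_
      rw [hnorm, norm_mul, Complex.norm_real, Real.norm_of_nonneg hpos.le]
      have h1 : ‖Y.1 - 1‖ ≤ 10 / s (j + 1) + 1 := by
        refine (norm_sub_le _ _).trans ?_
        simpa using hY1
      have h2 : s (j + 1) * ‖Y.1 - 1‖ ≤ 10 + s (j + 1) := by
        calc s (j + 1) * ‖Y.1 - 1‖ ≤ s (j + 1) * (10 / s (j + 1) + 1) := by gcongr
          _ = 10 + s (j + 1) := by field_simp
      unfold cz at hsY
      linarith
    rw [sig_eq (by linarith)]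
    · rw [hk', Complex.ofReal_mul]
      have h1 : ((nu j ^ d : ℝ) : ℂ) ≠ 0 := Complex.ofReal_ne_zero.2 (by positivity)
      field_simp
    · rw [norm_div, Complex.norm_real, Real.norm_of_nonneg hnk.le, mul_div_assoc',
        div_le_iff₀ hnk]
      calc nu j ^ d * ‖_‖ ≤ nu j ^ k * 20 := by gcongr
        _ = 20 * nu j ^ k := mul_comm _ _
  · show ‖Complex.exp _‖ ≤ _
    rw [Complex.norm_exp]
    have h1 : ((s (j + 1) : ℂ) * Y.2 / ((lam j ^ k : ℝ) : ℂ)).re ≤ 1 := by
      refine ((Complex.re_le_norm _).trans_eq hw).trans ?_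
      rw [div_le_iff₀ hlk]
      unfold cz at hsY
      nlinarith [one_le_pow₀ hl (n := k)]
    have h2 : Real.exp ((s (j + 1) : ℂ) * Y.2 / ((lam j ^ k : ℝ) : ℂ)).re ≤ 3 :=
      (Real.exp_le_exp.2 h1).trans (Real.exp_one_lt_three).le
    cases j with
    | zero => show _ ≤ (100:ℝ); linarith
    | succ j => show _ ≤ 8 / s (j + 1); linarith [big_div hs (c := 8) (by norm_num) (j := j)]

/-- States of the box shadow the centre and return exactly. -/
theorem shadow (hs : ScaleOK s) : ∀ (j M : ℕ) (z : ℝ) (Y : ℂ × ℂ), Wd.Period j M z →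
    BoxL s j Y →
    coord s j (orb (B := B) (Gtr Wd s j) (M - 1) (B.Ph z) (Lseg s Wd.m j M Y)) = Y ∧
    ∀ t < M, ‖orb (B := B) (Gtr Wd s j) t (B.Ph z) (Lseg s Wd.m j M Y) - (1, 0)‖
      ≤ ctr s j * ‖Y - (1, 0)‖
  | 0, M, z, Y, hp, _ => by
    obtain rfl := period_zero Wd hp
    refine ⟨rfl, fun t ht => ?_⟩
    obtain rfl : t = 0 := by omega
    simp [orb, Lseg, ctr]
  | j + 1, M, z, Y, hp, hY => by
    have hY : Y ∈ box (s (j + 1)) := hY.resolve_left (Nat.succ_ne_zero j)
    have hm := Wd.m_le_of_period hp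
    obtain ⟨hfirst, hsplit⟩ := Wd.period_split hp
    have hmpos := Wd.one_le_m j
    set lf := fun k => lift (lam j) (nu j) (s (j + 1)) k Y with hlf
    set G := Gtr Wd s (j + 1) with hG
    set y := Lseg s Wd.m (j + 1) M Y with hy
    have hagree : ∀ t, t + 1 < M → ∀ w, G (B.Ph^[t] (B.Ph z)) w
        = Gtr Wd s j (B.Ph^[t] (B.Ph z)) w := by
      intro t ht w
      rw [← Function.iterate_succ_apply]
      exact Gtr_succ_of_w Wd (hp.2.2.2.1 (t + 1) t.succ_pos ht) w
    have hbase : coord s j (orb (B := B) G (Wd.m j - 1) (B.Ph z) y) = lf (M - Wd.m j) ∧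
        ∀ t < Wd.m j, ‖orb (B := B) G t (B.Ph z) y - (1, 0)‖
          ≤ ctr s (j + 1) * ‖Y - (1, 0)‖ := by
      have ih := shadow hs j (Wd.m j) z (lf (M - Wd.m j)) hfirst (boxL_lift hs hY)
      rw [Lseg_first Wd hs] at ih
      have he : ∀ t < Wd.m j, orb (B := B) G t (B.Ph z) y
          = orb (B := B) (Gtr Wd s j) t (B.Ph z) y :=
        fun t ht => orb_congr (fun r hr => hagree r (by omega)) _
      refine ⟨by rw [he _ (by omega)]; exact ih.1, fun t ht => ?_⟩
      rw [he t ht]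
      refine (ih.2 t ht).trans ?_
      rw [ctr, ctr, Finset.prod_range_succ, mul_assoc]
      exact mul_le_mul_of_nonneg_left (norm_lift_sub_le (one_le_lam _) (lam_lt_nu _).le
        (hs.pos j) (hs.le j) _ hY) (ctr_nonneg hs j)
    have main : ∀ r T, M - T = r → Wd.m j ≤ T → T ≤ M → Wd.w j (B.Ph^[T] z) = 1 →
        coord s j (orb (B := B) G (T - 1) (B.Ph z) y) = lf (M - T) →
        (∀ t < T, ‖orb (B := B) G t (B.Ph z) y - (1, 0)‖ ≤ ctr s (j + 1) * ‖Y - (1, 0)‖) →
        coord s (j + 1) (orb (B := B) G (M - 1) (B.Ph z) y) = Y ∧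
        ∀ t < M, ‖orb (B := B) G t (B.Ph z) y - (1, 0)‖ ≤ ctr s (j + 1) * ‖Y - (1, 0)‖ := by
      intro r
      induction r using Nat.strong_induction_on with
      | _ r ihr =>
        intro T hr hmT hTM hwT hco hnear
        rcases eq_or_lt_of_le hTM with rfl | hlt
        · refine ⟨?_, hnear⟩
          rw [coord_succ, hco, Nat.sub_self]
          exact chart_lift_zero (hs.pos j) (hs.le j) hY
        obtain ⟨d, hd, hpd⟩ := hsplit T hlt hwT
        have hdpos := hpd.1
        obtain ⟨hadv1, hadv2, hadv3⟩ := lift_advance hs (k := M - T) (d := d) (by omega) hY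
        have hT1 : B.Ph^[T - 1] (B.Ph z) = B.Ph^[T] z := by
          rw [← Function.iterate_succ_apply]; congr 1; omega
        have hnext : orb (B := B) G T (B.Ph z) y = Lseg s Wd.m j d (lf (M - T - d)) := by
          obtain ⟨T', rfl⟩ : ∃ T', T = T' + 1 := ⟨T - 1, by omega⟩
          simp only [Nat.add_sub_cancel] at hco hT1
          show G (B.Ph^[T'] (B.Ph z)) _ = _
          rw [hagree T' hlt, hT1, window_formula Wd hs j d _ _ hpd (by rw [hco]; exact hadv3),
            hco]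
          simp only [hlf]
          rw [hadv1, hadv2]
        have ih := shadow hs j d (B.Ph^[T] z) (lf (M - T - d)) hpd (boxL_lift hs hY)
        have he : ∀ t < d, orb (B := B) G (t + T) (B.Ph z) y = orb (B := B) (Gtr Wd s j) t
            (B.Ph (B.Ph^[T] z)) (Lseg s Wd.m j d (lf (M - T - d))) := by
          intro t ht
          rw [orb_add, hnext, ← Function.iterate_succ_apply, Function.iterate_succ_apply']
          refine orb_congr (fun r' hr' w => ?_) _
          have := hagree (r' + T) (by omega) w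
          rwa [Function.iterate_add_apply, ← Function.iterate_succ_apply (f := B.Ph),
            Function.iterate_succ_apply'] at this
        refine ihr (M - (T + d)) (by omega) (T + d) rfl (by omega) hd ?_ ?_ ?_
        · rw [Nat.add_comm, Function.iterate_add_apply]; exact hpd.2.2.1
        · rw [show T + d - 1 = (d - 1) + T by omega, he _ (by omega), ih.1]
          congr 1; omega
        · intro t ht
          rcases lt_or_ge t T with h | h
          · exact hnear t h
          obtain ⟨t', rfl⟩ : ∃ t', t = t' + T := ⟨t - T, by omega⟩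
          rw [he t' (by omega)]
          refine (ih.2 t' (by omega)).trans ?_
          rw [ctr, ctr, Finset.prod_range_succ, mul_assoc]
          exact mul_le_mul_of_nonneg_left (norm_lift_sub_le (one_le_lam _) (lam_lt_nu _).le
            (hs.pos j) (hs.le j) _ hY) (ctr_nonneg hs j)
    exact main _ (Wd.m j) rfl le_rfl hm hfirst.2.2.1 hbase.1 hbase.2

/-- Exactness of the return map on the core. -/
theorem return_exact (hs : ScaleOK s) {j M : ℕ} {z : ℝ} {x : ℂ × ℂ} (hp : Wd.Period j M z)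
    (hx : ‖(coord s j x).1‖ ≤ dom s j) :
    coord s j (orb (B := B) (Gtr Wd s j) M z x)
      = (gmap (lam j) (s j) M (coord s j x).1, sig (nu j) M (coord s j x).2) := by
  obtain ⟨M', rfl⟩ : ∃ M', M = M' + 1 := ⟨M - 1, by have := hp.1; omega⟩
  rw [orb_add]
  have h1 := (shadow Wd hs j (M' + 1) z _ hp
    (boxL_prod hs j (M' + 1) (coord s j x).1 (coord s j x).2)).1
  simpa [orb, window_formula Wd hs j (M' + 1) z x hp hx] using h1

end shadow

end

end Vale.Agent.P103S
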