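import Vale.Agent.P103S.Base

/-! P103: nested windows of the base with smooth weights. -/

namespace Vale.Agent.P103S

noncomputable section

open Function Finset Filter Topology

/-- Nested windows. `w j` is the weight of the window of level `j`, `m j` the first return time
of the distinguished segment, `Mx j` a bound on all return times. -/
structure Windows (B : Base) (mmin : ℕ → ℕ) where
  /-- Weights. -/
  w : ℕ → ℝ → ℝ
  /-- Return time of the distinguished segment. -/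
  m : ℕ → ℕ
  /-- Bound on return times. -/
  Mx : ℕ → ℕ
  m_zero : m 0 = 1
  Mx_zero : Mx 0 = 1
  w_zero : ∀ z, w 0 z = 1
  periodic : ∀ j, Periodic (w j) 1
  smooth : ∀ j, ContDiff ℝ 1 (w j)
  mem : ∀ j z, w j z ∈ Set.Icc (0 : ℝ) 1
  mmin_le : ∀ j, mmin (j + 1) ≤ m (j + 1)
  nested : ∀ j z, w (j + 1) z ≠ 0 →
    (∀ t ≤ m j, ∀ i ≤ j, w i (B.Ph^[t] z) = 0 ∨ w i (B.Ph^[t] z) = 1) ∧
    w j z = 1 ∧ w j (B.Ph^[m j] z) = 1 ∧ 0 < m j ∧
    (∀ t, 0 < t → t < m j → w j (B.Ph^[t] z) = 0)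
  entry : ∀ j z, ∃ k < Mx j, w j (B.Ph^[k] z) = 1
  bad_le : ∀ i z, ∃ E : Finset ℕ, E.card ≤ 2 ∧
    ∀ t, t ∉ E → w i (B.Ph^[t] z) = 0 ∨ w i (B.Ph^[t] z) = 1

section Construction

open Real (smoothTransition)

/-- A bump which is one on `[qa, pb]` and zero outside `[pa, qb]`. -/
def bump (pa qa pb qb z : ℝ) : ℝ :=
  smoothTransition ((z - pa) / (qa - pa)) - smoothTransition ((z - pb) / (qb - pb))

section Bump

variable {pa qa pb qb : ℝ}

lemma bump_mem (ha : pa < qa) (hm : qa ≤ pb) (hb : pb < qb) (z : ℝ) :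
    bump pa qa pb qb z ∈ Set.Icc (0 : ℝ) 1 := by
  unfold bump
  rcases le_total z pb with h | h
  · rw [Real.smoothTransition.zero_of_nonpos (x := (z - pb) / (qb - pb))
      (div_nonpos_of_nonpos_of_nonneg (by linarith) (by linarith)), sub_zero]
    exact ⟨Real.smoothTransition.nonneg _, Real.smoothTransition.le_one _⟩
  · rw [Real.smoothTransition.one_of_one_le (x := (z - pa) / (qa - pa))
      ((one_le_div (by linarith)).2 (by linarith))]
    constructor <;> linarith [Real.smoothTransition.nonneg ((z - pb) / (qb - pb)),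
      Real.smoothTransition.le_one ((z - pb) / (qb - pb))]

lemma bump_left (ha : pa < qa) (hm : qa ≤ pb) (hb : pb < qb) {z : ℝ} (hz : z ≤ pa) :
    bump pa qa pb qb z = 0 := by
  rw [bump, Real.smoothTransition.zero_of_nonpos
      (div_nonpos_of_nonpos_of_nonneg (by linarith) (by linarith)),
    Real.smoothTransition.zero_of_nonpos
      (div_nonpos_of_nonpos_of_nonneg (by linarith) (by linarith)), sub_zero]

lemma bump_right (ha : pa < qa) (hm : qa ≤ pb) (hb : pb < qb) {z : ℝ} (hz : qb ≤ z) :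
    bump pa qa pb qb z = 0 := by
  rw [bump, Real.smoothTransition.one_of_one_le ((one_le_div (by linarith)).2 (by linarith)),
    Real.smoothTransition.one_of_one_le ((one_le_div (by linarith)).2 (by linarith)), sub_self]

lemma bump_middle (ha : pa < qa) (hb : pb < qb) {z : ℝ} (hz : z ∈ Set.Icc qa pb) :
    bump pa qa pb qb z = 1 := by
  rw [bump, Real.smoothTransition.one_of_one_le
      ((one_le_div (by linarith)).2 (by linarith [hz.1])),
    Real.smoothTransition.zero_of_nonpos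
      (div_nonpos_of_nonpos_of_nonneg (by linarith [hz.2]) (by linarith)), sub_zero]

lemma contDiff_bump : ContDiff ℝ 1 (bump pa qa pb qb) :=
  (Real.smoothTransition.contDiff.comp ((contDiff_id.sub contDiff_const).div_const _)).sub
    (Real.smoothTransition.contDiff.comp ((contDiff_id.sub contDiff_const).div_const _))

/-- The periodic bump. -/
def bumpPer (pa qa pb qb z : ℝ) : ℝ := bump pa qa pb qb (pa + Int.fract (z - pa))

lemma bumpPer_eq (ha : pa < qa) (hm : qa ≤ pb) (hb : pb < qb) (hlen : qb ≤ pa + 1) (n : ℤ)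
    {z : ℝ} (hz : z - n ∈ Set.Icc (qb - 1) (pa + 1)) :
    bumpPer pa qa pb qb z = bump pa qa pb qb (z - n) := by
  obtain ⟨h1, h2⟩ := hz
  by_cases h : z - n < pa
  · rw [bump_left ha hm hb h.le]
    have hf : ⌊z - pa⌋ = n - 1 :=
      Int.floor_eq_iff.2 ⟨by push_cast; linarith, by push_cast; linarith⟩
    rw [bumpPer, Int.fract, hf]
    exact bump_right ha hm hb (by push_cast; linarith)
  · rcases h2.eq_or_lt with h' | h'
    · rw [h', bump_right ha hm hb hlen]
      have hf : ⌊z - pa⌋ = n + 1 :=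
        Int.floor_eq_iff.2 ⟨by push_cast; linarith, by push_cast; linarith⟩
      rw [bumpPer, Int.fract, hf]
      exact bump_left ha hm hb (by push_cast; linarith)
    · have hf : ⌊z - pa⌋ = n := Int.floor_eq_iff.2 ⟨by linarith, by linarith⟩
      rw [bumpPer, Int.fract, hf]
      congr 1
      ring

lemma bumpPer_periodic : Periodic (bumpPer pa qa pb qb) 1 := by
  intro z
  unfold bumpPer
  rw [show z + 1 - pa = z - pa + 1 by ring, Int.fract_add_one]

lemma contDiff_bumpPer (ha : pa < qa) (hm : qa ≤ pb) (hb : pb < qb) (hlen : qb < pa + 1) :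
    ContDiff ℝ 1 (bumpPer pa qa pb qb) := by
  rw [contDiff_iff_contDiffAt]
  intro z
  set n : ℤ := ⌈z - pa - 1⌉ with hn
  by_cases hz : z - n = pa + 1
  · have hs : ContDiff ℝ 1 fun y : ℝ => bump pa qa pb qb (y - ((n + 1 : ℤ) : ℝ)) :=
      contDiff_bump.comp (contDiff_id.sub contDiff_const)
    refine hs.contDiffAt.congr_of_eventuallyEq ?_
    filter_upwards [Ioo_mem_nhds (a := qb - 1 + ((n + 1 : ℤ) : ℝ))
      (b := pa + 1 + ((n + 1 : ℤ) : ℝ)) (x := z) (by push_cast; linarith)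
      (by push_cast; linarith)] with y hy
    exact bumpPer_eq ha hm hb hlen.le _ ⟨by linarith [hy.1], by linarith [hy.2]⟩
  · have h1 := Int.le_ceil (z - pa - 1)
    have h2 := Int.ceil_lt_add_one (z - pa - 1)
    rw [← hn] at h1 h2
    have h3 : z - n < pa + 1 := lt_of_le_of_ne (by linarith) hz
    by_cases hz' : qb - 1 < z - n
    · have hs : ContDiff ℝ 1 fun y : ℝ => bump pa qa pb qb (y - (n : ℝ)) :=
        contDiff_bump.comp (contDiff_id.sub contDiff_const)
      refine hs.contDiffAt.congr_of_eventuallyEq ?_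
      filter_upwards [Ioo_mem_nhds (a := qb - 1 + (n : ℝ)) (b := pa + 1 + (n : ℝ)) (x := z)
        (by linarith) (by linarith)] with y hy
      exact bumpPer_eq ha hm hb hlen.le _ ⟨by linarith [hy.1], by linarith [hy.2]⟩
    · exact absurd (by linarith : qb - 1 < z - n) hz'

end Bump

variable (B : Base)

/-- The rotation orbit of `x` is in the open arc at time `t`. -/
def InArc (a b x : ℝ) : Prop := ∃ n : ℤ, x + n ∈ Set.Ioo a b

/-- The point is in the closed arc. -/
def InArcC (a b x : ℝ) : Prop := ∃ n : ℤ, x + n ∈ Set.Icc a b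

/-- The point is not on an endpoint. -/
def OffEnd (a b x : ℝ) : Prop := ∀ n : ℤ, x + n ≠ a ∧ x + n ≠ b

lemma h_add_int (n : ℤ) (z : ℝ) : B.h (z + n) = B.h z + n :=
  (⟨⟨B.h, B.mono_h⟩, B.h_add_one⟩ : CircleDeg1Lift).map_add_int z n

lemma exists_weight {a b : ℝ} (ha : a ∈ B.gaps) (hb : b ∈ B.gaps) (hab : a < b)
    (hlen : b < a + 1) :
    ∃ w : ℝ → ℝ, Periodic w 1 ∧ ContDiff ℝ 1 w ∧ (∀ z, w z ∈ Set.Icc (0 : ℝ) 1) ∧
      (∀ z, InArc a b (B.h z) → w z = 1) ∧ (∀ z, w z ≠ 0 → InArcC a b (B.h z)) ∧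
      (∀ z, OffEnd a b (B.h z) → w z = 0 ∨ w z = 1) := by
  obtain ⟨pa, qa, hpqa, hA⟩ := B.gap_interval a ha
  obtain ⟨pb, qb, hpqb, hB⟩ := B.gap_interval b hb
  have hpa := hA pa ⟨le_rfl, hpqa.le⟩
  have hqa := hA qa ⟨hpqa.le, le_rfl⟩
  have hpb := hB pb ⟨le_rfl, hpqb.le⟩
  have hqb := hB qb ⟨hpqb.le, le_rfl⟩
  have hm : qa ≤ pb := by
    by_contra h
    have := B.mono_h (le_of_not_ge h)
    linarith
  have hl : qb < pa + 1 := by
    by_contra h
    have := B.mono_h (not_lt.1 h)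
    rw [B.h_add_one] at this
    linarith
  -- reduce to the fundamental domain
  have red : ∀ z : ℝ, ∃ y : ℝ, ∃ n : ℤ, y = z + n ∧ y ∈ Set.Ico pa (pa + 1) ∧
      bumpPer pa qa pb qb z = bump pa qa pb qb y ∧ B.h y = B.h z + n := by
    intro z
    refine ⟨pa + Int.fract (z - pa), -⌊z - pa⌋, ?_, ⟨?_, ?_⟩, rfl, ?_⟩
    · rw [Int.fract]; push_cast; ring
    · linarith [Int.fract_nonneg (z - pa)]
    · linarith [Int.fract_lt_one (z - pa)]
    · rw [← h_add_int, Int.fract]; congr 1; push_cast; ring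
  refine ⟨bumpPer pa qa pb qb, bumpPer_periodic, contDiff_bumpPer hpqa hm hpqb hl,
    fun z => bump_mem hpqa hm hpqb _, ?_, ?_, ?_⟩
  · intro z ⟨n, hn⟩
    have hh : B.h (z + n) = B.h z + n := h_add_int B n z
    have h1 : qa ≤ z + n := by
      by_contra h
      have := B.mono_h (le_of_not_ge h)
      linarith [hn.1]
    have h2 : z + n ≤ pb := by
      by_contra h
      have := B.mono_h (le_of_not_ge h)
      linarith [hn.2]
    rw [bumpPer_eq hpqa hm hpqb hl.le (-n) ⟨by push_cast; linarith, by push_cast; linarith⟩]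
    push_cast
    rw [sub_neg_eq_add]
    exact bump_middle hpqa hpqb ⟨h1, h2⟩
  · intro z hz
    obtain ⟨y, n, -, hy, hw, hh⟩ := red z
    rw [hw] at hz
    have h2 : y ≤ qb := le_of_not_gt fun h => hz (bump_right hpqa hm hpqb h.le)
    exact ⟨n, by rw [← hh]; exact ⟨hpa ▸ B.mono_h hy.1, hqb ▸ B.mono_h h2⟩⟩
  · intro z hz
    obtain ⟨y, n, -, hy, hw, hh⟩ := red z
    rw [hw]
    by_cases h1 : y ≤ qa
    · exact absurd (hh ▸ hA y ⟨hy.1, h1⟩) (hz n).1
    by_cases h2 : y ≤ pb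
    · exact Or.inr (bump_middle hpqa hpqb ⟨le_of_not_ge h1, h2⟩)
    by_cases h3 : qb ≤ y
    · exact Or.inl (bump_right hpqa hm hpqb h3)
    exact absurd (hh ▸ hB y ⟨le_of_not_ge h2, le_of_not_ge h3⟩) (hz n).2

/-- A point avoiding all translates of gap values. -/
lemma exists_centre : ∃ x0 : ℝ, ∀ e ∈ B.gaps, ∀ t : ℕ, ∀ n : ℤ, x0 + t * B.al + n ≠ e := by
  have hc : ((fun p : ℝ × ℕ × ℤ => p.1 - p.2.1 * B.al - p.2.2) ''
      (B.gaps ×ˢ (Set.univ ×ˢ Set.univ))).Countable :=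
    (B.gaps_countable.prod (Set.countable_univ.prod Set.countable_univ)).image _
  obtain ⟨x0, hx0⟩ := (hc.dense_compl ℝ).nonempty
  refine ⟨x0, fun e he t n h => hx0 ⟨(e, t, n), ⟨he, trivial, trivial⟩, ?_⟩⟩
  simp only
  linarith

/-- The next window: small, inside one segment, and with late returns. -/
lemma exists_next {x0 : ℝ} (hx0 : ∀ e ∈ B.gaps, ∀ t : ℕ, ∀ n : ℤ, x0 + t * B.al + n ≠ e)
    (S : Finset ℝ) (hS : ↑S ⊆ B.gaps) (m mm : ℕ) :
    ∃ a b : ℝ, a ∈ B.gaps ∧ b ∈ B.gaps ∧ a < x0 ∧ x0 < b ∧ b < a + 1 ∧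
      (∀ x ∈ Set.Icc a b, ∀ t ≤ m, ∀ e ∈ S, ∀ n : ℤ, x + t * B.al + n ≠ e) ∧
      ∀ t : ℕ, 0 < t → t < mm → ¬InArc a b (x0 + t * B.al) := by
  -- good radii
  have hd : ∀ c : ℝ, (∀ n : ℤ, c + n ≠ 0) → ∀ᶠ r in 𝓝 (0 : ℝ), ∀ n : ℤ, r < |c + n| := by
    intro c hc
    have hpos : 0 < |c - round c| := abs_pos.2 (by
      have := hc (-round c); push_cast at this; rwa [← sub_eq_add_neg] at this)
    filter_upwards [Iio_mem_nhds hpos] with r hr n
    have := round_le c (-n)
    push_cast at this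
    rw [sub_neg_eq_add] at this
    exact lt_of_lt_of_le hr this
  have h1 : ∀ᶠ r in 𝓝 (0 : ℝ), ∀ t ∈ Finset.range (m + 1), ∀ e ∈ S, ∀ n : ℤ,
      r < |x0 + t * B.al - e + n| := by
    rw [Finset.eventually_all]
    intro t _
    rw [Finset.eventually_all]
    intro e he
    exact hd _ fun n h => hx0 e (hS he) t n (by linarith)
  have h2 : ∀ᶠ r in 𝓝 (0 : ℝ), ∀ t ∈ Finset.Ico 1 mm, ∀ n : ℤ, r < |(t : ℝ) * B.al + n| := by
    rw [Finset.eventually_all]
    intro t ht
    refine hd _ fun n h => (B.irr.natCast_mul (m := t) ?_).ne_int (-n) ?_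
    · have := (Finset.mem_Ico.1 ht).1; omega
    · push_cast; linarith
  obtain ⟨r, ⟨h1, h2, hr1⟩, hr⟩ :=
    ((h1.and (h2.and (Iio_mem_nhds (show (0 : ℝ) < 1 / 2 by norm_num)))).filter_mono
      (nhdsWithin_le_nhds (s := Set.Ioi 0)) |>.and self_mem_nhdsWithin).exists
  change (0 : ℝ) < r at hr
  change r < 1 / 2 at hr1
  obtain ⟨a, ha, haI⟩ := B.gaps_dense.exists_between (show x0 - r < x0 by linarith)
  obtain ⟨b, hb, hbI⟩ := B.gaps_dense.exists_between (show x0 < x0 + r by linarith)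
  refine ⟨a, b, ha, hb, haI.2, hbI.1, by linarith [haI.1, hbI.2], ?_, ?_⟩
  · intro x hx t ht e he n h
    have := h1 t (Finset.mem_range.2 (Nat.lt_succ_of_le ht)) e he n
    rw [show x0 + t * B.al - e + n = x0 - x by linarith] at this
    have : |x0 - x| ≤ r := abs_le.2 ⟨by linarith [hx.2, hbI.2], by linarith [hx.1, haI.1]⟩
    linarith
  · intro t ht htm ⟨n, hn⟩
    have := h2 t (Finset.mem_Ico.2 ⟨ht, htm⟩) n
    have : |(t : ℝ) * B.al + n| ≤ r :=
      abs_le.2 ⟨by linarith [hn.1, haI.1], by linarith [hn.2, hbI.2]⟩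
    linarith

/-- Two points without an endpoint translate between them are on the same side of it. -/
lemma side {a b c s x y : ℝ} (hx : x ∈ Set.Icc a b) (hy : y ∈ Set.Icc a b)
    (h : ∀ u ∈ Set.Icc a b, u + s ≠ c) (hlt : x + s < c) : y + s < c := by
  by_contra hge
  have := h (c - s) ⟨by linarith [hx.1], by linarith [hy.2, not_lt.1 hge]⟩
  simp at this

/-- State of the recursion: the endpoints so far, the present window, its first return time, the
weight and a bound for return times. -/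
structure Stage (x0 : ℝ) (mm : ℕ) where
  /-- Endpoints so far. -/
  S : Finset ℝ
  /-- Left end. -/
  a : ℝ
  /-- Right end. -/
  b : ℝ
  /-- First return time. -/
  m : ℕ
  /-- Weight. -/
  w : ℝ → ℝ
  /-- Bound. -/
  N : ℕ
  subset : ↑S ⊆ B.gaps
  left : a < x0
  right : x0 < b
  mem_a : a ∈ S
  mem_b : b ∈ S
  periodic : Periodic w 1
  smooth : ContDiff ℝ 1 w
  mem : ∀ z, w z ∈ Set.Icc (0 : ℝ) 1
  one : ∀ z, InArc a b (B.h z) → w z = 1
  supp : ∀ z, w z ≠ 0 → InArcC a b (B.h z)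
  decided : ∀ z, OffEnd a b (B.h z) → w z = 0 ∨ w z = 1
  m_pos : 0 < m
  m_ge : mm ≤ m
  m_hit : InArc a b (x0 + m * B.al)
  m_first : ∀ t : ℕ, 0 < t → t < m → ¬InArc a b (x0 + t * B.al)
  hit : ∀ z, ∃ k < N, w (B.Ph^[k] z) = 1

lemma exists_stage {x0 : ℝ} (hx0 : ∀ e ∈ B.gaps, ∀ t : ℕ, ∀ n : ℤ, x0 + t * B.al + n ≠ e)
    (S : Finset ℝ) (hS : ↑S ⊆ B.gaps) (m mm : ℕ) :
    ∃ st : Stage B x0 mm, S ⊆ st.S ∧
      ∀ x ∈ Set.Icc st.a st.b, ∀ t ≤ m, ∀ e ∈ S, ∀ n : ℤ, x + t * B.al + n ≠ e := by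
  classical
  obtain ⟨a, b, ha, hb, hax, hxb, hlen, hav, hlate⟩ := exists_next B hx0 S hS m mm
  obtain ⟨N, hN⟩ := exists_hit B.irr (hax.trans hxb)
  obtain ⟨w, hw1, hw2, hw3, hw4, hw5, hw6⟩ := exists_weight B ha hb (hax.trans hxb) hlen
  have hex : ∃ t : ℕ, 0 < t ∧ InArc a b (x0 + t * B.al) := by
    obtain ⟨k, -, n, hn⟩ := hN (x0 + B.al)
    exact ⟨k + 1, k.succ_pos, n, by push_cast; rw [show x0 + (k + 1) * B.al + n
      = x0 + B.al + k * B.al + n by ring]; exact hn⟩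
  refine ⟨⟨insert a (insert b S), a, b, Nat.find hex, w, N, ?_, hax, hxb, by simp, by simp, hw1,
    hw2, hw3, hw4, hw5, hw6, (Nat.find_spec hex).1, ?_, (Nat.find_spec hex).2,
    fun t h0 ht hi => Nat.find_min hex ht ⟨h0, hi⟩, ?_⟩, ?_, hav⟩
  · simp [Set.insert_subset_iff, ha, hb, hS]
  · by_contra h
    exact hlate _ (Nat.find_spec hex).1 (not_le.1 h) (Nat.find_spec hex).2
  · intro z
    obtain ⟨k, hk, n, hn⟩ := hN (B.h z)
    exact ⟨k, hk, hw4 _ ⟨n, by rw [B.h_iter]; exact hn⟩⟩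
  · exact (Finset.subset_insert _ _).trans (Finset.subset_insert _ _)

end Construction

theorem exists_windows (B : Base) (mmin : ℕ → ℕ) : Nonempty (Windows B mmin) := by
  classical
  obtain ⟨x0, hx0⟩ := exists_centre B
  choose next hsub hav using fun (S : {S : Finset ℝ // ↑S ⊆ B.gaps}) (m mm : ℕ) =>
    exists_stage B hx0 S.1 S.2 m mm
  let nil : {S : Finset ℝ // ↑S ⊆ B.gaps} := ⟨∅, by simp⟩
  let st : (j : ℕ) → Stage B x0 (mmin (j + 1)) := fun j =>
    Nat.rec (motive := fun j => Stage B x0 (mmin (j + 1))) (next nil 1 (mmin 1))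
      (fun j ih => next ⟨ih.S, ih.subset⟩ ih.m (mmin (j + 1 + 1))) j
  have st_succ : ∀ j, st (j + 1) = next ⟨(st j).S, (st j).subset⟩ (st j).m (mmin (j + 1 + 1)) :=
    fun j => rfl
  -- endpoints accumulate
  have hS : ∀ j i, i ≤ j → (st i).a ∈ (st j).S ∧ (st i).b ∈ (st j).S := by
    intro j
    induction j with
    | zero => intro i hi; obtain rfl : i = 0 := (by omega); exact ⟨(st 0).mem_a, (st 0).mem_b⟩
    | succ j ih =>
      intro i hi
      rcases Nat.eq_or_lt_of_le hi with rfl | hi'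
      · exact ⟨(st (j + 1)).mem_a, (st (j + 1)).mem_b⟩
      · have hs : (st j).S ⊆ (st (j + 1)).S := by rw [st_succ]; exact hsub ⟨(st j).S, (st j).subset⟩ _ _
        exact ⟨hs (ih i (by omega)).1, hs (ih i (by omega)).2⟩
  have key : ∀ j, ∀ x ∈ Set.Icc (st (j + 1)).a (st (j + 1)).b, ∀ t ≤ (st j).m, ∀ i ≤ j,
      OffEnd (st i).a (st i).b (x + t * B.al) ∧
      (InArc (st i).a (st i).b (x0 + t * B.al) → InArc (st i).a (st i).b (x + t * B.al)) ∧
      (InArcC (st i).a (st i).b (x + t * B.al) → InArc (st i).a (st i).b (x0 + t * B.al)) := by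
    intro j x hx t ht i hi
    have h := hav ⟨(st j).S, (st j).subset⟩ (st j).m (mmin (j + 1 + 1))
    rw [← st_succ] at h
    obtain ⟨hai, hbi⟩ := hS j i hi
    have hx0' : x0 ∈ Set.Icc (st (j + 1)).a (st (j + 1)).b :=
      ⟨(st (j + 1)).left.le, (st (j + 1)).right.le⟩
    have hside : ∀ e ∈ (st j).S, ∀ n : ℤ,
        ∀ u ∈ Set.Icc (st (j + 1)).a (st (j + 1)).b,
        ∀ v ∈ Set.Icc (st (j + 1)).a (st (j + 1)).b,
        u + t * B.al + n < e → v + t * B.al + n < e := by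
      intro e he n u hu v hv hlt
      rw [add_assoc] at hlt ⊢
      exact side hu hv (fun w hw => by rw [← add_assoc]; exact h w hw t ht e he n) hlt
    refine ⟨fun n => ⟨h x hx t ht _ hai n, h x hx t ht _ hbi n⟩, ?_, ?_⟩
    · rintro ⟨n, h1, h2⟩
      refine ⟨n, ?_, hside _ hbi n x0 hx0' x hx h2⟩
      by_contra hc
      exact absurd (hside _ hai n x hx x0 hx0'
        (lt_of_le_of_ne (not_lt.1 hc) (h x hx t ht _ hai n))) h1.not_gt
    · rintro ⟨n, h1, h2⟩
      refine ⟨n, ?_, hside _ hbi n x hx x0 hx0' (lt_of_le_of_ne h2 (h x hx t ht _ hbi n))⟩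
      by_contra hc
      exact absurd (hside _ hai n x0 hx0' x hx
        (lt_of_le_of_ne (not_lt.1 hc) (h x0 hx0' t ht _ hai n))) h1.not_gt
  -- the same in terms of the orbit
  have orbit : ∀ j z, (st (j + 1)).w z ≠ 0 → ∀ t ≤ (st j).m, ∀ i ≤ j,
      ((st i).w (B.Ph^[t] z) = 0 ∨ (st i).w (B.Ph^[t] z) = 1) ∧
      (InArc (st i).a (st i).b (x0 + t * B.al) → (st i).w (B.Ph^[t] z) = 1) ∧
      ((st i).w (B.Ph^[t] z) ≠ 0 → InArc (st i).a (st i).b (x0 + t * B.al)) := by
    intro j z hz t ht i hi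
    obtain ⟨n, hn⟩ := (st (j + 1)).supp z hz
    obtain ⟨ho, hA, hC⟩ := key j _ hn t ht i hi
    have e : B.h (B.Ph^[t] z) = B.h z + t * B.al := B.h_iter t z
    refine ⟨(st i).decided _ fun k => ?_, fun h => (st i).one _ ?_, fun h => hC ?_⟩
    · have := ho (k - n)
      push_cast at this
      rwa [e, show B.h z + t * B.al + k = B.h z + n + t * B.al + (k - n) by ring]
    · obtain ⟨k, hk⟩ := hA h
      exact ⟨n + k, by push_cast; rw [e, show B.h z + t * B.al + (n + k)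
        = B.h z + n + t * B.al + k by ring]; exact hk⟩
    · obtain ⟨k, hk⟩ := (st i).supp _ h
      rw [e] at hk
      exact ⟨k - n, by push_cast; rw [show B.h z + n + t * B.al + (k - n)
        = B.h z + t * B.al + k by ring]; exact hk⟩
  refine ⟨{
    w := fun j => match j with | 0 => fun _ => 1 | j + 1 => (st j).w
    m := fun j => match j with | 0 => 1 | j + 1 => (st j).m
    Mx := fun j => match j with | 0 => 1 | j + 1 => (st j).N
    m_zero := rfl
    Mx_zero := rfl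
    w_zero := fun _ => rfl
    periodic := ?_
    smooth := ?_
    mem := ?_
    mmin_le := fun j => (st j).m_ge
    nested := ?_
    entry := ?_
    bad_le := ?_ }⟩
  · intro j; cases j with
    | zero => exact fun _ => rfl
    | succ j => exact (st j).periodic
  · intro j; cases j with
    | zero => exact contDiff_const
    | succ j => exact (st j).smooth
  · intro j z; cases j with
    | zero => exact ⟨zero_le_one, le_rfl⟩
    | succ j => exact (st j).mem z
  · intro j z hz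
    cases j with
    | zero =>
      refine ⟨fun t _ i hi => ?_, rfl, rfl, Nat.one_pos, fun t h0 h1 => ?_⟩
      · obtain rfl : i = 0 := (by omega)
        exact Or.inr rfl
      · simp at h1; omega
    | succ j =>
      simp only at hz ⊢
      refine ⟨fun t ht i hi => ?_, ?_, ?_, (st j).m_pos, fun t h0 h1 => ?_⟩
      · cases i with
        | zero => exact Or.inr rfl
        | succ i => exact (orbit j z hz t ht i (by omega)).1
      · exact (orbit j z hz 0 (Nat.zero_le _) j le_rfl).2.1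
          ⟨0, by simpa using ⟨(st j).left, (st j).right⟩⟩
      · exact (orbit j z hz _ le_rfl j le_rfl).2.1 (st j).m_hit
      · by_contra h
        exact (st j).m_first t h0 h1 ((orbit j z hz t h1.le j le_rfl).2.2 h)
  · intro j z
    cases j with
    | zero => exact ⟨0, Nat.one_pos, rfl⟩
    | succ j => exact (st j).hit z
  · intro i z
    cases i with
    | zero => exact ⟨∅, by simp, fun _ _ => Or.inr rfl⟩
    | succ i =>
      have huniq : ∀ e : ℝ, ∃ F : Finset ℕ, F.card ≤ 1 ∧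
          ∀ t, t ∉ F → ∀ n : ℤ, B.h z + t * B.al + n ≠ e := by
        intro e
        by_cases hex : ∃ t : ℕ, ∃ n : ℤ, B.h z + t * B.al + n = e
        · obtain ⟨t0, n0, h0⟩ := hex
          refine ⟨{t0}, by simp, fun t ht n hn => ?_⟩
          have hne : (t : ℤ) - t0 ≠ 0 := by
            simp only [Finset.mem_singleton] at ht; omega
          refine (B.irr.intCast_mul hne).ne_int (n0 - n) ?_
          push_cast
          linarith
        · exact ⟨∅, by simp, fun t _ n hn => hex ⟨t, n, hn⟩⟩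
      obtain ⟨F, hF, hF'⟩ := huniq (st i).a
      obtain ⟨G, hG, hG'⟩ := huniq (st i).b
      refine ⟨F ∪ G, (Finset.card_union_le F G).trans (by omega), fun t ht => ?_⟩
      simp only [Finset.mem_union, not_or] at ht
      refine (st i).decided _ fun n => ?_
      rw [B.h_iter]
      exact ⟨hF' t ht.1 n, hG' t ht.2 n⟩

namespace Windows

variable {B : Base} {mmin : ℕ → ℕ} (Wd : Windows B mmin)

/-- Weight of the return time `M` at level `j`. -/
def ret (j M : ℕ) (z : ℝ) : ℝ :=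
  Wd.w j z * Wd.w j (B.Ph^[M] z) * ∏ k ∈ Finset.Ico 1 M, (1 - Wd.w j (B.Ph^[k] z))

/-- All windows up to level `j` are decided at time `t`. -/
def Decided (j t : ℕ) (z : ℝ) : Prop :=
  ∀ i ≤ j, Wd.w i (B.Ph^[t] z) = 0 ∨ Wd.w i (B.Ph^[t] z) = 1

/-- `z` starts a good period of length `M` of level `j`. -/
def Period (j M : ℕ) (z : ℝ) : Prop :=
  0 < M ∧ Wd.w j z = 1 ∧ Wd.w j (B.Ph^[M] z) = 1 ∧
    (∀ t, 0 < t → t < M → Wd.w j (B.Ph^[t] z) = 0) ∧ ∀ t ≤ M, Wd.Decided j t z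

lemma ret_nonneg (j M : ℕ) (z : ℝ) : 0 ≤ Wd.ret j M z := by
  refine mul_nonneg (mul_nonneg (Wd.mem j _).1 (Wd.mem j _).1) (Finset.prod_nonneg fun k _ => ?_)
  linarith [(Wd.mem j (B.Ph^[k] z)).2]

lemma sum_ret_le_one (j N : ℕ) (z : ℝ) : ∑ M ∈ Finset.Icc 1 N, Wd.ret j M z ≤ 1 := by
  have key : ∀ n : ℕ, ∑ M ∈ Finset.Icc 1 n, Wd.ret j M z =
      Wd.w j z * (1 - ∏ k ∈ Finset.Ico 1 (n + 1), (1 - Wd.w j (B.Ph^[k] z))) := by
    intro n
    induction n with
    | zero => simp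
    | succ n ih =>
      rw [Finset.sum_Icc_succ_top (by omega), ih, ret, Finset.prod_Ico_succ_top (show 1 ≤ n + 1 by omega)]
      ring
  rw [key]
  have hp : 0 ≤ ∏ k ∈ Finset.Ico 1 (N + 1), (1 - Wd.w j (B.Ph^[k] z)) :=
    Finset.prod_nonneg fun k _ => by linarith [(Wd.mem j (B.Ph^[k] z)).2]
  exact (mul_le_of_le_one_right (Wd.mem j z).1 (by linarith)).trans (Wd.mem j z).2

lemma ret_periodic (j M : ℕ) : Periodic (Wd.ret j M) 1 := by
  intro z
  simp only [ret, B.Ph_iter_add_one, Wd.periodic j _]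

lemma contDiff_ret (j M : ℕ) : ContDiff ℝ 1 (Wd.ret j M) := by
  have hit : ∀ k, ContDiff ℝ 1 fun z => Wd.w j (B.Ph^[k] z) := by
    intro k
    refine (Wd.smooth j).comp ?_
    induction k with
    | zero => exact contDiff_id
    | succ k ih => rw [Function.iterate_succ']; exact B.contDiff_Ph.comp ih
  exact ((Wd.smooth j).mul (hit M)).mul (contDiff_prod fun k _ => contDiff_const.sub (hit k))

lemma ret_eq_zero_of_window (j M : ℕ) {z : ℝ} (h : Wd.w j z = 0) : Wd.ret j M z = 0 := by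
  simp [ret, h]

lemma period_first {j : ℕ} {z : ℝ} (h : Wd.w (j + 1) z ≠ 0) : Wd.Period j (Wd.m j) z := by
  obtain ⟨hd, h0, h1, hm, hz⟩ := Wd.nested j z h
  exact ⟨hm, h0, h1, hz, hd⟩

lemma one_le_m (j : ℕ) : 1 ≤ Wd.m j := by
  obtain ⟨k, -, hk⟩ := Wd.entry (j + 1) 0
  exact (Wd.nested j _ (by rw [hk]; exact one_ne_zero)).2.2.2.1

lemma m_le_of_period {j M : ℕ} {z : ℝ} (h : Wd.Period (j + 1) M z) : Wd.m j ≤ M := by
  obtain ⟨hM, h0, h1, -, -⟩ := h
  obtain ⟨-, -, -, -, hz⟩ := Wd.nested j z (by rw [h0]; exact one_ne_zero)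
  by_contra hlt
  have := (Wd.nested j _ (by rw [h1]; exact one_ne_zero)).2.1
  rw [hz M hM (not_le.1 hlt)] at this
  exact zero_ne_one this

lemma ret_of_period {j M : ℕ} {z : ℝ} (h : Wd.Period j M z) :
    M ≤ Wd.Mx j ∧ ∀ N, 0 < N → Wd.ret j N z = if N = M then 1 else 0 := by
  obtain ⟨hM, h0, h1, hz, -⟩ := h
  constructor
  · obtain ⟨k, hk, hw⟩ := Wd.entry j (B.Ph z)
    rw [← Function.iterate_succ_apply] at hw
    by_contra hlt
    rw [hz (k + 1) k.succ_pos (by omega)] at hw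
    exact zero_ne_one hw
  · intro N hN
    rcases lt_trichotomy N M with h | rfl | h
    · rw [if_neg h.ne, ret, hz N hN h]; simp
    · rw [if_pos rfl, ret, h0, h1, Finset.prod_eq_one fun k hk => ?_]
      · simp
      · rw [hz k (Finset.mem_Ico.1 hk).1 (Finset.mem_Ico.1 hk).2, sub_zero]
    · rw [if_neg h.ne', ret, Finset.prod_eq_zero (Finset.mem_Ico.2 ⟨hM, h⟩) (by rw [h1, sub_self])]
      simp

lemma ret_ne_zero {j M : ℕ} {z : ℝ} (hM : 0 < M) (h : Wd.ret (j + 1) M z ≠ 0) :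
    Wd.w (j + 1) z ≠ 0 ∧ Wd.m j ≤ M := by
  obtain ⟨h01, -⟩ := mul_ne_zero_iff.1 h
  obtain ⟨h0, h1⟩ := mul_ne_zero_iff.1 h01
  refine ⟨h0, ?_⟩
  obtain ⟨-, -, -, -, hz⟩ := Wd.nested j z h0
  by_contra hlt
  have := (Wd.nested j _ h1).2.1
  rw [hz M hM (not_le.1 hlt)] at this
  exact zero_ne_one this

/-- A good period of a finer level starts with a good period of the coarser one and decomposes into
good periods of the coarser one. -/
lemma period_split {j M : ℕ} {z : ℝ} (h : Wd.Period (j + 1) M z) :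
    Wd.Period j (Wd.m j) z ∧ ∀ t, t < M → Wd.w j (B.Ph^[t] z) = 1 →
      ∃ d, t + d ≤ M ∧ Wd.Period j d (B.Ph^[t] z) := by
  classical
  obtain ⟨hM, h0, h1, -, hd⟩ := h
  refine ⟨Wd.period_first (by rw [h0]; exact one_ne_zero), fun t ht hwt => ?_⟩
  have hend : Wd.w j (B.Ph^[M - t] (B.Ph^[t] z)) = 1 := by
    rw [← Function.iterate_add_apply, Nat.sub_add_cancel ht.le]
    exact (Wd.nested j _ (by rw [h1]; exact one_ne_zero)).2.1
  have hex : ∃ d : ℕ, 0 < d ∧ Wd.w j (B.Ph^[d] (B.Ph^[t] z)) = 1 := ⟨M - t, by omega, hend⟩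
  have hle : Nat.find hex ≤ M - t := Nat.find_min' hex ⟨by omega, hend⟩
  have hdec : ∀ d ≤ M - t, Wd.Decided j d (B.Ph^[t] z) := fun d hd' i hi => by
    rw [← Function.iterate_add_apply]
    exact hd (d + t) (by omega) i (by omega)
  refine ⟨Nat.find hex, by omega, (Nat.find_spec hex).1, hwt, (Nat.find_spec hex).2,
    fun d hd0 hd1 => ?_, fun d hd' => hdec d (by omega)⟩
  exact (hdec d (by omega) j le_rfl).resolve_right fun h' => Nat.find_min hex hd1 ⟨hd0, h'⟩

end Windows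

end

end Vale.Agent.P103S
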