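import Vale.Agent.P103S.Step
import Vale.Agent.P103S.Windows

/-! P103: the tower of refinements. -/

namespace Vale.Agent.P103S

noncomputable section

open Real Finset

/-- Admissible scales. -/
structure ScaleOK (s : ℕ → ℝ) : Prop where
  zero : s 0 = 0
  pos : ∀ j, 0 < s (j + 1)
  le : ∀ j, s (j + 1) ≤ 1 / 1000

/-- Blend to the squaring map. -/
def bBig (r : ℝ) : ℝ := stp ((r - 100) / 100)

/-- The map of level zero in the first coordinate: `u ^ 2` for large `u`. -/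
def f0u (u : ℂ) : ℂ :=
  (((1 - bBig ‖u‖) * rad (lam 0) 0 ‖u‖ + bBig ‖u‖ * ‖u‖ ^ 2 : ℝ) : ℂ) *
    Complex.exp (((2 * Complex.arg u + (1 - bBig ‖u‖) * (lam 0 - 2) * tau (Complex.arg u) : ℝ) : ℂ)
      * Complex.I)

/-- The map of level zero. -/
def F0 (x : ℂ × ℂ) : ℂ × ℂ :=
  (f0u x.1, ((1 - bBig ‖x.1‖ : ℝ) : ℂ) * sig (nu 0) 1 x.2)

variable (B : Base) {mmin : ℕ → ℕ} (Wd : Windows B mmin) (s : ℕ → ℝ)

/-- Coordinates of level `j`. -/
def coord : ℕ → ℂ × ℂ → ℂ × ℂ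
  | 0, x => x
  | j + 1, x => chart (s (j + 1)) (coord j x)

/-- Lift from level `j` along the distinguished periods. -/
def Lft (m : ℕ → ℕ) : ℕ → ℂ × ℂ → ℂ × ℂ
  | 0, Y => Y
  | j + 1, Y => Lft m j (lift (lam j) (nu j) (s (j + 1)) (m (j + 1) - m j) Y)

/-- Lift from the end of a period of length `M` of level `j` to the time one position. -/
def Lseg (m : ℕ → ℕ) : ℕ → ℕ → ℂ × ℂ → ℂ × ℂ
  | 0, _, Y => Y
  | j + 1, M, Y => Lft s m j (lift (lam j) (nu j) (s (j + 1)) (M - m j) Y)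

variable {B}

/-- Parameters of the refinement of level `j` with period `M`. -/
def par (j M : ℕ) : StepPar :=
  ⟨lam j, nu j, lam (j + 1), nu (j + 1), s j, s (j + 1), Wd.m j, M⟩

/-- The old map in the window of level `j + 1`. -/
def yOld (j : ℕ) (X : ℂ × ℂ) : ℂ × ℂ := (gmap (lam j) (s j) (Wd.m j) X.1, sig (nu j) (Wd.m j) X.2)

/-- The averaged new map. -/
def yMix (j : ℕ) (z : ℝ) (X : ℂ × ℂ) : ℂ × ℂ :=
  yOld Wd s j X + ∑ M ∈ Finset.Icc 1 (Wd.Mx (j + 1)),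
    Wd.ret (j + 1) M z • (newStep (par Wd s j M) X - yOld Wd s j X)

/-- The correction of level `j + 1`. -/
def corr (j : ℕ) (p : ℝ × ℂ × ℂ) : ℂ × ℂ :=
  Lft s Wd.m j (yMix Wd s j p.1 (coord s j p.2)) - Lft s Wd.m j (yOld Wd s j (coord s j p.2))

/-- The truncated fibre map. -/
def Gtr (j : ℕ) (z : ℝ) (x : ℂ × ℂ) : ℂ × ℂ := F0 x + ∑ i ∈ Finset.range j, corr Wd s i (z, x)

/-- The fibre map. -/
def Gfin (z : ℝ) (x : ℂ × ℂ) : ℂ × ℂ := F0 x + ∑' i, corr Wd s i (z, x)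

/-- Orbit of a fibre map over the base. -/
def orb (G : ℝ → ℂ × ℂ → ℂ × ℂ) : ℕ → ℝ → ℂ × ℂ → ℂ × ℂ
  | 0, _, x => x
  | t + 1, z, x => G (B.Ph^[t] z) (orb G t z x)

/-- Core radius: the exact formula of level `j` holds below it. -/
def dom : ℕ → ℝ
  | 0 => 100
  | j + 1 => 8 / s (j + 1)

/-- Contraction constant of the lifts. -/
def ctr (j : ℕ) : ℝ := ∏ i ∈ Finset.range j, 3 * s (i + 1)

end

end Vale.Agent.P103S
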